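import Vale.Agent.P214.PATHG.Props
import Vale.Agent.P214.R2.ExcBasic

/-!
# P214, block BoxPath, piece COLL: collapse from smallness of `A` at one scale
-/

open Set Filter Topology MeasureTheory Metric
open scoped RealInnerProductSpace ENNReal

set_option linter.all false

namespace Vale.Agent.P214.PATHG

open Vale.Agent.P214.Skel Vale.Agent.P214.EX Vale.Agent.P214.R2 Vale.Agent.P214.GEN
open Vale.Agent.P214.CAPF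

section real

variable {m : ℕ} {c C d η₁ K t₀ T₁ r₀ v AT : ℝ} {Ca Cb : ℕ} {A e : ℝ → ℝ}

/-- the bad scales below `r₀` are below `r₀ / 8` -/
lemma coll_bad (hm : 1 ≤ m) (hη : 0 < η₁) (hv1 : 1 ≤ v) (hvη8 : 8 ^ m * η₁⁻¹ ≤ v ^ Cb)
    (hmono : ∀ s t, s ≤ t → e s ≤ e t) (hr₀ : 0 < r₀) (hr₀T : r₀ < T₁)
    (hsm : ∀ r, r₀ < r → r ≤ T₁ → e r ≤ (v ^ Cb)⁻¹ * r ^ m)
    (hsη : ∀ r, r₀ < r → r ≤ 1 / 8 → e r ≤ η₁ * r ^ m) {s : ℝ} (hs0 : 0 < s) (hs : s ≤ 1 / 8)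
    (hbad : η₁ * s ^ m < e s) : s ≤ r₀ / 8 := by
  have hv0 : 0 < v := by linarith
  have h1 : s ≤ r₀ := by
    by_contra h
    exact absurd (hsη s (not_le.1 h) hs) (not_le.2 hbad)
  have h2 : ∀ r', r₀ < r' → r' ≤ T₁ → η₁ * s ^ m ≤ (v ^ Cb)⁻¹ * r' ^ m := by
    intro r' h3 h4
    exact hbad.le.trans ((hmono _ _ (h1.trans h3.le)).trans (hsm r' h3 h4))
  have h5 : η₁ * s ^ m ≤ (v ^ Cb)⁻¹ * r₀ ^ m := by
    have hcont : Tendsto (fun r' : ℝ => (v ^ Cb)⁻¹ * r' ^ m) (𝓝[>] r₀)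
        (𝓝 ((v ^ Cb)⁻¹ * r₀ ^ m)) :=
      ((continuous_const.mul (continuous_pow m)).tendsto r₀).mono_left nhdsWithin_le_nhds
    refine ge_of_tendsto hcont ?_
    filter_upwards [Ioo_mem_nhdsGT hr₀T] with r' hr'
    exact h2 r' hr'.1 hr'.2.le
  have h7 : η₁ * (8 * s) ^ m ≤ η₁ * r₀ ^ m := by
    calc η₁ * (8 * s) ^ m = 8 ^ m * (η₁ * s ^ m) := by rw [mul_pow]; ring
      _ ≤ 8 ^ m * ((v ^ Cb)⁻¹ * r₀ ^ m) := by gcongr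
      _ = (8 ^ m * (v ^ Cb)⁻¹) * r₀ ^ m := by ring
      _ ≤ η₁ * r₀ ^ m := by
        gcongr
        rw [← div_eq_mul_inv, div_le_iff₀ (by positivity)]
        calc (8:ℝ) ^ m = (8 ^ m * η₁⁻¹) * η₁ := by field_simp
          _ ≤ v ^ Cb * η₁ := by gcongr
          _ = _ := by ring
  have h6 : (8 * s) ^ m ≤ r₀ ^ m := le_of_mul_le_mul_left h7 hη
  have h9 : 8 * s ≤ r₀ := le_of_pow_le_pow_left₀ (by omega) hr₀.le h6
  linarith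

/-- no bad scale above `r / 2` when `r² ≥ v^{-Ca} A(T₁)` -/
lemma coll_key (hm : 1 ≤ m) (hc : 0 < c) (hη : 0 < η₁) (hK0 : 0 < K) (hv1 : 1 ≤ v)
    (hvη8 : 8 ^ m * η₁⁻¹ ≤ v ^ Cb) (hvC' : 16 * (K * 4 ^ m / (c * η₁)) < v)
    (hmono : ∀ s t, s ≤ t → e s ≤ e t) (hr₀ : 0 < r₀) (hr₀T : r₀ < T₁) (hT : T₁ ≤ t₀)
    (ht₀ : t₀ ≤ 1 / 16)
    (hsm : ∀ r, r₀ < r → r ≤ T₁ → e r ≤ (v ^ Cb)⁻¹ * r ^ m)
    (hsη : ∀ r, r₀ < r → r ≤ 1 / 8 → e r ≤ η₁ * r ^ m)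
    (hV1 : ∀ t, 0 < t → t ≤ 1 / 16 → c * (t ^ (2 - (m : ℤ)) * e (t / 2)) ≤ A t)
    (hq : ∀ s, 0 < s → (∀ s', s ≤ s' → s' ≤ 1 / 8 → e s' ≤ η₁ * s' ^ m) →
      ∀ r r', 2 * s ≤ r → r ≤ r' → r' ≤ 2 * t₀ → A r ≤ K * A r')
    (hA0 : 0 ≤ A r₀)
    (hA : v ^ (Ca + 1) * A r₀ ≤ AT) {r : ℝ} (hr : 0 < r) (hr2 : (v ^ Ca)⁻¹ * AT ≤ r ^ 2)
    {s' : ℝ} (hs'1 : r / 2 ≤ s') (hs'2 : s' ≤ 1 / 8) : e s' ≤ η₁ * s' ^ m := by
  have hv0 : 0 < v := by linarith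
  by_contra hcon
  have hs'3 := not_le.1 hcon
  set Z : Set ℝ := {s | r / 2 ≤ s ∧ s ≤ 1 / 8 ∧ η₁ * s ^ m < e s} with hZ
  have hZr : ∀ s ∈ Z, s ≤ r₀ / 8 := fun s hs =>
    coll_bad hm hη hv1 hvη8 hmono hr₀ hr₀T hsm hsη (by linarith [hs.1]) hs.2.1 hs.2.2
  have hZb : BddAbove Z := ⟨r₀ / 8, hZr⟩
  have hs'Z : s' ∈ Z := ⟨hs'1, hs'2, hs'3⟩
  have hs1 : s' ≤ sSup Z := le_csSup hZb hs'Z
  have hs1' : sSup Z ≤ r₀ / 8 := csSup_le ⟨s', hs'Z⟩ hZr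
  have hs10 : 0 < sSup Z := by linarith
  obtain ⟨s₂, hs₂Z, hs₂⟩ := exists_lt_of_lt_csSup ⟨s', hs'Z⟩
    (show sSup Z / 2 < sSup Z by linarith)
  have hs₂0 : 0 < s₂ := by linarith
  have hs₂r := hZr s₂ hs₂Z
  have hup : ∀ s, 2 * s₂ ≤ s → s ≤ 1 / 8 → e s ≤ η₁ * s ^ m := by
    intro s h1 h2
    by_contra h3
    have h4 : s ∈ Z := ⟨by linarith [hs₂Z.1], h2, not_le.1 h3⟩
    have h5 := le_csSup hZb h4
    linarith
  have h6 : A (4 * s₂) ≤ K * A r₀ :=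
    hq (2 * s₂) (by positivity) hup (4 * s₂) r₀ (by linarith) (by linarith) (by linarith)
  have h7 : c * ((4 * s₂) ^ (2 - (m : ℤ)) * (η₁ * s₂ ^ m)) ≤ A (4 * s₂) := by
    refine le_trans ?_ (hV1 (4 * s₂) (by positivity) (by linarith))
    have := hs₂Z.2.2.le.trans (hmono s₂ (4 * s₂ / 2) (by linarith))
    gcongr
  have h8 : (4 * s₂) ^ (2 - (m : ℤ)) * (η₁ * s₂ ^ m) = η₁ * 16 * (4 ^ m)⁻¹ * s₂ ^ 2 := by
    rw [zpow_sub₀ (by positivity), zpow_natCast, mul_pow, zpow_ofNat]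
    field_simp
    norm_num
  rw [h8] at h7
  have h10 : c * (η₁ * 16 * (4 ^ m)⁻¹ * s₂ ^ 2) ≤ K * A r₀ := h7.trans h6
  have h9 : s₂ ^ 2 ≤ (K * 4 ^ m / (c * η₁)) * A r₀ := by
    calc s₂ ^ 2 = (c * (η₁ * 16 * (4 ^ m)⁻¹ * s₂ ^ 2)) * (4 ^ m / (16 * (c * η₁))) := by
          field_simp
      _ ≤ (K * A r₀) * (4 ^ m / (16 * (c * η₁))) := by gcongr
      _ = (1 / 16) * ((K * 4 ^ m / (c * η₁)) * A r₀) := by field_simp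
      _ ≤ 1 * ((K * 4 ^ m / (c * η₁)) * A r₀) := by
          gcongr
          norm_num
      _ = _ := one_mul _
  have h10 : A r₀ ≤ (v ^ (Ca + 1))⁻¹ * AT := by
    rw [le_inv_mul_iff₀ (by positivity)]; exact hA
  set C' : ℝ := K * 4 ^ m / (c * η₁) with hC'
  have hC'0 : 0 < C' := by positivity
  have h11 : v * s₂ ^ 2 ≤ C' * r ^ 2 := by
    calc v * s₂ ^ 2 ≤ v * (C' * ((v ^ (Ca + 1))⁻¹ * AT)) := by
          gcongr; exact h9.trans (by gcongr)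
      _ = C' * ((v ^ Ca)⁻¹ * AT) := by
          rw [pow_succ]; field_simp
      _ ≤ C' * r ^ 2 := by gcongr
  have h12 : r / 4 < s₂ := by linarith
  have h13 : r ^ 2 / 16 ≤ s₂ ^ 2 := by nlinarith
  have h14 : v * (r ^ 2 / 16) ≤ C' * r ^ 2 := le_trans (by gcongr) h11
  have h15 : 16 * C' * (r ^ 2 / 16) < v * (r ^ 2 / 16) := by gcongr
  linarith

/-- **real form of the collapse lemma**: the scales `r` with `r² ≥ v^{-Ca} A(T₁)`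
are in the range of quasi-monotonicity -/
lemma coll_real' (hC : 0 < C) (hK0 : 0 < K)
    (hab : Ca + 1 ≤ Cb) (hv36 : 144 ≤ v) (hvK : K ≤ v) (hvC : 36 * C * K * 2 ^ m ≤ v)
    (hr₀ : 0 < r₀) (hr₀T : r₀ ≤ T₁) (hT : T₁ ≤ 1 / 16)
    (hsm : ∀ r, r₀ < r → r ≤ T₁ / 2 → e r ≤ (v ^ Cb)⁻¹ * r ^ m)
    (hsd : ∀ r, r₀ < r → r ≤ 1 / 8 → e r ≤ d * r ^ m)
    (hV3 : ∀ t, 0 < t → t ≤ 1 / 32 → (∀ s, t ≤ s → s ≤ 1 / 8 → e s ≤ d * s ^ m) →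
      A t ≤ C * (t ^ (2 - (m : ℤ)) * e (2 * t)))
    (hq : ∀ r r', 0 < r → (v ^ Ca)⁻¹ * AT ≤ r ^ 2 → r ≤ r' → r' ≤ T₁ → A r ≤ K * A r')
    (hAT : AT = T₁ ^ 2 * Real.exp (-v)) (hA : v ^ (Ca + 1) * A r₀ ≤ AT) :
    ∃ ra, 0 < ra ∧ ra ≤ T₁ ∧ AT ≤ ra ^ 2 ∧
      ∀ r, 0 < r → (v ^ Ca)⁻¹ * AT ≤ r ^ 2 → r ≤ ra → A r ≤ (v ^ Ca)⁻¹ * AT := by
  have hv1 : 1 ≤ v := by linarith
  have hv0 : 0 < v := by linarith
  have hT₁0 : 0 < T₁ := lt_of_lt_of_le hr₀ hr₀T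
  have hAT0 : 0 < AT := by rw [hAT]; positivity
  have hexp : Real.exp (-v) * 144 ≤ 1 := by
    rw [Real.exp_neg, inv_mul_le_iff₀ (Real.exp_pos _), mul_one]
    have := Real.add_one_le_exp v
    linarith
  -- the candidate set
  set S : Set ℝ := {r | r₀ ≤ r ∧ r ≤ T₁ ∧ A r ≤ K⁻¹ * ((v ^ Ca)⁻¹ * AT)} with hS
  have hr₀S : r₀ ∈ S := by
    refine ⟨le_rfl, hr₀T, ?_⟩
    have h2 : A r₀ ≤ (v ^ (Ca + 1))⁻¹ * AT := by
      rw [le_inv_mul_iff₀ (by positivity)]; exact hA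
    refine h2.trans ?_
    rw [← mul_assoc, pow_succ, mul_inv, mul_comm ((v ^ Ca)⁻¹)]
    gcongr
  have hSb : BddAbove S := ⟨T₁, fun r hr => hr.2.1⟩
  have hsup : r₀ ≤ sSup S := le_csSup hSb hr₀S
  have hsup0 : 0 < sSup S := hr₀.trans_le hsup
  obtain ⟨ra, hraS, hra⟩ := exists_lt_of_lt_csSup ⟨r₀, hr₀S⟩ (show sSup S / 2 < sSup S by linarith)
  have hra0 : 0 < ra := hr₀.trans_le hraS.1
  refine ⟨ra, hra0, hraS.2.1, ?_, ?_⟩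
  · by_cases h6 : 12 * ra ≤ T₁
    · have h3 : A (3 * ra) ≤ C * ((3 * ra) ^ (2 - (m : ℤ)) * e (2 * (3 * ra))) := by
        refine hV3 (3 * ra) (by positivity) (by linarith) fun s hs1 hs2 => ?_
        exact hsd s (by linarith [hraS.1]) hs2
      have h4 : e (2 * (3 * ra)) ≤ (v ^ Cb)⁻¹ * (2 * (3 * ra)) ^ m :=
        hsm _ (by linarith [hraS.1]) (by linarith)
      have h5 : K⁻¹ * ((v ^ Ca)⁻¹ * AT) < A (3 * ra) := by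
        by_contra h
        have h7 : 3 * ra ∈ S := ⟨by linarith [hraS.1], by linarith, not_lt.1 h⟩
        have h8 := le_csSup hSb h7
        linarith
      have h9 : (3 * ra) ^ (2 - (m : ℤ)) * ((v ^ Cb)⁻¹ * (2 * (3 * ra)) ^ m)
          = 9 * 2 ^ m * (v ^ Cb)⁻¹ * ra ^ 2 := by
        rw [zpow_sub₀ (by positivity), zpow_natCast, mul_pow 2 (3 * ra), zpow_ofNat]
        field_simp
        norm_num
      have h10 : K⁻¹ * ((v ^ Ca)⁻¹ * AT) ≤ C * (9 * 2 ^ m * (v ^ Cb)⁻¹ * ra ^ 2) := by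
        rw [← h9]
        exact h5.le.trans (h3.trans (by gcongr))
      calc AT = (K * v ^ Ca) * (K⁻¹ * ((v ^ Ca)⁻¹ * AT)) := by field_simp
        _ ≤ (K * v ^ Ca) * (C * (9 * 2 ^ m * (v ^ Cb)⁻¹ * ra ^ 2)) := by gcongr
        _ = (9 * C * K * 2 ^ m) * (v ^ Ca * (v ^ Cb)⁻¹) * ra ^ 2 := by ring
        _ ≤ v * (v ^ Ca * (v ^ Cb)⁻¹) * ra ^ 2 := by
            gcongr
            have : (0:ℝ) ≤ 27 * C * K * 2 ^ m := by positivity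
            linarith
        _ = (v ^ (Ca + 1) * (v ^ Cb)⁻¹) * ra ^ 2 := by rw [pow_succ]; ring
        _ ≤ 1 * ra ^ 2 := by
            gcongr
            rw [← div_eq_mul_inv, div_le_one (by positivity)]
            exact pow_le_pow_right₀ hv1 hab
        _ = ra ^ 2 := one_mul _
    · have h7 : T₁ < 12 * ra := not_le.1 h6
      rw [hAT]
      calc T₁ ^ 2 * Real.exp (-v) ≤ (12 * ra) ^ 2 * Real.exp (-v) := by gcongr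
        _ = ra ^ 2 * (Real.exp (-v) * 144) := by ring
        _ ≤ ra ^ 2 * 1 := by gcongr
        _ = ra ^ 2 := mul_one _
  · intro r hr hr2 hrra
    calc A r ≤ K * A ra := hq r ra hr hr2 hrra hraS.2.1
      _ ≤ K * (K⁻¹ * ((v ^ Ca)⁻¹ * AT)) := by gcongr; exact hraS.2.2
      _ = (v ^ Ca)⁻¹ * AT := by field_simp

end real

variable {E : Type*} [NormedAddCommGroup E] [InnerProductSpace ℝ E] [FiniteDimensional ℝ E]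
  [MeasurableSpace E] [BorelSpace E]

/-- `A = T₁² e^{-v}` -/
lemma AA_eq_exp {m Q : ℕ} {T : Submodule ℝ E} {ν : Measure E} {P : E → E →L[ℝ] E} {x : E} {t : ℝ}
    (ht : 0 < t) (hA : 0 < AA m Q T ν P x t) :
    AA m Q T ν P x t = t ^ 2 * Real.exp (-vv m Q T ν P x t) := by
  unfold vv
  rw [Real.exp_neg, Real.exp_log (by positivity)]
  field_simp

/-- **(COLL)** smallness of `A` at a scale `r₀`, small excess above: collapse -/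
theorem coll {m Q : ℕ} (hm : 1 ≤ m) (hV : Vcmp E m Q) (hB : BudS E m Q) :
    ∀ η₁ B : ℝ, 0 < η₁ → 0 < B → ∀ Ca Cb : ℕ, Ca + 1 ≤ Cb →
    ∃ v₀ ε₁ dC : ℝ, 1 ≤ v₀ ∧ 0 < ε₁ ∧ 0 < dC ∧
    ∀ (T : Submodule ℝ E) (h ε : ℝ) (ν : Measure E) (P : E → E →L[ℝ] E) (t₀ : ℝ) (x : E)
      (T₁ r₀ : ℝ), ε ≤ ε₁ →
      IntCyl m Q T 0 2 h ε ν P → exc T ν P 0 2 ≤ ε₁ → x ∈ T → ‖x‖ ≤ 1 → 0 < t₀ → t₀ ≤ 1 / 16 →
      T₁ ≤ t₀ → Bud m Q T ν P η₁ t₀ B x → 0 < r₀ → r₀ < T₁ / 2 → v₀ ≤ vv m Q T ν P x T₁ →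
      (∀ r, 0 < r → 0 < exc T ν P x r) →
      (∀ r, r₀ < r → r ≤ T₁ / 2 → exc T ν P x r ≤ (vv m Q T ν P x T₁ ^ Cb)⁻¹ * r ^ m) →
      (∀ r, T₁ / 2 ≤ r → r ≤ 1 / 8 → exc T ν P x r ≤ dC * r ^ m) →
      vv m Q T ν P x T₁ ^ (Ca + 1) * AA m Q T ν P x r₀ ≤ AA m Q T ν P x T₁ →
      ∃ ra, Coll m Q T ν P Ca x T₁ ra := by
  obtain ⟨c, C, d, ε, hc, hC, hd, hε, hVm⟩ := hV
  intro η₁ B hη hB0 Ca Cb hab
  set K : ℝ := Real.exp (NG.C2 (Mm m) (Mm m) * (2 * B)) with hK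
  have hK0 : 0 < K := Real.exp_pos _
  set v₀ : ℝ := 144 + K + 36 * C * K * 2 ^ m + d⁻¹ + η₁⁻¹ + 8 ^ m * η₁⁻¹ +
    16 * (K * 4 ^ m / (c * η₁)) with hv₀
  have p1 : 0 < 36 * C * K * 2 ^ m := by positivity
  have p2 : 0 < d⁻¹ := by positivity
  have p3 : 0 < η₁⁻¹ := by positivity
  have p4 : 0 < 8 ^ m * η₁⁻¹ := by positivity
  have p5 : 0 < 16 * (K * 4 ^ m / (c * η₁)) := by positivity
  refine ⟨v₀, ε, min d η₁, by linarith, hε, lt_min hd hη, ?_⟩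
  intro T h ε' ν P t₀ x T₁ r₀ hε' hI' hex hxT hx1 ht₀ ht₀' hT₁ hBud hr₀ hr₀T hv hpos hsm hbig hA
  have hI : IntCyl m Q T 0 2 h ε ν P := by
    have h := hI'
    exact { h with mass := h.mass.trans (mul_le_mul_of_nonneg_right hε' (pow_nonneg h.pos.le m)) }
  obtain ⟨hV1, hV2, hV3⟩ := hVm T h ν P hI hex x hxT hx1
  have hT₁0 : 0 < T₁ := by linarith
  have hcyl := hI.cyl
  set v : ℝ := vv m Q T ν P x T₁ with hvdef
  have hv36 : 144 ≤ v := by linarith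
  have hv1 : 1 ≤ v := by linarith
  have hvCb : v ≤ v ^ Cb := le_self_pow₀ hv1 (by omega)
  have hinv : ∀ {b : ℝ}, 0 < b → b⁻¹ ≤ v → (v ^ Cb)⁻¹ ≤ b := fun hb h =>
    inv_le_of_inv_le₀ hb (h.trans hvCb)
  have hsmall : ∀ b : ℝ, 0 < b → b⁻¹ ≤ v → min d η₁ ≤ b → ∀ r, r₀ < r → r ≤ 1 / 8 →
      exc T ν P x r ≤ b * r ^ m := by
    intro b hb hbv hmin r h1 h2
    have hr : 0 < r := hr₀.trans h1
    rcases le_total r (T₁ / 2) with h3 | h3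
    · exact (hsm r h1 h3).trans (mul_le_mul_of_nonneg_right (hinv hb hbv) (by positivity))
    · exact (hbig r h3 h2).trans (mul_le_mul_of_nonneg_right hmin (by positivity))
  have hApos : ∀ t, 0 < t → t ≤ 1 / 16 → 0 < AA m Q T ν P x t := by
    intro t h1 h2
    refine lt_of_lt_of_le ?_ (hV1 t h1 h2)
    have := hpos (t / 2) (by positivity)
    positivity
  have hq := fun s hs hup => (hB T h ε ν P η₁ t₀ B x hI hxT hx1 ht₀ ht₀' hBud s hs hup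
      (hpos s hs)).2
  obtain ⟨ra, h1, h2, h3, h4⟩ := coll_real' (m := m) (C := C) (d := d) (K := K)
    (T₁ := T₁) (r₀ := r₀) (v := v) (AT := AA m Q T ν P x T₁) (Ca := Ca) (Cb := Cb)
    (A := AA m Q T ν P x) (e := exc T ν P x) hC hK0 hab hv36 (by linarith)
    (by linarith) hr₀ (by linarith) (by linarith) hsm (hsmall d hd (by linarith) (min_le_left _ _))
    hV3
    (fun r r' hr hr2 hrr' hr' => hq (r / 2) (by positivity)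
      (fun s' h5 h6 => coll_key (T₁ := T₁ / 2) (t₀ := t₀) (K := K)
        (A := AA m Q T ν P x) (e := exc T ν P x) hm hc hη hK0 hv1
        ((show 8 ^ m * η₁⁻¹ ≤ v by linarith).trans hvCb) (by linarith)
        (fun s t hst => exc_mono' hcyl hst) hr₀ hr₀T (by linarith) ht₀' hsm
        (hsmall η₁ hη (by linarith) (min_le_right _ _)) hV1 hq
        (hApos r₀ hr₀ (by linarith)).le hA hr hr2 h5 h6)
      r r' (by linarith) hrr' (by linarith))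
    (AA_eq_exp hT₁0 (hApos T₁ hT₁0 (by linarith))) hA
  exact ⟨ra, h1, h2, h3, h4⟩

/-- **(COLL), second version**: `s` = a scale above which the excess is at most `η₁`, all the
scales `r` with `r² ≥ v^{-Ca} A(T₁)` are at least `2 s`. -/
theorem coll' {m Q : ℕ} (hV : Vcmp E m Q) (hB : BudS E m Q) :
    ∃ dV : ℝ, 0 < dV ∧ ∀ η₁ B : ℝ, 0 < η₁ → η₁ ≤ dV → 0 < B → ∀ Ca : ℕ,
    ∃ v₀ ε₁ : ℝ, 1 ≤ v₀ ∧ 0 < ε₁ ∧
    ∀ (T : Submodule ℝ E) (h ε : ℝ) (ν : Measure E) (P : E → E →L[ℝ] E) (t₀ : ℝ) (x : E)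
      (T₁ r₀ s : ℝ), ε ≤ ε₁ →
      IntCyl m Q T 0 2 h ε ν P → exc T ν P 0 2 ≤ ε₁ → x ∈ T → ‖x‖ ≤ 1 → 0 < t₀ → t₀ ≤ 1 / 16 →
      T₁ ≤ t₀ → Bud m Q T ν P η₁ t₀ B x → 0 < s → 2 * s ≤ r₀ → r₀ ≤ T₁ →
      (∀ r, s ≤ r → r ≤ 1 / 8 → exc T ν P x r ≤ η₁ * r ^ m) → 0 < exc T ν P x s →
      v₀ ≤ vv m Q T ν P x T₁ →
      vv m Q T ν P x T₁ ^ (Ca + 1) * AA m Q T ν P x r₀ ≤ AA m Q T ν P x T₁ →
      (∀ r, r₀ ≤ r → r ≤ T₁ / 2 → exc T ν P x r ≤ (vv m Q T ν P x T₁ ^ (Ca + 1))⁻¹ * r ^ m) →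
      (∀ r, 0 < r → (vv m Q T ν P x T₁ ^ Ca)⁻¹ * AA m Q T ν P x T₁ ≤ r ^ 2 → 2 * s ≤ r) →
      ∃ ra, Coll m Q T ν P Ca x T₁ ra := by
  obtain ⟨c, C, d, ε, hc, hC, hd, hε, hVm⟩ := hV
  refine ⟨d, hd, ?_⟩
  intro η₁ B hη hηd hB0 Ca
  set K : ℝ := Real.exp (NG.C2 (Mm m) (Mm m) * (2 * B)) with hK
  have hK0 : 0 < K := Real.exp_pos _
  have p1 : 0 < 36 * C * K * 2 ^ m := by positivity
  refine ⟨144 + K + 36 * C * K * 2 ^ m, ε, by linarith, hε, ?_⟩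
  intro T h ε' ν P t₀ x T₁ r₀ s hε' hI' hex hxT hx1 ht₀ ht₀' hT₁ hBud hs hs2 hr₀T hsη hexs hv hA
    hsm hrs
  have hI : IntCyl m Q T 0 2 h ε ν P := by
    have h := hI'
    exact { h with mass := h.mass.trans (mul_le_mul_of_nonneg_right hε' (pow_nonneg h.pos.le m)) }
  obtain ⟨hV1, hV2, hV3⟩ := hVm T h ν P hI hex x hxT hx1
  have hr₀ : 0 < r₀ := by linarith
  have hT₁0 : 0 < T₁ := lt_of_lt_of_le hr₀ hr₀T
  have hcyl := hI.cyl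
  set v : ℝ := vv m Q T ν P x T₁ with hvdef
  have hApos : 0 < AA m Q T ν P x T₁ := by
    refine lt_of_lt_of_le ?_ (hV1 T₁ hT₁0 (by linarith))
    have : 0 < exc T ν P x (T₁ / 2) := hexs.trans_le (exc_mono' hcyl (by linarith))
    positivity
  have hq := (hB T h ε ν P η₁ t₀ B x hI hxT hx1 ht₀ ht₀' hBud s hs hsη hexs).2
  obtain ⟨ra, h1, h2, h3, h4⟩ := coll_real' (m := m) (C := C) (d := d) (K := K)
    (T₁ := T₁) (r₀ := r₀) (v := v) (AT := AA m Q T ν P x T₁) (Ca := Ca) (Cb := Ca + 1)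
    (A := AA m Q T ν P x) (e := exc T ν P x) hC hK0 le_rfl (by linarith) (by linarith)
    (by linarith) hr₀ hr₀T (by linarith) (fun r h1 h2 => hsm r h1.le h2)
    (fun r h1 h2 => (hsη r (by linarith) h2).trans
      (mul_le_mul_of_nonneg_right hηd (pow_nonneg (by linarith) m)))
    hV3 (fun r r' h1 h2 h3 h4 => hq r r' (hrs r h1 h2) h3 (by linarith))
    (AA_eq_exp hT₁0 hApos) hA
  exact ⟨ra, h1, h2, h3, h4⟩

end Vale.Agent.P214.PATHG
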