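import Vale.Agent.P214.GEN.Props
import Vale.Agent.P214.CAPF.MoutE
import Vale.Agent.P214.CAPF.Event2

/-!
# P214, block BoxPath: the interface of the pieces

Unit scale, `K = TH.win`, `k = NGP.kk`, `T_j = t₀ / 2 ^ j`, path variable `u`, `t = s e^u`, grid
step `log 2`, margin `6` steps.
-/

open Set Filter Topology MeasureTheory Metric
open scoped RealInnerProductSpace ENNReal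

namespace Vale.Agent.P214.PATHG

open Vale.Agent.P214.Skel Vale.Agent.P214.EX Vale.Agent.P214.R2 Vale.Agent.P214.GEN
open Vale.Agent.P214.CAPF

/-- `NoEvent` with a margin of `k` steps in the jump condition -/
def NoEventK {X : Type*} [MetricSpace X] (I k : ℕ) (h κ : ℝ) (e : ℕ → ℕ) (M₀ : ℕ) (a g : ℝ → ℝ)
    (S₀ : Finset X) (gS : Finset X → ℝ → ℝ) (θ : ℕ → ℝ) : Prop :=
  ∀ i < I, ∀ j < M₀, ∀ S ⊆ S₀, S.Nonempty → NG.Sep S (NG.rad2 e κ h a g (j + 1) i) →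
    NG.Cov S S₀ (NG.rad2 e κ h a g j i) →
    2 * NG.Ag a g h i ≤ NG.Ag a g h (i + k) ∨
      ∀ u ∈ Icc (i * h : ℝ) ((i + 1 : ℕ) * h), g u - gS S u ≤ θ i * NG.Am a g u

/-- **(PathK)** the path lemma with margin -/
def PathK (X : Type*) [MetricSpace X] : Prop :=
  ∀ (M₀ k : ℕ) (e : ℕ → ℕ) (h M C₁ B₀ C₈ Cg : ℝ), 1 ≤ M₀ → 1 ≤ k → Monotone e → 1 ≤ e 0 →
    0 < h → h ≤ 2 → 0 ≤ M → 0 ≤ C₁ → 0 ≤ B₀ → 0 ≤ C₈ → 0 < Cg →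
    ∃ ε₀ κ₀ : ℝ, 0 < ε₀ ∧ ε₀ ≤ 1 ∧ 1 ≤ κ₀ ∧
      ∀ (I : ℕ) (κ ε : ℝ) (a g b g₁ : ℝ → ℝ) (S₀ : Finset X) (H₀ H₀' : ℝ → ℝ)
        (H H₁ gS : Finset X → ℝ → ℝ) (θ : ℕ → ℝ),
        κ₀ ≤ κ → 0 ≤ ε → ε ≤ ε₀ → S₀.Nonempty → S₀.card ≤ M₀ →
        NG.NGData (I + k) h κ M C₁ ε B₀ C₈ a g b g₁ S₀ H₀ H₀' H H₁ gS →
        (∀ i, 0 ≤ θ i) → (∀ i, θ i ≤ 1 / 4) → (∑ i ∈ Finset.range I, θ i ≤ 1) →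
        NoEventK I k h κ e M₀ a g S₀ gS θ →
        Real.exp (κ / 8) ≤ NG.Lam κ h I →
        Cg * Real.log (NG.Lam κ h I)
          ≤ Real.log (NG.Ag a g h (I + k)) - Real.log (NG.Ag a g h 0)

variable {E : Type*} [NormedAddCommGroup E] [InnerProductSpace ℝ E] [FiniteDimensional ℝ E]
  [MeasurableSpace E] [BorelSpace E]

section defs

variable (m Q : ℕ) (T : Submodule ℝ E) (ν : Measure E) (P : E → E →L[ℝ] E)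

/-- `a` of the path started at `s` -/
noncomputable def aP (x : E) (s : ℝ) : ℝ → ℝ := aU m T x TH.win ν (Q * cK m T TH.win) s

/-- `g` of the path started at `s` -/
noncomputable def gP (x : E) (s : ℝ) : ℝ → ℝ := gU m T x TH.win P ν s

/-- the constant `M = C₁` -/
noncomputable def Mm : ℝ := m

/-- the path data at `x` started at `s` with representatives `S₀`, cap radius `R₁` -/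
def PData (N : ℕ) (κ ε B₀ C₈ R₁ δ β : ℝ) (x : E) (s : ℝ) (S₀ : Finset E) : Prop :=
  NG.NGData N (Real.log 2) κ (Mm m) (Mm m) ε B₀ C₈ (aP m Q T ν x s) (gP m T ν P x s)
    (bU m T x NGP.kk P ν s) (g₁U m T x NGP.kk TH.win P ν s) S₀
    (HU m T x NGP.kk (F₀ T S₀ β R₁) P ν s δ) (H₁U m T x NGP.kk TH.win (F₀ T S₀ β R₁) P ν s)
    (fun S => HU m T x NGP.kk (capF T S (wR S R₁)) P ν s δ)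
    (fun S => H₁U m T x NGP.kk TH.win (capF T S (wR S R₁)) P ν s)
    (fun S => gSU m T x TH.win (capF T S (wR S R₁)) P ν s)

/-- the bottom facts used by `CAPF.mass_out_event` -/
structure Bot (κ₁ A₁ : ℝ) (x : E) (s : ℝ) (S₀ : Finset E) : Prop where
  perp : ∀ c ∈ S₀, c ∈ Tᗮ
  bot : ∫ y in QP.bset T x s, infDist (FV.co T y) (S₀ : Set E) ^ 2 ∂ν
    ≤ κ₁ * s ^ m * NG.Am (aP m Q T ν x s) (gP m T ν P x s) 0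
  mass : ν.real (QP.bset T x s) ≤ A₁ * s ^ m

end defs

variable (E)

/-- **(VCMP)** the quantities `A` and the excess -/
def Vcmp (m Q : ℕ) : Prop := ∃ c C d ε : ℝ, 0 < c ∧ 0 < C ∧ 0 < d ∧ 0 < ε ∧
  ∀ (T : Submodule ℝ E) (h : ℝ) (ν : Measure E) (P : E → E →L[ℝ] E),
    IntCyl m Q T 0 2 h ε ν P → exc T ν P 0 2 ≤ ε → ∀ x ∈ T, ‖x‖ ≤ 1 →
    (∀ t, 0 < t → t ≤ 1 / 16 →
      c * (t ^ (2 - (m : ℤ)) * exc T ν P x (t / 2)) ≤ AA m Q T ν P x t) ∧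
    (∀ t, 0 < t → t ≤ 1 / 16 → AA m Q T ν P x t ≤ C * (t ^ (2 - (m : ℤ)) * exc T ν P 0 2)) ∧
    (∀ t, 0 < t → t ≤ 1 / 32 → (∀ s, t ≤ s → s ≤ 1 / 8 → exc T ν P x s ≤ d * s ^ m) →
      AA m Q T ν P x t ≤ C * (t ^ (2 - (m : ℤ)) * exc T ν P x (2 * t)))

/-- **(BUD)** budget and quasi-monotonicity of `A` -/
def BudS (m Q : ℕ) : Prop :=
  ∀ (T : Submodule ℝ E) (h ε : ℝ) (ν : Measure E) (P : E → E →L[ℝ] E) (η₁ t₀ B : ℝ) (x : E),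
    IntCyl m Q T 0 2 h ε ν P → x ∈ T → ‖x‖ ≤ 1 → 0 < t₀ → t₀ ≤ 1 / 16 →
    Bud m Q T ν P η₁ t₀ B x → ∀ s, 0 < s →
    (∀ s', s ≤ s' → s' ≤ 1 / 8 → exc T ν P x s' ≤ η₁ * s' ^ m) → 0 < exc T ν P x s →
    (∀ s₁ U, 2 * s ≤ s₁ → 0 ≤ U → s₁ * Real.exp U ≤ 2 * t₀ →
      ∫ u in (0:ℝ)..U, NG.Yp (aP m Q T ν x s₁) (gP m T ν P x s₁) u ≤ 2 * B) ∧
    (∀ r r', 2 * s ≤ r → r ≤ r' → r' ≤ 2 * t₀ →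
      AA m Q T ν P x r ≤ Real.exp (NG.C2 (Mm m) (Mm m) * (2 * B)) * AA m Q T ν P x r')

/-- **(START)** data of the path from QP at a doubling scale -/
def Start (m Q : ℕ) : Prop := ∀ KD : ℝ, 1 ≤ KD → ∃ (M₀ : ℕ) (C₈ κQ κ₁ A₁ dQ ε₁ : ℝ),
    1 ≤ M₀ ∧ 0 ≤ C₈ ∧ 1 ≤ κQ ∧ 0 ≤ κ₁ ∧ 0 ≤ A₁ ∧ 0 < dQ ∧ 0 < ε₁ ∧
  ∀ (T : Submodule ℝ E) (h : ℝ) (ν : Measure E) (P : E → E →L[ℝ] E) (x : E) (s : ℝ) (N : ℕ)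
    (ε B₀ κ : ℝ),
    IntCyl m Q T 0 2 h ε₁ ν P → exc T ν P 0 2 ≤ ε₁ → x ∈ T → ‖x‖ ≤ 1 → 0 < s →
    s * 2 ^ N ≤ 1 / 16 → 64 * s ≤ 1 / 8 →
    (∀ s', s ≤ s' → s' ≤ 1 / 8 → exc T ν P x s' ≤ dQ * s' ^ m) →
    exc T ν P x (14 * s) ≤ KD * exc T ν P x (s / 2) →
    0 < exc T ν P x (s / 2) → 0 < ε → ε ≤ 1 → κQ ≤ κ →
    ∫ u in (0:ℝ)..(N * Real.log 2), NG.Yp (aP m Q T ν x s) (gP m T ν P x s) u ≤ B₀ →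
    ∃ (S₀ : Finset E) (δ β : ℝ), S₀.Nonempty ∧ S₀.card ≤ M₀ ∧ 0 < δ ∧ 0 < β ∧
      Bot m Q T ν P κ₁ A₁ x s S₀ ∧
      PData m Q T ν P N κ ε B₀ C₈ (s * √(ε / (16 * m))) δ β x s S₀

/-- **(THIN + EVSUM)** a gap event of the path is an event of the exhaustion.  `t = s e^u`,
`l` with `t / 2 < T_l ≤ t`.  `cT, Cd` depend only on the exhaustion constants, `m, Q, B` and the
constants of `Start` (`κ₁ A₁ C₈`). -/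
def Thin (m Q : ℕ) : Prop := ∀ (Kl c₀ κe : ℝ) (Me : ℕ), IsKernel (etaK TH.win : E → ℝ) Kl c₀ →
  1 ≤ Me → 0 < κe → κe ≤ 1 → 8 * Me * κe ≤ 1 → ∃ η₀ : ℝ, 0 < η₀ ∧ ∀ η₁ : ℝ, 0 < η₁ → η₁ ≤ η₀ →
  ∀ (B₀ C₈ κ₁ A₁ : ℝ), 0 ≤ B₀ → 0 ≤ C₈ → 0 ≤ κ₁ → 0 ≤ A₁ → ∃ Cd cT : ℕ, 1 ≤ Cd ∧
  ∀ (e : ℕ → ℕ) (M₀ : ℕ) (Cv : ℝ), 1 ≤ e 0 → (∀ j, e j + cT ≤ e (j + 1)) → 1 ≤ Cv →
  ∃ κT ε₁ dT : ℝ, 1 ≤ κT ∧ 0 < ε₁ ∧ 0 < dT ∧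
  ∀ (T : Submodule ℝ E) (h : ℝ) (ν : Measure E) (P : E → E →L[ℝ] E)
    (φ : E → ℝ) (δt t₀ : ℝ) (ρ N : ℕ → E → ℝ) (x : E) (s : ℝ) (I : ℕ) (κ ε δ β R₁ : ℝ)
    (S₀ : Finset E),
    IntCyl m Q T 0 2 h ε₁ ν P → exc T ν P 0 2 ≤ ε₁ → BaseTest T 0 1 φ → 0 < δt → δt ≤ 1 / 2 →
    0 < t₀ → t₀ ≤ δt / 8 → Tot m Q T ν P c₀ κe Me η₁ t₀ δt φ ρ N →
    x ∈ T → ‖x‖ ≤ 1 → 0 < s → s * 2 ^ (I + 6) ≤ t₀ → 0 < ε → ε ≤ 1 → κT ≤ κ → 0 < δ → 0 < β →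
    0 < R₁ → 16 * m * R₁ ^ 2 ≤ ε * s ^ 2 → S₀.Nonempty → S₀.card ≤ M₀ →
    (∀ s', s ≤ s' → s' ≤ 1 / 8 → exc T ν P x s' ≤ dT * s' ^ m) →
    Bot m Q T ν P κ₁ A₁ x s S₀ → PData m Q T ν P (I + 6) κ ε B₀ C₈ R₁ δ β x s S₀ →
    (∀ u ∈ Icc (0:ℝ) ((I + 6 : ℕ) * Real.log 2),
      κ + 2 * u ≤ Cv * vv m Q T ν P x (s * Real.exp u) ∧
      vv m Q T ν P x (s * Real.exp u) ≤ Cv * (κ + 2 * u) ∧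
      (κ + 2 * u) ^ (e M₀ + 1) * AA m Q T ν P x (s * Real.exp u) ≤ R₁ ^ 2) →
    ∀ i < I, ∀ j < M₀, ∀ S ⊆ S₀, S.Nonempty →
      NG.Sep S (NG.rad2 e κ (Real.log 2) (aP m Q T ν x s) (gP m T ν P x s) (j + 1) i) →
      NG.Cov S S₀ (NG.rad2 e κ (Real.log 2) (aP m Q T ν x s) (gP m T ν P x s) j i) →
      NG.Ag (aP m Q T ν x s) (gP m T ν P x s) (Real.log 2) (i + 6)
        < 2 * NG.Ag (aP m Q T ν x s) (gP m T ν P x s) (Real.log 2) i →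
      ∀ u ∈ Icc (i * Real.log 2 : ℝ) ((i + 1 : ℕ) * Real.log 2),
        ((NG.Lam κ (Real.log 2) i) ^ 2)⁻¹ * NG.Am (aP m Q T ν x s) (gP m T ν P x s) u
          < gP m T ν P x s u - gSU m T x TH.win (capF T S (wR S R₁)) P ν s u →
        ∃ l : ℕ, s ≤ t₀ / 2 ^ l ∧ t₀ / 2 ^ l ≤ 2 * (s * Real.exp u) ∧ Ev m Q T ν P t₀ ρ N Cd x l

/-- **(FLAT)** no flat stretch without events. -/
def Flat (m Q : ℕ) : Prop := ∀ (Kl c₀ κe : ℝ) (Me : ℕ), IsKernel (etaK TH.win : E → ℝ) Kl c₀ →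
  1 ≤ Me → 0 < κe → κe ≤ 1 → 8 * Me * κe ≤ 1 → ∃ η₀ : ℝ, 0 < η₀ ∧ ∀ η₁ : ℝ, 0 < η₁ → η₁ ≤ η₀ →
  ∀ (B : ℝ), 0 < B → ∃ Cd : ℕ, 1 ≤ Cd ∧ ∀ Ca : ℕ, ∃ Cb₀ : ℕ, ∀ Cb : ℕ, Cb₀ ≤ Cb →
  ∃ v₀ ε₁ dF : ℝ, 1 ≤ v₀ ∧ 0 < ε₁ ∧ 0 < dF ∧
  ∀ (T : Submodule ℝ E) (h : ℝ) (ν : Measure E) (P : E → E →L[ℝ] E)
    (φ : E → ℝ) (δt t₀ : ℝ) (ρ N : ℕ → E → ℝ) (x : E) (r₁ t : ℝ),
    IntCyl m Q T 0 2 h ε₁ ν P → exc T ν P 0 2 ≤ ε₁ → BaseTest T 0 1 φ → 0 < δt → δt ≤ 1 / 2 →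
    0 < t₀ → t₀ ≤ δt / 8 → Tot m Q T ν P c₀ κe Me η₁ t₀ δt φ ρ N →
    x ∈ T → ‖x‖ ≤ 1 → Bud m Q T ν P η₁ t₀ B x → 0 < r₁ → r₁ ≤ t / 2 → t ≤ t₀ →
    v₀ ≤ vv m Q T ν P x t →
    (vv m Q T ν P x t ^ Cb)⁻¹ * r₁ ^ m ≤ exc T ν P x r₁ →
    (∀ r, r₁ < r → r ≤ t / 2 → exc T ν P x r ≤ (vv m Q T ν P x t ^ Cb)⁻¹ * r ^ m) →
    (∀ r, t / 2 ≤ r → r ≤ 1 / 8 → exc T ν P x r ≤ dF * r ^ m) →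
    (∀ l : ℕ, 4 * r₁ ≤ t₀ / 2 ^ l → t₀ / 2 ^ l ≤ t →
      2 * Real.log (t₀ / 2 ^ l / r₁) ≤ √(vv m Q T ν P x t) → ¬ Ev m Q T ν P t₀ ρ N Cd x l) →
    vv m Q T ν P x t ^ Ca * AA m Q T ν P x (4 * r₁) < AA m Q T ν P x t

end Vale.Agent.P214.PATHG
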