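import Vale.Agent.P214.PATHG.Bud
import Vale.Agent.P214.PATHG.Props

/-!
# P214, general rate, BoxPath: (BUD) in the form of `PATHG/Props.lean`
-/

open Set Filter Topology MeasureTheory Metric
open scoped RealInnerProductSpace ENNReal

namespace Vale.Agent.P214.PATHG

open Vale.Agent.P214.Skel Vale.Agent.P214.EX Vale.Agent.P214.R2 Vale.Agent.P214.CAPF
  Vale.Agent.P214.GEN

/-- **(BUD)** -/
theorem budS (E : Type*) [NormedAddCommGroup E] [InnerProductSpace ℝ E] [FiniteDimensional ℝ E]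
    [MeasurableSpace E] [BorelSpace E] (m Q : ℕ) : BudS E m Q := by
  intro T h ε ν P η₁ t₀ B x hI hx hx1 ht0 ht0' hB s hs hexc hpos
  refine ⟨fun s₁ U hs1 hU hU1 => bud_Yp hI.cyl hx hx1 ht0 ht0' hB hs hexc hs1 hU hU1,
    fun r r' hr hrr hr' => ?_⟩
  have hrp : 0 < r := by linarith
  have hmono : exc T ν P x s ≤ exc T ν P x (r / 2) := R2.exc_mono' hI.cyl (by linarith)
  have h1 := le_tiltK hI.cyl NGP.kernW win_quarter_pos hx hrp
  have hg : 0 < ODE.tiltK m T x TH.win P ν r := by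
    refine lt_of_lt_of_le ?_ h1
    exact mul_pos win_quarter_pos (mul_pos (zpow_pos hrp _) (hpos.trans_le hmono))
  exact AA_le hI.cyl hx hx1 ht0 ht0' hB hs hexc hr hrr hr' hg (Nat.cast_nonneg m)
    (by unfold Mm; linarith)

end Vale.Agent.P214.PATHG
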