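import Vale.Agent.P214.PATHG.StageK
import Vale.Agent.P214.PATHG.Props

/-!
# P214, block BoxPath, piece PathK (2): the path lemma with margin
-/

open Set Filter Topology MeasureTheory

set_option linter.all false

namespace Vale.Agent.P214.PATHG

open Vale.Agent.P214.NG

variable {X : Type*} [MetricSpace X]

variable {N I n : ℕ} {h κ M C₁ ε B₀ C₈ : ℝ} {a g b g₁ : ℝ → ℝ} {S₀ : Finset X}
  {H₀ H₀' : ℝ → ℝ} {H H₁ gS : Finset X → ℝ → ℝ}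

/-- constant of the stage time bound -/
noncomputable def K6K (n : ℕ) (h M C₁ B₀ C₈ Cg δ : ℝ) : ℝ :=
  (ch h M C₁ B₀ / n)⁻¹
    * Real.exp (LcL n h M C₁ B₀ + K1K h M C₁ B₀ + Real.log (K3 M C₁ B₀ C₈))
    * (Cg / δ + C2 M C₁ * B₀ + 1 / 4)

lemma K6K_nonneg (h0 : 0 ≤ h) (hM : 0 ≤ M) (hC₁ : 0 ≤ C₁) (hB0 : 0 ≤ B₀) {Cg δ : ℝ}
    (hCg : 0 ≤ Cg) (hδ : 0 < δ) : 0 ≤ K6K n h M C₁ B₀ C₈ Cg δ := by
  have := C2_nonneg hM hC₁
  unfold K6K ch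
  positivity

lemma LcL_nonneg : 0 ≤ LcL n h M C₁ B₀ :=
  (Real.log_nonneg one_le_two).trans (le_max_left _ _)

/-- numerical part of the duration of a stage -/
lemma num_timeK {r c Z Q' Cg δ ℓ B : ℝ} (hc : 0 < c) (hZ : 0 < Z) (hQ : 0 < Q') (hCg : 0 ≤ Cg)
    (hδ : 0 < δ) (hℓ : 0 ≤ ℓ) (hB : 0 ≤ B)
    (h : r * (c * (Z * Real.exp (δ * ℓ) * Q')⁻¹) ≤ Cg * ℓ + B + 1 / 4) :
    r ≤ c⁻¹ * Z * (Cg / δ + B + 1 / 4) * Real.exp (2 * δ * ℓ) * Q' := by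
  have h4 : Cg * ℓ + B + 1 / 4 ≤ (Cg / δ + B + 1 / 4) * Real.exp (δ * ℓ) := by
    have h5 : δ * ℓ ≤ Real.exp (δ * ℓ) := by
      have := Real.add_one_le_exp (δ * ℓ); linarith
    have h6 : 1 ≤ Real.exp (δ * ℓ) := Real.one_le_exp (by positivity)
    have h7 : Cg * ℓ = Cg / δ * (δ * ℓ) := by field_simp
    have h9 : 0 ≤ Cg / δ := by positivity
    have h10 : Cg / δ * (δ * ℓ) ≤ Cg / δ * Real.exp (δ * ℓ) := mul_le_mul_of_nonneg_left h5 h9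
    have h11 : (B + 1 / 4) * 1 ≤ (B + 1 / 4) * Real.exp (δ * ℓ) :=
      mul_le_mul_of_nonneg_left h6 (by positivity)
    rw [h7]
    linarith
  have hpos : 0 < Z * Real.exp (δ * ℓ) * Q' := by positivity
  have h6 := h.trans h4
  have e1 : r * (c * (Z * Real.exp (δ * ℓ) * Q')⁻¹) = r * c / (Z * Real.exp (δ * ℓ) * Q') := by
    rw [div_eq_mul_inv]; ring
  rw [e1, div_le_iff₀ hpos] at h6
  have h7 : r ≤ (Cg / δ + B + 1 / 4) * Real.exp (δ * ℓ) * (Z * Real.exp (δ * ℓ) * Q') / c := by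
    rw [le_div_iff₀ hc]; exact h6
  refine h7.trans (le_of_eq ?_)
  rw [show 2 * δ * ℓ = δ * ℓ + δ * ℓ by ring, Real.exp_add, div_eq_mul_inv _ c]
  ring

/-- initial frequency of a stage -/
lemma init_freqK (hD : NGData N h κ M C₁ ε B₀ C₈ a g b g₁ S₀ H₀ H₀' H H₁ gS)
    (h0 : 0 < h) (hM : 0 ≤ M) (hC₁ : 0 ≤ C₁) (hε0 : 0 ≤ ε) (hε1 : ε ≤ 1)
    (hB0 : 0 ≤ B₀) (hC₈ : 0 ≤ C₈) (hκ : 1 ≤ κ) {e : ℕ → ℕ} {j i₀ E : ℕ} (hej : 1 ≤ e j)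
    (heE : e j ≤ E) (hi0 : i₀ ≤ N) {S : Finset X} (hS : S ⊆ S₀) (hSne : S.Nonempty)
    (hcov : Cov S S₀ (rad2 e κ h a g j i₀)) :
    elU (LcL n h M C₁ B₀) a g (H S) (i₀ * h)
      ≤ LcL n h M C₁ B₀ + Real.log (K3 M C₁ B₀ C₈) + Real.log (Lam κ h i₀ ^ E) := by
  have hL := one_le_Lam h0.le hκ i₀
  have hK3 := K3_ge hM hC₁ hB0 hC₈
  have hA := Ag_pos hD.epath h0.le hi0
  have hHpos := (hD.hpath S hS hSne).Hpos _ (grid_mem h0.le hi0)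
  have hLE : 1 ≤ Lam κ h i₀ ^ E := one_le_pow₀ hL
  have hLj : Lam κ h i₀ ^ e j ≤ Lam κ h i₀ ^ E := pow_le_pow_right₀ hL heE
  have hLc0 : 0 ≤ LcL n h M C₁ B₀ := LcL_nonneg
  have hlK : 0 ≤ Real.log (K3 M C₁ B₀ C₈) := Real.log_nonneg hK3
  have hlL : 0 ≤ Real.log (Lam κ h i₀ ^ E) := Real.log_nonneg hLE
  unfold elU
  refine max_le (by linarith) ?_
  have h3 := hD.height_le' h0.le hM hC₁ hε0 hε1 hB0 hC₈ hκ hej hi0 hS hSne hcov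
  have h4 : H S (i₀ * h) ≤ K3 M C₁ B₀ C₈ * Lam κ h i₀ ^ E * Ag a g h i₀ := by
    refine h3.trans ?_
    gcongr
  have h5 := Real.log_le_log hHpos h4
  rw [Real.log_mul (by positivity) hA.ne', Real.log_mul (by positivity) (by positivity)] at h5
  have h6 : Real.log (Am a g (i₀ * h)) = Real.log (Ag a g h i₀) := rfl
  rw [h6]
  linarith

/-- **Duration of a stage with small growth.** -/
theorem stage_timeK (hD : NGData N h κ M C₁ ε B₀ C₈ a g b g₁ S₀ H₀ H₀' H H₁ gS) (hn1 : 1 ≤ n)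
    (h0 : 0 < h) (h2 : h ≤ 2) (hM : 0 ≤ M) (hC₁ : 0 ≤ C₁) (hε0 : 0 ≤ ε) (hε1 : ε ≤ 1)
    (hB0 : 0 ≤ B₀) (hC₈ : 0 ≤ C₈) (hκ : 1 ≤ κ) {e : ℕ → ℕ} {j i₀ r E : ℕ} (hej : 1 ≤ e j)
    (heE : e j ≤ E) (hIN : I + n ≤ N)
    (hi : i₀ + r ≤ I) {S : Finset X} (hS : S ⊆ S₀) (hSne : S.Nonempty)
    (hcov : Cov S S₀ (rad2 e κ h a g j i₀)) {θ : ℕ → ℝ}
    (hθ0 : ∀ i, 0 ≤ θ i) (hθ1 : ∀ i, θ i ≤ 1 / 4) (hθs : ∑ i ∈ Finset.range I, θ i ≤ 1)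
    (halt : ∀ i, i₀ ≤ i → i < i₀ + r → (2 * Ag a g h i ≤ Ag a g h (i + n) ∨
      ∀ u ∈ Icc (i * h : ℝ) ((i + 1 : ℕ) * h), g u - gS S u ≤ θ i * Am a g u))
    {Cg δ ℓ : ℝ} (hCg : 0 < Cg) (hδ : 0 < δ) (hεδ : 32 * ε * Cg ≤ δ) (hℓ : 0 ≤ ℓ)
    (hg : Gl a g h (i₀ + r) - Gl a g h i₀ ≤ Cg * ℓ) :
    Lam κ h (i₀ + r) ≤ (1 + 4 * K6K n h M C₁ B₀ C₈ Cg δ) * Real.exp (2 * δ * ℓ)
      * Lam κ h i₀ ^ E := by
  have hsb := stage_boundK (I := I) (i₁ := i₀ + r) hD.epath hn1 (by omega) (hD.hpath S hS hSne)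
    h0 h2 hM hC₁ hB0 hD.budget hθ0 hθ1 hi hθs hε0 hε1 halt le_rfl
  have hell := init_freqK (n := n) hD h0 hM hC₁ hε0 hε1 hB0 hC₈ hκ hej heE (by omega) hS hSne hcov
  have hC2 := C2_nonneg hM hC₁
  have hL := one_le_Lam h0.le hκ i₀
  obtain ⟨gs, hgs⟩ : ∃ gs, gs = Gl a g h (i₀ + r) - Gl a g h i₀ := ⟨_, rfl⟩
  rw [← hgs] at hsb hg
  have hLE : 1 ≤ Lam κ h i₀ ^ E := one_le_pow₀ hL
  have hLE0 : 0 < Lam κ h i₀ ^ E := by linarith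
  have hn0 : (0 : ℝ) < n := by exact_mod_cast hn1
  have hchp : 0 < ch h M C₁ B₀ / n := by unfold ch; positivity
  obtain ⟨Z, hZ⟩ : ∃ Z, Z = Real.exp (LcL n h M C₁ B₀ + K1K h M C₁ B₀
    + Real.log (K3 M C₁ B₀ C₈)) := ⟨_, rfl⟩
  have hZ0 : 0 < Z := by rw [hZ]; exact Real.exp_pos _
  have hexp : (Z * Real.exp (δ * ℓ) * Lam κ h i₀ ^ E)⁻¹
      ≤ Real.exp (-(elU (LcL n h M C₁ B₀) a g (H S) (i₀ * h) + K1K h M C₁ B₀
        + 32 * ε * gs)) := by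
    rw [hZ, ← Real.exp_log hLE0, ← Real.exp_add, ← Real.exp_add, ← Real.exp_neg]
    apply Real.exp_le_exp.2
    have h3 : 32 * ε * gs ≤ δ * ℓ := by
      calc 32 * ε * gs ≤ 32 * ε * (Cg * ℓ) := mul_le_mul_of_nonneg_left hg (by positivity)
        _ = (32 * ε * Cg) * ℓ := by ring
        _ ≤ δ * ℓ := mul_le_mul_of_nonneg_right hεδ hℓ
    linarith
  have h3 : (r : ℝ) * (ch h M C₁ B₀ / n * (Z * Real.exp (δ * ℓ) * Lam κ h i₀ ^ E)⁻¹)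
      ≤ Cg * ℓ + C2 M C₁ * B₀ + 1 / 4 := by
    refine le_trans ?_ (hsb.trans (by linarith))
    exact mul_le_mul_of_nonneg_left (mul_le_mul_of_nonneg_left hexp hchp.le) (Nat.cast_nonneg r)
  have h5 := num_timeK hchp hZ0 hLE0 hCg.le hδ hℓ (by positivity) h3
  have h5' : (r : ℝ) ≤ K6K n h M C₁ B₀ C₈ Cg δ * Real.exp (2 * δ * ℓ) * Lam κ h i₀ ^ E := by
    unfold K6K
    rw [← hZ]
    exact h5
  have h6 : Lam κ h (i₀ + r) = Lam κ h i₀ + 2 * (r * h) := by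
    unfold Lam; push_cast; ring
  have h7 : 2 * ((r : ℝ) * h) ≤ 4 * r := by
    have : (0 : ℝ) ≤ r := Nat.cast_nonneg r
    nlinarith
  have hE1 : 1 ≤ E := hej.trans heE
  have h8 : Lam κ h i₀ ≤ Lam κ h i₀ ^ E := le_self_pow₀ hL (by omega)
  have h9 : 1 ≤ Real.exp (2 * δ * ℓ) := Real.one_le_exp (by positivity)
  have h10 : Lam κ h i₀ ^ E ≤ Real.exp (2 * δ * ℓ) * Lam κ h i₀ ^ E :=
    le_mul_of_one_le_left hLE0.le h9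
  rw [h6]
  have e2 : (1 + 4 * K6K n h M C₁ B₀ C₈ Cg δ) * Real.exp (2 * δ * ℓ) * Lam κ h i₀ ^ E
      = Real.exp (2 * δ * ℓ) * Lam κ h i₀ ^ E
        + 4 * (K6K n h M C₁ B₀ C₈ Cg δ * Real.exp (2 * δ * ℓ) * Lam κ h i₀ ^ E) := by ring
  rw [e2]
  linarith

/-- the stage inequality in logarithmic form, assuming that no stage has large growth -/
lemma log_stageK (hD : NGData N h κ M C₁ ε B₀ C₈ a g b g₁ S₀ H₀ H₀' H H₁ gS) (hn1 : 1 ≤ n)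
    (hIN : I + n ≤ N)
    (h0 : 0 < h) (h2 : h ≤ 2) (hM : 0 ≤ M) (hC₁ : 0 ≤ C₁) (hε0 : 0 ≤ ε) (hε1 : ε ≤ 1)
    (hB0 : 0 ≤ B₀) (hC₈ : 0 ≤ C₈) (hκ : 1 ≤ κ) {e : ℕ → ℕ} {M₀ : ℕ} (hem : Monotone e)
    (he0 : 1 ≤ e 0) (hne : S₀.Nonempty) (hcard : S₀.card ≤ M₀)
    {θ : ℕ → ℝ}
    (hθ0 : ∀ i, 0 ≤ θ i) (hθ1 : ∀ i, θ i ≤ 1 / 4) (hθs : ∑ i ∈ Finset.range I, θ i ≤ 1)
    (hNE : NoEventK I n h κ e M₀ a g S₀ gS θ)
    {Cg δ ℓ : ℝ} (hCg : 0 < Cg) (hδ : 0 < δ) (hεδ : 32 * ε * Cg ≤ δ) (hℓ : 0 ≤ ℓ)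
    (hcon : ∀ i₀ i₁ : ℕ, i₀ ≤ i₁ → i₁ ≤ I → Gl a g h i₁ - Gl a g h i₀ ≤ Cg * ℓ)
    {i₀ i : ℕ} (hi0 : i₀ ≤ i) (hiI : i ≤ I)
    (heq : totNum S₀ M₀ (rad2 e κ h a g) i₀ = totNum S₀ M₀ (rad2 e κ h a g) i) :
    Real.log (Lam κ h i) ≤ Real.log (1 + 4 * K6K n h M C₁ B₀ C₈ Cg δ) + 2 * δ * ℓ
      + e M₀ * Real.log (Lam κ h i₀) := by
  have hE1 : 1 ≤ e M₀ := he0.trans (hem (Nat.zero_le _))
  have hK6 := K6K_nonneg (n := n) (C₈ := C₈) h0.le hM hC₁ hB0 hCg.le hδ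
  have hK7' : 1 ≤ 1 + 4 * K6K n h M C₁ B₀ C₈ Cg δ := by linarith
  have hL0 := one_le_Lam h0.le hκ i₀
  have hL0' := Real.log_nonneg hL0
  rcases eq_or_lt_of_le hi0 with rfl | hlt
  · have h3 : 0 ≤ Real.log (1 + 4 * K6K n h M C₁ B₀ C₈ Cg δ) := Real.log_nonneg hK7'
    have h4 : 0 ≤ 2 * δ * ℓ := by positivity
    have h5 : (1:ℝ) ≤ e M₀ := by exact_mod_cast hE1
    nlinarith
  · obtain ⟨r, rfl⟩ := Nat.exists_eq_add_of_le hi0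
    obtain ⟨j, hj, S, hS, hSne, hsep, hcov⟩ := exists_stage (M₀ := M₀) hne hcard
      (fun j i => rad2_nonneg hD.epath h0.le hκ e j i)
      (fun j i i' hi => rad2_mono hD.epath h0.le hκ e j hi)
      (fun j i => rad2_mono_j hD.epath h0.le hκ hem j i) hi0 heq
    have hg := hcon i₀ (i₀ + r) hi0 hiI
    have halt : ∀ i, i₀ ≤ i → i < i₀ + r → (2 * Ag a g h i ≤ Ag a g h (i + n) ∨
        ∀ u ∈ Icc (i * h : ℝ) ((i + 1 : ℕ) * h), g u - gS S u ≤ θ i * Am a g u) := by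
      intro i hi1 hi2
      exact hNE i (by omega) j hj S hS hSne
        (hsep.mono (rad2_mono hD.epath h0.le hκ e (j + 1) hi2.le))
        (hcov.mono (rad2_mono hD.epath h0.le hκ e j hi1))
    have hst := stage_timeK hD hn1 h0 h2 hM hC₁ hε0 hε1 hB0 hC₈ hκ (E := e M₀)
      (he0.trans (hem (Nat.zero_le j))) (hem hj.le) hIN hiI hS hSne hcov hθ0 hθ1 hθs halt
      hCg hδ hεδ hℓ hg
    have h3 := Real.log_le_log (by linarith [one_le_Lam h0.le hκ (i₀ + r)]) hst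
    rw [Real.log_mul (by positivity) (by positivity), Real.log_mul (by positivity)
      (Real.exp_pos _).ne', Real.log_exp, Real.log_pow] at h3
    exact h3

/-- **(PathK)** the path lemma with margin. -/
theorem pathK (X : Type*) [MetricSpace X] : PathK X := by
  intro M₀ n e h M C₁ B₀ C₈ Cg₀ hM₀ hn1 hem he0 h0 h2 hM hC₁ hB0 hC₈ hCg₀
  have hC2 := C2_nonneg hM hC₁
  obtain ⟨Cg, hCgdef⟩ : ∃ Cg : ℝ, Cg = Cg₀ + 2 * (C2 M C₁ * B₀) := ⟨_, rfl⟩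
  have hC2B : 0 ≤ C2 M C₁ * B₀ := by positivity
  have hCg : 0 < Cg := by rw [hCgdef]; linarith
  obtain ⟨P, hP⟩ : ∃ P : ℕ, P = Pex M₀ (e M₀) := ⟨_, rfl⟩
  have hPpos : 0 < P := by rw [hP]; unfold Pex; positivity
  have hP1 : (1:ℝ) ≤ P := by exact_mod_cast hPpos
  obtain ⟨δ, hδ⟩ : ∃ δ : ℝ, δ = 1 / (8 * P) := ⟨_, rfl⟩
  have hδpos : 0 < δ := by rw [hδ]; positivity
  have hK6 := K6K_nonneg (n := n) (C₈ := C₈) h0.le hM hC₁ hB0 hCg.le hδpos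
  obtain ⟨K7, hK7⟩ : ∃ K7 : ℝ, K7 = 1 + 4 * K6K n h M C₁ B₀ C₈ Cg δ := ⟨_, rfl⟩
  have hK7' : 1 ≤ K7 := by linarith
  have hlK7 : 0 ≤ Real.log K7 := Real.log_nonneg hK7'
  have hlog5 : 0 ≤ Real.log 5 := Real.log_nonneg (by norm_num)
  obtain ⟨Kc, hKc⟩ : ∃ Kc : ℝ, Kc = Real.log K7 + e M₀ * Real.log 5 := ⟨_, rfl⟩
  have hKc0 : 0 ≤ Kc := by rw [hKc]; positivity
  have hl32 : 0 ≤ Real.log (32 * P) := Real.log_nonneg (by nlinarith)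
  have hnum : 0 ≤ 16 * (P * Real.log (32 * P) + P * Kc) := by positivity
  refine ⟨min 1 (δ / (32 * Cg)), 8 + 16 * (P * Real.log (32 * P) + P * Kc),
    lt_min one_pos (by positivity), min_le_left _ _, by linarith, ?_⟩
  intro I κ ε a g b g₁ S₀ H₀ H₀' H H₁ gS θ hκ₀ hε0 hεε hne hcard hD hθ0 hθ1 hθs hNE hLam
  have hε1 : ε ≤ 1 := hεε.trans (min_le_left _ _)
  have hεδ : 32 * ε * Cg ≤ δ := by
    have h1 : ε ≤ δ / (32 * Cg) := hεε.trans (min_le_right _ _)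
    rw [le_div_iff₀ (by positivity)] at h1
    linarith
  have hκ : 1 ≤ κ := by linarith
  have hLI := one_le_Lam h0.le hκ I
  have hκℓ : κ ≤ 8 * Real.log (Lam κ h I) := by
    have h1 := Real.log_le_log (Real.exp_pos _) hLam
    rw [Real.log_exp] at h1
    linarith
  have hℓ1 : 1 ≤ Real.log (Lam κ h I) := by linarith
  have hℓ0 : 0 ≤ Real.log (Lam κ h I) := by linarith
  by_contra hcon
  push Not at hcon
  -- growth of all the pieces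
  have hgrow : ∀ i₀ i₁ : ℕ, i₀ ≤ i₁ → i₁ ≤ I →
      Gl a g h i₁ - Gl a g h i₀ ≤ Cg * Real.log (Lam κ h I) := by
    intro i₀ i₁ h01 h1I
    have hIN : ((I + n : ℕ) : ℝ) * h ≤ ((I + n : ℕ) : ℝ) * h := le_rfl
    have hA := A_quasi hD.epath hM hC₁ hD.budget le_rfl (by positivity : (0:ℝ) ≤ i₀ * h)
      (mul_le_mul_of_nonneg_right (Nat.cast_le.2 (by omega : i₀ ≤ I + n)) h0.le)
    have hB := A_quasi hD.epath hM hC₁ hD.budget (by positivity : (0:ℝ) ≤ i₁ * h)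
      (mul_le_mul_of_nonneg_right (Nat.cast_le.2 (by omega : i₁ ≤ I + n)) h0.le) hIN
    have hA' : Real.log (Ag a g h 0) ≤ Gl a g h i₀ + C2 M C₁ * B₀ := by
      have e0 : Ag a g h 0 = Am a g 0 := by unfold Ag; norm_num
      rw [e0]; exact hA
    have hB' : Gl a g h i₁ ≤ Real.log (Ag a g h (I + n)) + C2 M C₁ * B₀ := hB
    have h5 : 2 * (C2 M C₁ * B₀) ≤ 2 * (C2 M C₁ * B₀) * Real.log (Lam κ h I) := by
      nlinarith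
    rw [hCgdef, add_mul]
    linarith
  have hlκ : 0 ≤ Real.log κ := Real.log_nonneg hκ
  have h2d : 0 ≤ 2 * δ * Real.log (Lam κ h I) := by positivity
  have hit := iterate (E := e M₀) (I := I) (lam := fun i => Real.log (Lam κ h i))
    (V := totNum S₀ M₀ (rad2 e κ h a g)) (K := Real.log K7 + 2 * δ * Real.log (Lam κ h I))
    (w := Kc + 2 * δ * Real.log (Lam κ h I) + Real.log κ) (c := Real.log 5)
    (fun i i' hi => totNum_anti (fun j i i' hi => rad2_mono hD.epath h0.le hκ e j hi) hi)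
    (fun i₀ i hi0 hiI heq => by
      rw [hK7]
      exact log_stageK hD hn1 le_rfl h0 h2 hM hC₁ hε0 hε1 hB0 hC₈ hκ hem he0 hne hcard hθ0 hθ1
        hθs hNE hCg hδpos hεδ hℓ0 hgrow hi0 hiI heq)
    (fun i => log_Lam_succ h0 h2 hκ i)
    (by
      have hLam0 : Real.log (Lam κ h 0) = Real.log κ := by unfold Lam; simp
      show Real.log (Lam κ h 0) ≤ _
      rw [hLam0]; linarith)
    (by rw [hKc]; linarith) hlog5 (by positivity) ((M₀ + 1) * M₀) I le_rfl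
    (by
      have := totNum_le (S₀ := S₀) (M₀ := M₀) (r := rad2 e κ h a g) hcard 0
      omega)
  have hPe : ((e M₀ : ℝ) + 1) ^ ((M₀ + 1) * M₀ + 1) = (P : ℝ) := by
    rw [hP]; unfold Pex; push_cast; rfl
  rw [hPe] at hit
  exact final_contra hPpos hδ hKc0 rfl hκ hκℓ (by linarith) hit

end Vale.Agent.P214.PATHG
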