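import Vale.Agent.P214.CAPF.MoutE
import Vale.Agent.P214.QP.IntV
import Vale.Agent.P214.B4.Down
import Vale.Agent.P214.R2.Exh

/-!
# P214, general rate, block PATHG: the start of a path

At a scale `s` with `0 < exc x (14 s) ≤ KD * exc x (s/2)` above which the excess at `x` is small,
the `Q`-valued Poincaré inequality provides the representatives `S₀` and all the data `NG.NGData`
of the path lemma on `[s, 2^N s]`, for every `κ ≥ κQ`.
-/

open Set Filter Topology MeasureTheory Metric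
open scoped RealInnerProductSpace

set_option linter.all false

namespace Vale.Agent.P214.PATHG

open Vale.Agent.P214.FV Vale.Agent.P214.ODE Vale.Agent.P214.NGP Vale.Agent.P214.CAPF
open Vale.Agent.P214.QP (bset Dex dQP Cgc)
open Vale.Agent.P214.Skel (IntCyl exc cylSet om)

variable {E : Type*} [NormedAddCommGroup E] [InnerProductSpace ℝ E] [FiniteDimensional ℝ E]
  [MeasurableSpace E] [BorelSpace E]

variable {m Q : ℕ} {T : Submodule ℝ E} {G : Set E} {h : ℝ} {ν : Measure E} {P : E → E →L[ℝ] E}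
  {x : E}

lemma bset_eq_cylSet (hx : x ∈ T) {t : ℝ} (ht : 0 ≤ t) : bset T x t = cylSet T x t := by
  ext y
  rw [QP.mem_bset ht, QP.bx_of_mem hx]
  show ‖T.starProjection y - x‖ < t ↔ T.starProjection y ∈ ball x t
  rw [mem_ball, dist_eq_norm]

lemma Dex_eq_exc (hx : x ∈ T) {t : ℝ} (ht : 0 ≤ t) : Dex T P ν x t = exc T ν P x t := by
  unfold QP.Dex Skel.exc
  rw [bset_eq_cylSet hx ht]
  refine integral_congr_ae (Eventually.of_forall fun y => ?_)
  exact (TH.tilt_agree T P y).symm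

/-- bound of the kernel -/
lemma kk_le {s : ℝ} (hs : 0 ≤ s) : kk s ≤ 2 * TH.winC := by
  unfold kk
  have := TH.abs_deriv_win_le hs
  have := neg_abs_le (deriv TH.win s)
  linarith

/-- the energy with the kernel `win` controls the energy of the half ball -/
lemma Dex_half_le (hC : CylStat m T G h ν P) {s : ℝ} (hs : 0 < s) :
    s ^ 2 * Dex T P ν x (s / 2) ≤ s ^ m * tiltK m T x TH.win P ν s := by
  haveI := hC.fin
  have hpl := CylStat.plane hC
  have i1 := integrable_K (z := x) hC kernW hs (aesm_tilt (T := T) hpl.meas) hpl.abs_tilt_le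
  have hD : Dex T P ν x (s / 2) ≤ ∫ y, TH.win (bsq T x y / s ^ 2) * ODE.tilt T P y ∂ν := by
    unfold QP.Dex
    rw [← integral_indicator (QP.measurableSet_bset T x (s / 2))]
    refine integral_mono_ae ((QP.integrable_tilt hC).indicator
      (QP.measurableSet_bset T x (s / 2))) i1 ?_
    filter_upwards [ODE.CylStat.tilt_nonneg hC] with y hy
    by_cases hmem : y ∈ bset T x (s / 2)
    · rw [indicator_of_mem hmem]
      have h1 : bsq T x y < (s / 2) ^ 2 := hmem
      have h2 : bsq T x y / s ^ 2 ≤ 1 / 4 := by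
        rw [div_le_iff₀ (by positivity)]; nlinarith
      rw [TH.win_one h2, one_mul]
    · rw [indicator_of_notMem hmem]
      exact mul_nonneg (TH.win_nonneg _) hy
  unfold tiltK
  have e1 : s ^ m * (s ^ (2 - (m : ℤ)) * ∫ y, TH.win (bsq T x y / s ^ 2) * ODE.tilt T P y ∂ν)
      = s ^ 2 * ∫ y, TH.win (bsq T x y / s ^ 2) * ODE.tilt T P y ∂ν := by
    rw [← mul_assoc]
    congr 1
    rw [sub_eq_add_neg, zpow_add₀ hs.ne', zpow_neg, zpow_natCast]
    have : (s ^ m) ≠ 0 := by positivity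
    field_simp
  rw [e1]
  exact mul_le_mul_of_nonneg_left hD (by positivity)

/-- the mass of the small cylinders -/
lemma mass_le_of_intCyl {t : ℝ} (hx : x ∈ T) (ht : 0 < t) (hI : IntCyl m Q T x t h 1 ν P) :
    ν.real (bset T x t) ≤ (Q * om m + 1) * t ^ m := by
  rw [bset_eq_cylSet hx ht.le]
  have h1 := (abs_le.1 hI.mass).2
  linarith

lemma om_nonneg (m : ℕ) : 0 ≤ om m := ENNReal.toReal_nonneg

/-- **The start of a path.** -/
theorem start (E : Type*) [NormedAddCommGroup E] [InnerProductSpace ℝ E] [FiniteDimensional ℝ E]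
    [MeasurableSpace E] [BorelSpace E] (m Q : ℕ) (hm : 1 ≤ m) {KD : ℝ} (hKD : 0 ≤ KD) :
    ∃ (M₀ : ℕ) (C₈ κ₁ A₁ κQ dQ : ℝ), 1 ≤ M₀ ∧ 0 ≤ C₈ ∧ 0 ≤ κ₁ ∧ 0 ≤ A₁ ∧ 1 ≤ κQ ∧ 0 < dQ ∧
    ∀ (T : Submodule ℝ E) (h : ℝ) (ν : Measure E) (P : E → E →L[ℝ] E),
      IntCyl m Q T 0 2 h dQ ν P → exc T ν P 0 2 ≤ dQ →
    ∀ x ∈ T, ‖x‖ ≤ 1 → ∀ (s : ℝ) (N : ℕ), 0 < s → 8 * s ≤ 1 / 16 → s * 2 ^ N ≤ 1 / 16 →
      (∀ s', s ≤ s' → s' ≤ 1 / 8 → exc T ν P x s' ≤ dQ * s' ^ m) →
      exc T ν P x (14 * s) ≤ KD * exc T ν P x (s / 2) → 0 < exc T ν P x (s / 2) →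
    ∀ (cQ M C₁ εN B₀ : ℝ), (m : ℝ) - 2 ≤ M → (m : ℝ) - 2 ≤ C₁ → 0 ≤ C₁ → 0 < εN →
      (∫ u in (0:ℝ)..(N * Real.log 2), NG.Yp (aU m T x TH.win ν cQ s) (gU m T x TH.win P ν s) u
        ≤ B₀) →
    ∃ (S₀ : Finset E) (δ R₁ β : ℝ), S₀.Nonempty ∧ S₀.card ≤ M₀ ∧ (∀ c ∈ S₀, c ∈ Tᗮ) ∧ 0 < δ ∧
      0 < R₁ ∧ R₁ = s * √(εN / (16 * m)) ∧ 16 * m * R₁ ^ 2 = εN * s ^ 2 ∧ 0 < β ∧
      (∀ κ : ℝ, κQ ≤ κ →
        NG.NGData N (Real.log 2) κ M C₁ εN B₀ C₈ (aU m T x TH.win ν cQ s)
          (gU m T x TH.win P ν s) (bU m T x kk P ν s) (g₁U m T x kk TH.win P ν s) S₀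
          (HU m T x kk (F₀ T S₀ β R₁) P ν s δ) (H₁U m T x kk TH.win (F₀ T S₀ β R₁) P ν s)
          (fun S => HU m T x kk (capF T S (wR S R₁)) P ν s δ)
          (fun S => H₁U m T x kk TH.win (capF T S (wR S R₁)) P ν s)
          (fun S => gSU m T x TH.win (capF T S (wR S R₁)) P ν s)) ∧
      (∫ y in bset T x s, infDist (co T y) (S₀ : Set E) ^ 2 ∂ν
        ≤ κ₁ * s ^ m * NG.Am (aU m T x TH.win ν cQ s) (gU m T x TH.win P ν s) 0) ∧
      ν.real (bset T x s) ≤ A₁ * s ^ m := by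
  obtain ⟨δ₁, hδ₁, hdown⟩ := B4.intCyl_down (E := E) hm Q (δ' := 1) (ρ₀ := 1 / 16) one_pos
    (by norm_num)
  set A₁ : ℝ := Q * om m + 1 with hA₁
  have hA1 : 1 ≤ A₁ := by
    have := om_nonneg m
    have : (0:ℝ) ≤ Q * om m := by positivity
    linarith
  set Ck : ℝ := 2 * TH.winC with hCk
  have hCk0 : 0 ≤ Ck := by have := TH.winC_nonneg; positivity
  have hcg := cg_pos m
  have hCg := QP.Cgc_pos m
  set A : ℝ := A₁ * 40 ^ m with hA
  set M₀ : ℕ := ⌈Cgc m * A * 2 ^ m / cg m⌉₊ + 1 with hM₀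
  set κ₁ : ℝ := 57 * 8 ^ m * Cgc m * KD * 2 / 9 with hκ₁
  have hκ₁0 : 0 ≤ κ₁ := by positivity
  have hd0 := QP.dQP_pos m (c0 := cg m) (ε := 1) hcg one_pos
  set dQ : ℝ := min δ₁ (dQP m (cg m) 1 / 40 ^ m) with hdQ
  have hdQ0 : 0 < dQ := lt_min hδ₁ (by positivity)
  have hdQ1 : dQ ≤ δ₁ := min_le_left _ _
  have hdQ2 : dQ * 40 ^ m ≤ dQP m (cg m) 1 := by
    have := min_le_right δ₁ (dQP m (cg m) 1 / 40 ^ m)
    rwa [← hdQ, le_div_iff₀ (by positivity)] at this
  refine ⟨M₀, 2 * Ck * A₁, κ₁, A₁, Ck * κ₁ + 2, dQ, by omega, by positivity, hκ₁0, by linarith,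
    by nlinarith, hdQ0, ?_⟩
  intro T h ν P hI hexc2 x hx hx1 s N hs hs128 hsN hadm hKDs hpos cQ M C₁ εN B₀ hM hC₁ hC₁0 hεN hB
  haveI := hI.cyl.fin
  have hC := hI.cyl
  have hk := kernW
  -- `IntCyl` at the scales `≥ s`
  have hIt : ∀ t, s ≤ t → t ≤ 1 / 8 → IntCyl m Q T x t h 1 ν P := by
    intro t hst ht8
    refine hdown T 0 2 h ν P ⟨hI.cyl, hI.mem, hI.pos, hI.int, hI.mass.trans ?_⟩ ?_ x hx ?_ t
      (hs.trans_le hst) ?_ ?_
    · gcongr
    · calc exc T ν P 0 2 ≤ dQ := hexc2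
        _ ≤ δ₁ * 1 := by linarith
        _ ≤ δ₁ * 2 ^ m := by
          gcongr
          exact one_le_pow₀ one_le_two
    · rw [sub_zero]; linarith
    · rw [sub_zero]; linarith
    · intro s' h1 h2
      have hs' : 0 < s' := by linarith
      refine (hadm s' (hst.trans h1) (by linarith)).trans ?_
      gcongr
  have hmass : ∀ t, s ≤ t → t ≤ 1 / 8 → ν.real (bset T x t) ≤ A₁ * t ^ m := fun t h1 h2 =>
    mass_le_of_intCyl hx (hs.trans_le h1) (hIt t h1 h2)
  -- the Poincaré inequality at scale `t = s / 3`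
  set t : ℝ := s / 3 with ht
  have ht0 : 0 < t := by positivity
  have h40 : 40 * t ≤ 14 * s := by rw [ht]; linarith
  have h40s : s ≤ 40 * t := by rw [ht]; linarith
  have h40m : ν.real (bset T x (40 * t)) ≤ A * t ^ m := by
    refine (hmass (40 * t) h40s (by linarith)).trans (le_of_eq ?_)
    rw [hA, mul_pow]; ring
  have hD40 : Dex T P ν x (40 * t) ≤ exc T ν P x (14 * s) := by
    rw [Dex_eq_exc hx (by positivity)]
    exact R2.exc_mono' hC h40
  have hexc40 : Dex T P ν x (40 * t) ≤ dQP m (cg m) 1 * t ^ m := by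
    rw [Dex_eq_exc hx (by positivity)]
    refine (hadm (40 * t) h40s (by linarith)).trans ?_
    rw [mul_pow, ← mul_assoc]
    gcongr
  obtain ⟨x0, hx0, S, hgood, hSmem, hcard, hcone, hL2⟩ := QP.qpoincare_int hI (ε := 1) (t := t)
    (A := A) hx one_pos le_rfl ht0 (by rw [sub_zero, ht]; linarith) h40m hexc40
  have hnear := hgood.near
  have hST : ∀ c ∈ S, c ∈ Tᗮ := fun c hc => ((hSmem c).1 hc).1
  -- nonempty
  have hpx : T.starProjection x = x := Submodule.starProjection_eq_self_iff.2 hx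
  have hSne : S.Nonempty := by
    by_contra hne
    rw [Finset.not_nonempty_iff_eq_empty] at hne
    have h1 : ν (cylSet T x (s / 2)) = 0 := by
      have h2 : cylSet T x (s / 2) ⊆ ν.supportᶜ := by
        intro y hy hsup
        have h3 : ‖bx T x0 y‖ ≤ 8 * t := by
          rw [QP.bx_of_mem hx0]
          have h4 : ‖T.starProjection y - x‖ < s / 2 := by
            have : T.starProjection y ∈ ball x (s / 2) := hy
            rwa [mem_ball, dist_eq_norm] at this
          calc ‖T.starProjection y - x0‖ = ‖(T.starProjection y - x) - (x0 - x)‖ := by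
                congr 1; abel
            _ ≤ ‖T.starProjection y - x‖ + ‖x0 - x‖ := norm_sub_le _ _
            _ ≤ 8 * t := by
              have : s = 3 * t := by rw [ht]; ring
              linarith
        obtain ⟨c, hc, -⟩ := hcone y hsup h3
        rw [hne] at hc
        simp at hc
      exact measure_mono_null h2 Measure.measure_compl_support
    have h3 : exc T ν P x (s / 2) = 0 := by
      unfold Skel.exc
      exact setIntegral_measure_zero _ h1
    linarith
  have hcardM : S.card ≤ M₀ := by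
    have h1 : (S.card : ℝ) ≤ M₀ := by
      refine hcard.trans ?_
      rw [hM₀]
      push_cast
      have := Nat.le_ceil (Cgc m * A * 2 ^ m / cg m)
      linarith
    exact_mod_cast h1
  -- the energy at the start
  set A0 : ℝ := NG.Am (aU m T x TH.win ν cQ s) (gU m T x TH.win P ν s) 0 with hA0
  have hgU : gU m T x TH.win P ν s 0 = tiltK m T x TH.win P ν s := by
    unfold gU; rw [Real.exp_zero, mul_one]
  have hgA : tiltK m T x TH.win P ν s ≤ 2 * A0 := by
    have h1 : gU m T x TH.win P ν s 0 / 2 ≤ A0 := le_max_right _ _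
    rw [hgU] at h1
    linarith
  have hhalf := Dex_half_le (x := x) hC hs
  have hDpos : 0 < Dex T P ν x (s / 2) := by
    rw [Dex_eq_exc hx (by positivity)]; exact hpos
  have hgpos : 0 < tiltK m T x TH.win P ν s := by
    have h1 : 0 < s ^ 2 * Dex T P ν x (s / 2) := by positivity
    have h2 := h1.trans_le hhalf
    exact (mul_pos_iff_of_pos_left (by positivity)).1 h2
  have hA0pos : 0 < A0 := by linarith
  -- the L² bound
  have hbot : ∫ y in bset T x s, infDist (co T y) (S : Set E) ^ 2 ∂ν ≤ κ₁ * s ^ m * A0 := by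
    have hsub : bset T x s ⊆ bset T x0 (4 * t) := by
      intro y hy
      rw [QP.mem_bset hs.le, QP.bx_of_mem hx] at hy
      rw [QP.mem_bset (by positivity), QP.bx_of_mem hx0]
      calc ‖T.starProjection y - x0‖ = ‖(T.starProjection y - x) - (x0 - x)‖ := by
            congr 1; abel
        _ ≤ ‖T.starProjection y - x‖ + ‖x0 - x‖ := norm_sub_le _ _
        _ < 4 * t := by
          have : s = 3 * t := by rw [ht]; ring
          linarith
    have hcont : Continuous fun y : E => infDist (co T y) (S : Set E) ^ 2 :=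
      ((continuous_infDist_pt _).comp (co T).continuous).pow 2
    have hG0 : BallIn T (ball (0 : E) 2) x0 (4 * t) := by
      intro y hy hy2
      rw [Submodule.starProjection_eq_self_iff.2 hx0] at hy2
      rw [mem_ball_zero_iff]
      calc ‖y‖ = ‖(y - x0) + ((x0 - x) + x)‖ := by congr 1; abel
        _ ≤ ‖y - x0‖ + (‖x0 - x‖ + ‖x‖) := (norm_add_le _ _).trans (by
            gcongr; exact norm_add_le _ _)
        _ < 2 := by
          have : s = 3 * t := by rw [ht]; ring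
          linarith
    obtain ⟨Cb, hCb⟩ := CylStat.ball_bound hC hcont (by positivity : 0 < 4 * t) hG0
    have i0 : IntegrableOn (fun y => infDist (co T y) (S : Set E) ^ 2) (bset T x0 (4 * t)) ν := by
      refine Measure.integrableOn_of_bounded (M := Cb) (measure_ne_top ν _)
        hcont.aestronglyMeasurable ?_
      rw [ae_restrict_iff' (QP.measurableSet_bset T x0 (4 * t))]
      filter_upwards [hCb] with y hy hmem
      exact hy hmem
    have h1 : ∫ y in bset T x s, infDist (co T y) (S : Set E) ^ 2 ∂ν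
        ≤ ∫ y in bset T x0 (4 * t), infDist (co T y) (S : Set E) ^ 2 ∂ν :=
      setIntegral_mono_set i0 (Eventually.of_forall fun y => by positivity) hsub.eventuallyLE
    refine h1.trans (hL2.trans ?_)
    calc 57 * 8 ^ m * Cgc m * t ^ 2 * Dex T P ν x (40 * t)
        ≤ 57 * 8 ^ m * Cgc m * t ^ 2 * (KD * Dex T P ν x (s / 2)) := by
          gcongr
          rw [Dex_eq_exc hx (by positivity : (0:ℝ) ≤ s / 2)]
          exact hD40.trans hKDs
      _ = 57 * 8 ^ m * Cgc m * KD / 9 * (s ^ 2 * Dex T P ν x (s / 2)) := by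
          rw [ht]; ring
      _ ≤ 57 * 8 ^ m * Cgc m * KD / 9 * (s ^ m * tiltK m T x TH.win P ν s) := by gcongr
      _ ≤ 57 * 8 ^ m * Cgc m * KD / 9 * (s ^ m * (2 * A0)) := by gcongr
      _ = κ₁ * s ^ m * A0 := by rw [hκ₁]; ring
  -- the parameters
  have hmR : (0:ℝ) < m := by exact_mod_cast hm
  set R₁ : ℝ := s * √(εN / (16 * m)) with hR₁
  have hR₁0 : 0 < R₁ := mul_pos hs (Real.sqrt_pos.2 (by positivity))
  have hR₁sq : 16 * m * R₁ ^ 2 = εN * s ^ 2 := by
    rw [hR₁, mul_pow, Real.sq_sqrt (by positivity)]; field_simp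
  have hlog0 : 0 ≤ Real.log S.card := by
    refine Real.log_nonneg ?_
    exact_mod_cast Finset.card_pos.2 hSne
  set β : ℝ := (2 * Ck * Real.log S.card * A₁ + 1) / A0 with hβ
  have hβ0 : 0 < β := by positivity
  have hBR : BallIn T (ball (0 : E) 2) x (1 / 8) := by
    intro y hy hy2
    rw [hpx] at hy2
    rw [mem_ball_zero_iff]
    calc ‖y‖ = ‖(y - x) + x‖ := by congr 1; abel
      _ ≤ ‖y - x‖ + ‖x‖ := norm_add_le _ _
      _ < 2 := by linarith
  have hexpN : s * Real.exp (N * Real.log 2) = s * 2 ^ N := by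
    rw [← Real.log_pow, Real.exp_log (by positivity)]
  have hinit0 := init_le (z := x) (δ := A0) (β := β) (R₁ := R₁) hC hk (Ck := Ck)
    (fun s hs => kk_le hs) hSne hs hβ0 hR₁0 hST (by linarith : s < 1 / 8) hBR
  have hzs : s ^ (-(m : ℤ)) * s ^ m = 1 := by
    rw [zpow_neg, zpow_natCast]; field_simp
  have hzp : 0 < s ^ (-(m : ℤ)) := zpow_pos hs _
  have hinit1 : HU m T x kk (F₀ T S β R₁) P ν s A0 0 ≤ (Ck * κ₁ + 2) * A0 := by
    refine hinit0.trans ?_
    have h1 : Ck * s ^ (-(m : ℤ)) * (∫ y in QP.bset T x s, infDist (co T y) (S : Set E) ^ 2 ∂ν)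
        ≤ Ck * κ₁ * A0 := by
      calc Ck * s ^ (-(m : ℤ)) * (∫ y in QP.bset T x s, infDist (co T y) (S : Set E) ^ 2 ∂ν)
          ≤ Ck * s ^ (-(m : ℤ)) * (κ₁ * s ^ m * A0) := by gcongr
        _ = Ck * κ₁ * A0 * (s ^ (-(m : ℤ)) * s ^ m) := by ring
        _ = Ck * κ₁ * A0 := by rw [hzs, mul_one]
    have h2 : 2 * Ck * (Real.log S.card / β) * s ^ (-(m : ℤ)) * ν.real (QP.bset T x s) ≤ A0 := by
      have h3 := hmass s le_rfl (by linarith)
      calc 2 * Ck * (Real.log S.card / β) * s ^ (-(m : ℤ)) * ν.real (QP.bset T x s)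
          ≤ 2 * Ck * (Real.log S.card / β) * s ^ (-(m : ℤ)) * (A₁ * s ^ m) := by gcongr
        _ = 2 * Ck * Real.log S.card * A₁ / β * (s ^ (-(m : ℤ)) * s ^ m) := by ring
        _ = 2 * Ck * Real.log S.card * A₁ / β := by rw [hzs, mul_one]
        _ ≤ A0 := by
          rw [div_le_iff₀ hβ0, hβ]
          have : A0 * ((2 * Ck * Real.log S.card * A₁ + 1) / A0)
              = 2 * Ck * Real.log S.card * A₁ + 1 := by field_simp
          rw [this]; linarith
    linarith
  refine ⟨S, A0, R₁, β, hSne, hcardM, hST, hA0pos, hR₁0, rfl, hR₁sq, hβ0, ?_, hbot,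
    hmass s le_rfl (by linarith)⟩
  intro κ hκ
  refine ngData hC hk kk_zero cQ (R' := 1 / 8) hs (Real.log_nonneg one_le_two) ?_ hBR hgpos hM
    hC₁ hC₁0 hεN.le hA0pos hβ0 hR₁0 hR₁sq.le hSne hST hB ?_ ?_
  · rw [hexpN]; linarith
  · refine hinit1.trans ?_
    gcongr
  · intro t' h1 h2
    rw [hexpN] at h2
    have ht'0 : 0 < t' := hs.trans_le h1
    have h3 := hmass t' h1 (by linarith)
    have h4 : ∫ y, kk (bsq T x y / t' ^ 2) ∂ν ≤ Ck * ν.real (bset T x t') := by
      have h5 : Ck * ν.real (bset T x t') = ∫ y, (bset T x t').indicator (fun _ => Ck) y ∂ν := by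
        rw [integral_indicator (QP.measurableSet_bset T x t'), setIntegral_const, smul_eq_mul,
          mul_comm]
      rw [h5]
      refine integral_mono_of_nonneg (Eventually.of_forall fun y => kk_nonneg _)
        ((integrable_const Ck).indicator (QP.measurableSet_bset T x t'))
        (Eventually.of_forall fun y => ?_)
      by_cases hmem : y ∈ bset T x t'
      · rw [indicator_of_mem hmem]
        exact kk_le (div_nonneg (bsq_nonneg T x y) (by positivity))
      · rw [indicator_of_notMem hmem]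
        refine le_of_eq (hk.pk.zero _ ?_)
        rw [one_le_div (by positivity)]
        exact not_lt.1 hmem
    calc 2 * ∫ y, kk (bsq T x y / t' ^ 2) ∂ν ≤ 2 * (Ck * ν.real (bset T x t')) := by gcongr
      _ ≤ 2 * (Ck * (A₁ * t' ^ m)) := by gcongr
      _ = 2 * Ck * A₁ * t' ^ m := by ring

end Vale.Agent.P214.PATHG
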