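import Vale.Agent.P214.PATHG.Props
import Vale.Agent.P214.PATHG.Start

/-!
# P214, block BoxPath: the piece `PATHG.Start`
-/

open Set Filter Topology MeasureTheory Metric
open scoped RealInnerProductSpace ENNReal

set_option linter.all false

namespace Vale.Agent.P214.PATHG

open Vale.Agent.P214.Skel Vale.Agent.P214.EX Vale.Agent.P214.R2 Vale.Agent.P214.GEN
open Vale.Agent.P214.CAPF

/-- **(START)** -/
theorem startP (E : Type*) [NormedAddCommGroup E] [InnerProductSpace ℝ E] [FiniteDimensional ℝ E]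
    [MeasurableSpace E] [BorelSpace E] {m Q : ℕ} (hm : 1 ≤ m) : Start E m Q := by
  intro KD hKD
  obtain ⟨M₀, C₈, κ₁, A₁, κQ, dQ, hM₀, hC₈, hκ₁, hA₁, hκQ, hdQ, H⟩ :=
    start E m Q hm (by linarith : 0 ≤ KD)
  refine ⟨M₀, C₈, κQ, κ₁, A₁, dQ, dQ, hM₀, hC₈, hκQ, hκ₁, hA₁, hdQ, hdQ, ?_⟩
  intro T h ν P x s N ε B₀ κ hI hexc hx hx1 hs hsN hs64 hadm hKDs hpos hε hε1 hκ hB
  have hmm : (m : ℝ) - 2 ≤ Mm m := by unfold Mm; linarith
  obtain ⟨S₀, δ, R₁, β, hne, hcard, hperp, hδ, hR₁, hR₁eq, -, hβ, hdat, hbot, hmass⟩ :=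
    H T h ν P hI hexc x hx hx1 s N hs (by linarith) hsN hadm hKDs hpos
      (Q * cK m T TH.win) (Mm m) (Mm m) ε B₀ hmm hmm (by unfold Mm; positivity) hε hB
  refine ⟨S₀, δ, β, hne, hcard, hδ, hβ, ⟨hperp, hbot, hmass⟩, ?_⟩
  have h1 := hdat κ hκ
  rw [hR₁eq] at h1
  exact h1

end Vale.Agent.P214.PATHG
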