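import Vale.Agent.P214.THIN.Pack

/-!
# P214, block BoxPath: `Thin`

A gap event of the path lemma (margin of six steps) is an event of the exhaustion, `Cd = 2`,
`cT = 1`.
-/

open Set Filter Topology MeasureTheory Metric
open scoped RealInnerProductSpace ENNReal

set_option linter.all false

namespace Vale.Agent.P214.PATHG

open Vale.Agent.P214.Skel Vale.Agent.P214.EX Vale.Agent.P214.R2 Vale.Agent.P214.GEN
open Vale.Agent.P214.CAPF Vale.Agent.P214.THIN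

/-- **(THIN + EVSUM)** -/
theorem thin (E : Type*) [NormedAddCommGroup E] [InnerProductSpace ℝ E]
    [FiniteDimensional ℝ E] [MeasurableSpace E] [BorelSpace E] {m Q : ℕ} (hm : 1 ≤ m) :
    Thin E m Q := by
  intro Kl c₀ κe Me hη hMe hκ0 hκ1 hMκ
  refine ⟨1, one_pos, fun η₁ hη₁ _ B₀ C₈ κ₁ A₁ hB₀ hC₈ hκ₁ hA₁ => ⟨2, 1, by norm_num, ?_⟩⟩
  intro e M₀ Cv he0 hestep hCv
  have hMm := Mm_nonneg m
  have hq1 : 1 ≤ qC (Mm m) (Mm m) B₀ := one_le_qC hMm hMm hB₀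
  have hJ1 : 1 ≤ 2 * qC (Mm m) (Mm m) B₀ ^ 2 := by nlinarith
  obtain ⟨δ, μ, κn, hδ, hμ, hκn, H⟩ := ev_of_numbers E m Q hm hη hκ0 hκ1 hMκ hη₁
    (q := qC (Mm m) (Mm m) B₀)
    (J := 2 * qC (Mm m) (Mm m) B₀ ^ 2) (Cv := 2 * Cv) hq1 hJ1 (by linarith)
  have hKO0 := Kout_nonneg hB₀ hC₈ hκ₁ hA₁ m
  set KO := Kout kmin (Mm m) (Mm m) B₀ C₈ κ₁ A₁ with hKO
  set δ' := min δ (μ / (32 * 4 ^ m)) with hδ'
  have hδ'0 : 0 < δ' := by positivity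
  have hδ'1 : δ' ≤ δ := min_le_left _ _
  have hδ'2 : δ' ≤ μ / (32 * 4 ^ m) := min_le_right _ _
  have hka0 : 0 ≤ 2 * 4 ^ m * KO * (36 * 2 ^ e M₀ * qC (Mm m) (Mm m) B₀ ^ 3) / μ := by
    positivity
  have h8 : (1:ℝ) ≤ 8 ^ m := one_le_pow₀ (by norm_num)
  have hε₁δ : δ' / 8 ^ m ≤ δ := (div_le_self hδ'0.le h8).trans hδ'1
  have hε₁δ' : δ' / 8 ^ m ≤ δ / 8 ^ m := by gcongr
  refine ⟨4 + κn + 2 * 4 ^ m * KO * (36 * 2 ^ e M₀ * qC (Mm m) (Mm m) B₀ ^ 3) / μ,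
    δ' / 8 ^ m, δ', by linarith, by positivity, hδ'0, ?_⟩
  intro T h ν P φ δt t₀ ρ N x s I κ ε δh β R₁ S₀ hI hexc hφ hδt hδt2 ht₀ ht₀δ hT hx hxn hs hsN
    hε hε1 hκT hδh hβ hR₁ hR₁s hS₀ hcard hexcs hBot hD hvv i hiI j hjM S hS hSne hsep hcov hno u
    hu hgap
  obtain ⟨hu1, hu2⟩ := hu
  have hκ4 : 4 ≤ κ := by linarith
  have hκn' : κn ≤ κ := by linarith
  have hκμ : 2 * 4 ^ m * KO * (36 * 2 ^ e M₀ * qC (Mm m) (Mm m) B₀ ^ 3) / μ ≤ κ := by linarith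
  have hκ1' : 1 ≤ κ := by linarith
  clear hκT hka0
  have ht₀1 : t₀ ≤ 1 / 16 := by linarith
  have hsN' : s * 2 ^ (I + 6) ≤ 1 / 16 := hsN.trans ht₀1
  have hmono := mono_of_step hestep
  have hU := uv hκ1' hiI hu1 hu2
  have hej : 1 ≤ e j := he0.trans (hmono (Nat.zero_le j))
  have hst : s ≤ s * Real.exp u := le_mul_of_one_le_right hs.le (Real.one_le_exp hU.u0)
  have htle := t_le hs hiI hu2
  have ht0 : 0 < s * Real.exp u := by positivity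
  have htt : s * Real.exp u ≤ t₀ := by linarith
  have ht512 : s * Real.exp u ≤ 1 / 512 := by linarith
  obtain ⟨l, hl1, hl2⟩ := exists_level_two (t₀ := t₀) ht0 htt
  refine ⟨l, hst.trans hl1, hl2, ?_⟩
  have hR₁L := cap_ge hD hU (hmono hjM) (hvv u ⟨hU.u0, hU.uN⟩).2.2
  obtain ⟨hA0, hbd⟩ := AA_after hD hs hU hu1 hu2 hno
  obtain ⟨hwmin, hwsq, hen⟩ := event_window hD hI.cyl hx hxn hs hsN' hR₁ hBot.perp hε.le hε1 hB₀
    hC₈ hκ1' hU hu1 hiI hej (hestep j) hS hSne hsep hcov hno hR₁L hgap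
  have hmassE := mass_event (m := m) (e0 := e M₀) (μ := μ) (δ := δ') (by omega) hI.cyl hx hxn hs
    hsN' hR₁ hBot.perp hδh.le hε.le hε1 hMm hMm hB₀ hC₈ hκ₁ hA₁
    hκ4 hD hBot.bot hBot.mass hej (hestep j) (hmono hjM.le) hS hSne hcov hiI hu1 hu2 hno hR₁L
    hwmin hμ hκμ hδ'2
    (fun r hr1 hr2 => hexcs r (hst.trans hr1) hr2)
  obtain ⟨hv1, hv2⟩ := level_numbers hs hκ4 hCv hvv hU hu2 hl1 hl2
  have hw2 : wR S R₁ ≤ 2 * (s * Real.exp u) := by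
    have := wR_le S R₁
    have := cap_le hm hs hε1 hR₁s
    linarith
  exact H T h ν P φ δt t₀ ρ N (intCyl_mono_delta hI hε₁δ) (hexc.trans hε₁δ') ht₀ ht₀1 hT x
    hx hxn (s * Real.exp u) (wR S R₁) (NG.Lam κ (Real.log 2) i) S l ht0 ht512 (wR_pos S hR₁)
    hw2 (hκn'.trans hU.lamk) hA0 hbd hwsq hmassE hen hl1 hl2
    (fun r hr1 hr2 => (hexcs r (hst.trans hr1) hr2).trans
      (mul_le_mul_of_nonneg_right hδ'1 (pow_nonneg (ht0.le.trans hr1) m))) hv1 hv2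

end Vale.Agent.P214.PATHG
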