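import Vale.Agent.P214.PATHG.Props
import Vale.Agent.P214.GEN.VcmpA

/-!
# P214, block BoxPath: `Vcmp`
-/

open Set Filter Topology MeasureTheory Metric
open scoped RealInnerProductSpace ENNReal

set_option linter.all false

namespace Vale.Agent.P214.PATHG

open Vale.Agent.P214.Skel Vale.Agent.P214.EX Vale.Agent.P214.R2 Vale.Agent.P214.GEN
open Vale.Agent.P214.CAPF

variable (E : Type*) [NormedAddCommGroup E] [InnerProductSpace ℝ E] [FiniteDimensional ℝ E]
  [MeasurableSpace E] [BorelSpace E]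

theorem vcmp {m : ℕ} (Q : ℕ) (hm : 1 ≤ m) : Vcmp E m Q := by
  have hk := NGP.kernW
  have h14e : TH.win (1 / 4) = 1 := TH.win_one le_rfl
  have h14 : 0 < TH.win (1 / 4) := by rw [h14e]; exact one_pos
  have h0e : TH.win 0 = 1 := TH.win_one (by norm_num)
  obtain ⟨δ, C, hδ, hC0, H⟩ := aK_bound (E := E) hk h14 m Q hm
  obtain ⟨δ₂, C₂, hδ₂, hC₂, H₂⟩ := ffl_top E m Q hm
  obtain ⟨Kl, hη⟩ := R2.isKernel_etaK (E := E) hk h14
  refine ⟨1 / 2, C + 2 * C₂ + 1, δ, min δ δ₂, by norm_num, by positivity, hδ, by positivity, ?_⟩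
  intro T h ν P hI hexc x hx hx1
  have hC := hI.cyl
  have hIδ : IntCyl m Q T 0 2 h δ ν P :=
    { hI with mass := hI.mass.trans (by gcongr; exact min_le_left _ _) }
  have hIδ₂ : IntCyl m Q T 0 2 h δ₂ ν P :=
    { hI with mass := hI.mass.trans (by gcongr; exact min_le_right _ _) }
  have h2m : (1:ℝ) ≤ 2 ^ m := one_le_pow₀ (by norm_num)
  have hexc₁ : exc T ν P 0 2 ≤ δ * 2 ^ m := by
    have := hexc.trans (min_le_left δ δ₂)
    nlinarith
  have hexc₂ : exc T ν P 0 2 ≤ δ₂ * 2 ^ m := by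
    have := hexc.trans (min_le_right δ δ₂)
    nlinarith
  refine ⟨?_, ?_, ?_⟩
  · intro t ht _
    have h1 := le_Am hC hk h14 hx ht (Q * cK m T TH.win)
    rw [h14e] at h1
    exact h1
  · intro t ht ht16
    have hxt : ‖x‖ + t ≤ 3 / 2 := by linarith
    have hp : 0 < t ^ ((m : ℤ) - 2) := zpow_pos ht _
    have hp' : 0 < t ^ (2 - (m : ℤ)) := zpow_pos ht _
    have hpp : t ^ (2 - (m : ℤ)) * t ^ ((m : ℤ) - 2) = 1 := by
      rw [← zpow_add₀ ht.ne']; simp
    have h1 := H₂ T 0 2 h ν P hIδ₂ hexc₂ (ker (etaK TH.win) x t) 1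
      (R2.measurable_ker hk x t)
      (fun y => by rw [abs_of_nonneg (ker_nonneg hη x t y)]; exact ker_le_one hη x t y)
      (fun y hy => by
        unfold EX.ker R2.etaK
        rw [hk.pK.zero, zero_div]
        have h1 : t ≤ ‖y - x‖ := by
          have := norm_sub_norm_le y x
          rw [sub_zero] at hy
          linarith
        rw [norm_smul, norm_inv, Real.norm_of_nonneg ht.le, mul_pow, inv_pow, inv_mul_eq_div,
          le_div_iff₀ (by positivity), one_mul]
        exact pow_le_pow_left₀ ht.le h1 2)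
    rw [Ffl_ker hC hk hx ht, h0e, div_one, mul_one] at h1
    set a := ODE.aK m T x TH.win ν (Q * cK m T TH.win) t with ha
    set g := ODE.tiltK m T x TH.win P ν t with hg
    have h5 : |a - g| ≤ 2 * C₂ * (t ^ (2 - (m : ℤ)) * exc T ν P 0 2) := by
      rw [abs_mul, abs_of_pos hp, abs_div, abs_of_pos (show (0:ℝ) < 2 by norm_num)] at h1
      have h6 : t ^ (2 - (m : ℤ)) * (t ^ ((m : ℤ) - 2) * (|a - g| / 2))
          ≤ t ^ (2 - (m : ℤ)) * (C₂ * exc T ν P 0 2) :=
        mul_le_mul_of_nonneg_left h1 hp'.le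
      rw [← mul_assoc, hpp, one_mul] at h6
      linarith
    have h7 := tiltK_le hC hk h14 hx ht
    rw [h0e, one_mul] at h7
    have h8 : exc T ν P x t ≤ exc T ν P 0 2 :=
      R2.exc_mono hC (by rw [dist_zero_right]; linarith)
    have h9 : g ≤ t ^ (2 - (m : ℤ)) * exc T ν P 0 2 := h7.trans (by gcongr)
    have h10 : 0 ≤ g := NGP.CylStat.tiltK_nonneg (z := x) hC hk ht
    have h12 : 0 ≤ t ^ (2 - (m : ℤ)) * exc T ν P 0 2 := h10.trans h9
    have h13 : 0 ≤ C * (t ^ (2 - (m : ℤ)) * exc T ν P 0 2) := by positivity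
    have h14' : 0 ≤ 2 * C₂ * (t ^ (2 - (m : ℤ)) * exc T ν P 0 2) := by positivity
    rw [AA]
    refine max_le ?_ ?_
    · have h15 := le_abs_self (a - g)
      calc a ≤ g + |a - g| := by linarith
        _ ≤ _ := by
          rw [add_mul, add_mul]
          linarith
    · show g / 2 ≤ _
      rw [add_mul, add_mul]
      linarith
  · intro t ht ht32 hsm
    have h4 := H T 0 2 h ν P hIδ hexc₁ x hx (by rw [sub_zero]; linarith) t ht (by linarith)
      (fun s' h5 h6 => hsm s' h5 (by linarith))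
    refine h4.2.trans ?_
    have hp' : 0 < t ^ (2 - (m : ℤ)) := zpow_pos ht _
    have h5 : 0 ≤ t ^ (2 - (m : ℤ)) * exc T ν P x (2 * t) :=
      mul_nonneg hp'.le (exc_nonneg' hC x (2 * t))
    nlinarith

end Vale.Agent.P214.PATHG
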