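import Vale.Agent.P214.PATHG.Flat
import Vale.Agent.P214.PATHG.PathK
import Vale.Agent.P214.PATHG.Vcmp
import Vale.Agent.P214.PATHG.BudS
import Vale.Agent.P214.PATHG.StartP
import Vale.Agent.P214.PATHG.Thin

/-!
# P214, block BoxPath: FLAT, unconditional
-/

namespace Vale.Agent.P214.PATHG

variable (E : Type*) [NormedAddCommGroup E] [InnerProductSpace ℝ E] [FiniteDimensional ℝ E]
  [MeasurableSpace E] [BorelSpace E]

theorem flat {m Q : ℕ} (hm : 1 ≤ m) : Flat E m Q :=
  flat_of m Q hm (pathK E) (vcmp E Q hm) (budS E m Q) (startP E hm) (thin E hm)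

end Vale.Agent.P214.PATHG
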