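import Vale.Agent.P214.PATHG.QualB
import Vale.Agent.P214.PATHG.BudS
import Vale.Agent.P214.PATHG.Vcmp
import Vale.Agent.P214.SG.Unit
import Vale.Agent.P214.POSG.Exc

/-!
# P214, block BoxPath: (QUAL)

At a steep centre `x` (`s` = last scale with `exc ≥ η₂ s ^ m`), if there is no event at a qualified
level (`Kq v ^ Cq s² ≤ AA x T_l`), then every level `T_l ≥ S₁ s` is qualified.
-/

open Set Filter Topology MeasureTheory Metric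
open scoped RealInnerProductSpace ENNReal

set_option linter.all false

namespace Vale.Agent.P214.PATHG

open Vale.Agent.P214.Skel Vale.Agent.P214.EX Vale.Agent.P214.R2 Vale.Agent.P214.GEN
open Vale.Agent.P214.CAPF

section defs

variable (E : Type*) [NormedAddCommGroup E] [InnerProductSpace ℝ E] [FiniteDimensional ℝ E]
  [MeasurableSpace E] [BorelSpace E]

/-- the statement `Flat` for fixed constants of the exhaustion -/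
def FlatAt (m Q : ℕ) (c₀ κe : ℝ) (Me : ℕ) (η₁ B : ℝ) (Cd : ℕ) : Prop :=
  ∀ Ca : ℕ, ∃ Cb₀ : ℕ, ∀ Cb : ℕ, Cb₀ ≤ Cb →
  ∃ v₀ ε₁ dF : ℝ, 1 ≤ v₀ ∧ 0 < ε₁ ∧ 0 < dF ∧
  ∀ (T : Submodule ℝ E) (h : ℝ) (ν : Measure E) (P : E → E →L[ℝ] E)
    (φ : E → ℝ) (δt t₀ : ℝ) (ρ N : ℕ → E → ℝ) (x : E) (r₁ t : ℝ),
    IntCyl m Q T 0 2 h ε₁ ν P → exc T ν P 0 2 ≤ ε₁ → BaseTest T 0 1 φ → 0 < δt → δt ≤ 1 / 2 →
    0 < t₀ → t₀ ≤ δt / 8 → Tot m Q T ν P c₀ κe Me η₁ t₀ δt φ ρ N →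
    x ∈ T → ‖x‖ ≤ 1 → Bud m Q T ν P η₁ t₀ B x → 0 < r₁ → r₁ ≤ t / 2 → t ≤ t₀ →
    v₀ ≤ vv m Q T ν P x t →
    (vv m Q T ν P x t ^ Cb)⁻¹ * r₁ ^ m ≤ exc T ν P x r₁ →
    (∀ r, r₁ < r → r ≤ t / 2 → exc T ν P x r ≤ (vv m Q T ν P x t ^ Cb)⁻¹ * r ^ m) →
    (∀ r, t / 2 ≤ r → r ≤ 1 / 8 → exc T ν P x r ≤ dF * r ^ m) →
    (∀ l : ℕ, 4 * r₁ ≤ t₀ / 2 ^ l → t₀ / 2 ^ l ≤ t →
      2 * Real.log (t₀ / 2 ^ l / r₁) ≤ √(vv m Q T ν P x t) → ¬ Ev m Q T ν P t₀ ρ N Cd x l) →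
    vv m Q T ν P x t ^ Ca * AA m Q T ν P x (4 * r₁) < AA m Q T ν P x t

/-- **(QUAL)** for fixed constants of the exhaustion -/
def QualAt (m Q : ℕ) (c₀ κe : ℝ) (Me : ℕ) (η₁ B : ℝ) (Cd : ℕ) : Prop :=
  ∀ (Cq : ℕ) (Kq : ℝ), 1 ≤ Cq → 0 < Kq → ∃ η₂₀ : ℝ, 0 < η₂₀ ∧ ∀ η₂ : ℝ, 0 < η₂ → η₂ ≤ η₂₀ →
  ∃ S₁ ε₁ : ℝ, 1 ≤ S₁ ∧ 0 < ε₁ ∧
  ∀ (T : Submodule ℝ E) (h : ℝ) (ν : Measure E) (P : E → E →L[ℝ] E)
    (φ : E → ℝ) (δt t₀ : ℝ) (ρ N : ℕ → E → ℝ) (x : E) (s : ℝ),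
    IntCyl m Q T 0 2 h ε₁ ν P → exc T ν P 0 2 ≤ ε₁ → BaseTest T 0 1 φ → 0 < δt → δt ≤ 1 / 2 →
    0 < t₀ → t₀ ≤ δt / 8 → Tot m Q T ν P c₀ κe Me η₁ t₀ δt φ ρ N →
    x ∈ T → ‖x‖ ≤ 1 → Bud m Q T ν P η₁ t₀ B x → 0 < s → η₂ * s ^ m ≤ exc T ν P x s →
    (∀ r, s < r → r ≤ 1 / 8 → exc T ν P x r ≤ η₂ * r ^ m) →
    (∀ l : ℕ, 4 * s ≤ t₀ / 2 ^ l → Kq * vv m Q T ν P x (t₀ / 2 ^ l) ^ Cq * s ^ 2
      ≤ AA m Q T ν P x (t₀ / 2 ^ l) → ¬ Ev m Q T ν P t₀ ρ N Cd x l) →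
    ∀ l : ℕ, S₁ * s ≤ t₀ / 2 ^ l → Kq * vv m Q T ν P x (t₀ / 2 ^ l) ^ Cq * s ^ 2
      ≤ AA m Q T ν P x (t₀ / 2 ^ l)

end defs

section lem

variable {E : Type*} [NormedAddCommGroup E] [InnerProductSpace ℝ E] [FiniteDimensional ℝ E]
  [MeasurableSpace E] [BorelSpace E]
variable {m Q : ℕ} {T : Submodule ℝ E} {G : Set E} {h : ℝ} {ν : Measure E} {P : E → E →L[ℝ] E}
  {x : E}

/-- the excess at the last scale -/
lemma exc_last_le (hC : FV.CylStat m T G h ν P) {s η₂ : ℝ} (hs : s < 1 / 8)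
    (h1 : ∀ r, s < r → r ≤ 1 / 8 → exc T ν P x r ≤ η₂ * r ^ m) :
    exc T ν P x s ≤ η₂ * s ^ m := by
  have h2 : Tendsto (fun r : ℝ => η₂ * r ^ m) (𝓝[>] s) (𝓝 (η₂ * s ^ m)) := by
    have : Continuous fun r : ℝ => η₂ * r ^ m := by fun_prop
    exact (this.tendsto s).mono_left nhdsWithin_le_nhds
  refine ge_of_tendsto h2 ?_
  filter_upwards [Ioo_mem_nhdsGT hs] with r hr
  exact (exc_mono' hC hr.1.le).trans (h1 r hr.1 hr.2.le)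

/-- polynomial form of the lower comparison -/
lemma low_poly {c t : ℝ} {a e : ℝ} (ht : 0 < t) (h1 : c * (t ^ (2 - (m : ℤ)) * e) ≤ a) :
    c * e * t ^ 2 ≤ a * t ^ m := by
  have h2 : t ^ (2 - (m : ℤ)) * t ^ m = t ^ 2 := by
    rw [← zpow_natCast t m, ← zpow_add₀ ht.ne', sub_add_cancel]; norm_cast
  calc c * e * t ^ 2 = c * (t ^ (2 - (m : ℤ)) * e) * t ^ m := by rw [← h2]; ring
    _ ≤ a * t ^ m := by gcongr

/-- polynomial form of the upper comparison -/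
lemma up_poly {C t : ℝ} {a e : ℝ} (ht : 0 < t) (h1 : a ≤ C * (t ^ (2 - (m : ℤ)) * e)) :
    a * t ^ m ≤ C * e * t ^ 2 := by
  have h2 : t ^ (2 - (m : ℤ)) * t ^ m = t ^ 2 := by
    rw [← zpow_natCast t m, ← zpow_add₀ ht.ne', sub_add_cancel]; norm_cast
  calc a * t ^ m ≤ C * (t ^ (2 - (m : ℤ)) * e) * t ^ m := by gcongr
    _ = C * e * t ^ 2 := by rw [← h2]; ring

end lem

variable {E : Type*} [NormedAddCommGroup E] [InnerProductSpace ℝ E] [FiniteDimensional ℝ E]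
  [MeasurableSpace E] [BorelSpace E]

/-- the comparisons at one centre -/
lemma comps {m Q : ℕ} {T : Submodule ℝ E} {G : Set E} {h : ℝ} {ν : Measure E}
    {P : E → E →L[ℝ] E} {x : E} {c CV dV η₂ s : ℝ} (hC : FV.CylStat m T G h ν P)
    (hc : 0 < c) (hCV : 0 < CV) (hη₂ : 0 < η₂) (hs : 0 < s) (hs64 : s ≤ 1 / 64)
    (V1 : ∀ t, 0 < t → t ≤ 1 / 16 →
      c * (t ^ (2 - (m : ℤ)) * exc T ν P x (t / 2)) ≤ AA m Q T ν P x t)
    (V2 : ∀ t, 0 < t → t ≤ 1 / 16 →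
      AA m Q T ν P x t ≤ CV * (t ^ (2 - (m : ℤ)) * exc T ν P 0 2))
    (V3 : ∀ t, 0 < t → t ≤ 1 / 32 → (∀ s', t ≤ s' → s' ≤ 1 / 8 → exc T ν P x s' ≤ dV * s' ^ m) →
      AA m Q T ν P x t ≤ CV * (t ^ (2 - (m : ℤ)) * exc T ν P x (2 * t)))
    (hη3 : η₂ ≤ dV) (hη5 : η₂ ≤ 1 / (CV * 2 ^ m)) (hε4 : exc T ν P 0 2 ≤ (1 / 32) ^ m / CV)
    (hlow : η₂ * s ^ m ≤ exc T ν P x s)
    (hexcs : ∀ s', s ≤ s' → s' ≤ 1 / 8 → exc T ν P x s' ≤ η₂ * s' ^ m) :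
    (∀ t, 0 < t → t ≤ 1 / 16 → c * exc T ν P x (t / 2) * t ^ 2 ≤ AA m Q T ν P x t * t ^ m) ∧
    (∀ t, s ≤ t → t ≤ 1 / 32 →
      AA m Q T ν P x t * t ^ m ≤ CV * exc T ν P x (2 * t) * t ^ 2) ∧
    4 * c * η₂ / 2 ^ m * s ^ 2 ≤ AA m Q T ν P x (2 * s) ∧
    (∀ t, 2 * s ≤ t → t ≤ 1 / 16 → AA m Q T ν P x t ≤ t ^ 2) := by
  have hlowp : ∀ t, 0 < t → t ≤ 1 / 16 →
      c * exc T ν P x (t / 2) * t ^ 2 ≤ AA m Q T ν P x t * t ^ m :=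
    fun t h1 h2 => low_poly h1 (V1 t h1 h2)
  have hupp : ∀ t, s ≤ t → t ≤ 1 / 32 →
      AA m Q T ν P x t * t ^ m ≤ CV * exc T ν P x (2 * t) * t ^ 2 :=
    fun t h1 h2 => up_poly (hs.trans_le h1) (V3 t (hs.trans_le h1) h2
      (fun s' h3 h4 => (hexcs s' (h1.trans h3) h4).trans (by
        have : 0 < s' := hs.trans_le (h1.trans h3)
        gcongr)))
  refine ⟨hlowp, hupp, ?_, ?_⟩
  · have h1 := hlowp (2 * s) (by linarith) (by linarith)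
    rw [show 2 * s / 2 = s by ring] at h1
    have h2 : s ^ m * (4 * c * η₂ * s ^ 2) ≤ s ^ m * (2 ^ m * AA m Q T ν P x (2 * s)) := by
      calc s ^ m * (4 * c * η₂ * s ^ 2) = c * (η₂ * s ^ m) * (2 * s) ^ 2 := by ring
        _ ≤ c * exc T ν P x s * (2 * s) ^ 2 := by gcongr
        _ ≤ AA m Q T ν P x (2 * s) * (2 * s) ^ m := h1
        _ = _ := by rw [mul_pow]; ring
    have h3 := le_of_mul_le_mul_left h2 (by positivity)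
    rw [div_mul_eq_mul_div, div_le_iff₀ (by positivity)]
    linarith
  · intro t h1 h2
    have htp : 0 < t := by linarith
    by_cases h3 : t ≤ 1 / 32
    · have h4 := hupp t (by linarith) h3
      have h5 : exc T ν P x (2 * t) ≤ η₂ * (2 * t) ^ m := hexcs _ (by linarith) (by linarith)
      have h6 : t ^ m * AA m Q T ν P x t ≤ t ^ m * t ^ 2 := by
        calc t ^ m * AA m Q T ν P x t = AA m Q T ν P x t * t ^ m := by ring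
          _ ≤ CV * exc T ν P x (2 * t) * t ^ 2 := h4
          _ ≤ CV * (η₂ * (2 * t) ^ m) * t ^ 2 := by gcongr
          _ = (η₂ * (CV * 2 ^ m)) * (t ^ m * t ^ 2) := by rw [mul_pow]; ring
          _ ≤ 1 * (t ^ m * t ^ 2) := by
              gcongr
              rwa [le_div_iff₀ (by positivity)] at hη5
          _ = _ := one_mul _
      exact le_of_mul_le_mul_left h6 (by positivity)
    · rw [not_le] at h3
      have h4 := up_poly htp (V2 t htp h2)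
      have h6 : t ^ m * AA m Q T ν P x t ≤ t ^ m * t ^ 2 := by
        calc t ^ m * AA m Q T ν P x t = AA m Q T ν P x t * t ^ m := by ring
          _ ≤ CV * exc T ν P 0 2 * t ^ 2 := h4
          _ ≤ CV * ((1 / 32) ^ m / CV) * t ^ 2 := by gcongr
          _ = (1 / 32) ^ m * t ^ 2 := by field_simp
          _ ≤ t ^ m * t ^ 2 := by gcongr
      exact le_of_mul_le_mul_left h6 (by positivity)

/-- the excess bound above the last scale -/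
lemma exc_ge {m : ℕ} {T : Submodule ℝ E} {G : Set E} {h : ℝ} {ν : Measure E}
    {P : E → E →L[ℝ] E} {x : E} {η₂ s : ℝ} (hC : FV.CylStat m T G h ν P) (hs64 : s ≤ 1 / 64)
    (hup : ∀ r, s < r → r ≤ 1 / 8 → exc T ν P x r ≤ η₂ * r ^ m) :
    ∀ s', s ≤ s' → s' ≤ 1 / 8 → exc T ν P x s' ≤ η₂ * s' ^ m := by
  intro s' h1 h2
  rcases eq_or_lt_of_le h1 with h3 | h3
  · rw [← h3]; exact exc_last_le hC (by linarith) hup
  · exact hup s' h3 h2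

/-- constants -/
lemma exists_VV (m q Cb : ℕ) {c CV L g₀ Kq CS v₀ : ℝ} (hc : 0 < c) (hCV : 0 < CV) (hL : 0 < L)
    (hg : 0 < g₀) (U1 : ℝ → ℝ) : ∃ V : ℝ → ℝ, (∀ κ, 1 ≤ V κ) ∧ ∀ κ, 1 ≤ κ → ∀ v, V κ ≤ v →
      2 ^ m / c * v ^ Cb < Real.exp v ∧
      4 ^ m * L / (16 * c) * v ^ Cb * Real.exp (√v) < Real.exp v ∧
      1 / (g₀ * Real.exp (-(2 * U1 κ)) / (16 * κ ^ 2 * L * CV * 2 ^ m)) < v ∧ v₀ ≤ v ∧
      1 ≤ v ∧ L * Kq / g₀ ≤ v := by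
  have hV : ∀ κ : ℝ, ∃ V : ℝ, 1 ≤ V ∧ (1 ≤ κ → ∀ v, V ≤ v → 2 ^ m / c * v ^ Cb < Real.exp v ∧
      4 ^ m * L / (16 * c) * v ^ Cb * Real.exp (√v) < Real.exp v ∧
      1 / (g₀ * Real.exp (-(2 * U1 κ)) / (16 * κ ^ 2 * L * CV * 2 ^ m)) < v ∧ v₀ ≤ v ∧
      1 ≤ v ∧ L * Kq / g₀ ≤ v) := by
    intro κ
    by_cases hκ : 1 ≤ κ
    · obtain ⟨V, hV1, hV2⟩ := exists_V Cb (2 ^ m / c) (4 ^ m * L / (16 * c)) (L * Kq / g₀)
        (g₀ * Real.exp (-(2 * U1 κ)) / (16 * κ ^ 2 * L * CV * 2 ^ m)) v₀ (by positivity)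
        (by positivity) (by positivity)
      exact ⟨V, hV1, fun _ => hV2⟩
    · exact ⟨1, le_rfl, fun h => absurd h hκ⟩
  choose V hV1 hV2 using hV
  exact ⟨V, hV1, fun κ hκ => hV2 κ hκ⟩

/-- **(QUAL)** from (FLAT), (SG), (VCMP), (BUD). -/
theorem qual {m Q : ℕ} (hm : 1 ≤ m) {c₀ κe : ℝ} {Me : ℕ} {η₁ B : ℝ} {Cd : ℕ} (hη₁ : 0 < η₁)
    (hB : 0 < B) (hF : FlatAt E m Q c₀ κe Me η₁ B Cd) : QualAt E m Q c₀ κe Me η₁ B Cd := by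
  intro q Kq hq hKq
  obtain ⟨c, CV, dV, εV, hc, hCV, hdV, hεV, HV⟩ := vcmp E Q hm
  obtain ⟨Cb₀, hFlat⟩ := hF (q + 1)
  obtain ⟨v₀, εF, dF, hv₀, hεF, hdF, HF⟩ := hFlat (max Cb₀ 1) (le_max_left _ _)
  obtain ⟨Cb, hCbd⟩ : ∃ Cb, Cb = max Cb₀ 1 := ⟨_, rfl⟩
  rw [← hCbd] at HF
  have hCb1 : 1 ≤ Cb := by rw [hCbd]; exact le_max_right _ _
  obtain ⟨ηS, εS, CS, hηS, hεS, hCS, HS⟩ := SG.steep_unit E m Q hm
    (p := ((q + 1 : ℕ) : ℝ)) (B₀ := 2 * B) (by positivity) (by positivity)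
  obtain ⟨L, hLd⟩ : ∃ L, L = Real.exp (NG.C2 (Mm m) (Mm m) * (2 * B)) := ⟨_, rfl⟩
  have hL1 : 1 ≤ L := by
    rw [hLd]
    refine Real.one_le_exp ?_
    have : 0 ≤ NG.C2 (Mm m) (Mm m) := by unfold NG.C2 Mm; positivity
    positivity
  have hL0 : 0 < L := by linarith
  have hCS0 : 0 < CS := by linarith
  refine ⟨min (min η₁ ηS) (min (min dV dF) (1 / (CV * 2 ^ m))), by positivity, ?_⟩
  intro η₂ hη₂ hη₂le
  have hη1 : η₂ ≤ η₁ := hη₂le.trans ((min_le_left _ _).trans (min_le_left _ _))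
  have hη2 : η₂ ≤ ηS := hη₂le.trans ((min_le_left _ _).trans (min_le_right _ _))
  have hη3 : η₂ ≤ dV := hη₂le.trans ((min_le_right _ _).trans
    ((min_le_left _ _).trans (min_le_left _ _)))
  have hη4 : η₂ ≤ dF := hη₂le.trans ((min_le_right _ _).trans
    ((min_le_left _ _).trans (min_le_right _ _)))
  have hη5 : η₂ ≤ 1 / (CV * 2 ^ m) := hη₂le.trans ((min_le_right _ _).trans (min_le_right _ _))
  obtain ⟨g₀, hg₀d⟩ : ∃ g₀, g₀ = 4 * c * η₂ / 2 ^ m := ⟨_, rfl⟩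
  have hg₀ : 0 < g₀ := by rw [hg₀d]; positivity
  -- the functions of `κ`
  obtain ⟨U1, hU1⟩ : ∃ U1 : ℝ → ℝ, U1 = fun κ => max (max (Real.log (4 * κ ^ 2 * CS / g₀))
    (Kq * CS * 3 ^ q * κ ^ (q + 1) / g₀)) 1 := ⟨_, rfl⟩
  obtain ⟨V, hV1, hV2⟩ := exists_VV m q Cb (CS := CS) (Kq := Kq) (v₀ := v₀) hc hCV hL0 hg₀ U1
  obtain ⟨Φ, hΦ⟩ : ∃ Φ : ℝ → ℝ, Φ = fun κ => max (U1 κ + 3)
    (κ * (Kq * (L * CS) / g₀ * V κ ^ q)) := ⟨_, rfl⟩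
  obtain ⟨S, hS1, HS2⟩ := HS η₂ hη₂ Φ
  refine ⟨80 * Real.exp S, min (min εV εF) (min εS ((1 / 32) ^ m / CV)), ?_, by positivity, ?_⟩
  · have := Real.one_le_exp (zero_le_one.trans hS1)
    linarith
  intro T h ν P φ δt t₀ ρ N x s hI hexc0 hφ hδ hδ2 ht0 ht0δ hTot hx hx1 hBud hs hlow hup hnoev
    l₀ hl₀
  have hC := hI.cyl
  haveI := hC.fin
  have hε1 := (min_le_left (min εV εF) (min εS ((1 / 32) ^ m / CV))).trans (min_le_left _ _)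
  have hε2 := (min_le_left (min εV εF) (min εS ((1 / 32) ^ m / CV))).trans (min_le_right _ _)
  have hε3 := (min_le_right (min εV εF) (min εS ((1 / 32) ^ m / CV))).trans (min_le_left _ _)
  have hε4 := (min_le_right (min εV εF) (min εS ((1 / 32) ^ m / CV))).trans (min_le_right _ _)
  have hmonoI : ∀ ε', min (min εV εF) (min εS ((1 / 32) ^ m / CV)) ≤ ε' →
      IntCyl m Q T 0 2 h ε' ν P := fun ε' hε' =>
    { hI with mass := hI.mass.trans (by gcongr) }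
  obtain ⟨V1, V2, V3⟩ := HV T h ν P (hmonoI _ hε1) (hexc0.trans hε1) x hx hx1
  obtain ⟨e, hed⟩ : ∃ e, e = Real.exp S := ⟨_, rfl⟩
  have he1 : 1 ≤ e := by rw [hed]; exact Real.one_le_exp (zero_le_one.trans hS1)
  rw [← hed] at hl₀
  have ht0' : t₀ ≤ 1 / 16 := by linarith
  have hTl : t₀ / 2 ^ l₀ ≤ t₀ := div_le_self ht0.le (one_le_pow₀ (by norm_num))
  have hse : 80 * (s * e) ≤ t₀ := by
    calc 80 * (s * e) = 80 * e * s := by ring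
      _ ≤ t₀ := hl₀.trans hTl
  have hsse : s ≤ s * e := le_mul_of_one_le_right hs.le he1
  have hs64 : s ≤ 1 / 64 := by linarith
  have hexs : 0 < exc T ν P x s := lt_of_lt_of_le (by positivity) hlow
  have hexcs := exc_ge hC hs64 hup
  have hexcη : ∀ η', η₂ ≤ η' → ∀ s', s ≤ s' → s' ≤ 1 / 8 → exc T ν P x s' ≤ η' * s' ^ m :=
    fun η' hη' s' h1 h2 => (hexcs s' h1 h2).trans (by
      have : 0 < s' := hs.trans_le h1
      gcongr)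
  obtain ⟨hbud, hmono⟩ := budS E m Q T h _ ν P η₁ t₀ B x hI hx hx1 ht0 ht0' hBud s hs
    (hexcη η₁ hη1) hexs
  rw [← hLd] at hmono
  obtain ⟨hlowp, hupp, hA2, hAle⟩ := comps hC hc hCV hη₂ hs hs64 V1 V2 V3 hη3 hη5
    (hexc0.trans hε4) hlow hexcs
  rw [← hg₀d] at hA2
  -- the steep growth lemma
  obtain ⟨κ, o, hκ1, hκS, ho1, ho2, hoΦ, hgr⟩ := HS2 T h ν P (hmonoI _ hε3) (hexc0.trans hε3) x hx
    hx1 s hs (by rw [← hed]; linarith) (hexcη ηS hη2) hlow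
    (hbud (2 * s) S le_rfl (zero_le_one.trans hS1) (by rw [← hed]; linarith))
  rw [← hed] at hoΦ
  have D : QD (fun t => AA m Q T ν P x t) (fun t => exc T ν P x t) m q Cb s t₀ c CV L g₀ Kq κ o
      (U1 κ) (V κ) (Φ κ) CS v₀ (Ev m Q T ν P t₀ ρ N Cd x) :=
    { hs := hs, ht0 := ht0, ht0' := ht0', hc := hc, hCV := hCV, hL := hL1, hg := hg₀, hK := hKq
      hκ := hκ1, hCS := hCS, hCb := hCb1
      low := hlowp
      up := hupp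
      A2 := hA2
      mono := hmono
      Ale := hAle
      Xmono := fun r r' h1 => exc_mono' hC h1
      o1 := ho1
      o2 := ho2
      oΦ := by linarith
      grow := fun u h1 h2 => by
        have h3 := hgr u h1 h2
        rwa [Real.rpow_natCast] at h3
      U1a := by rw [hU1]; exact (le_max_left _ _).trans (le_max_left _ _)
      U1b := by rw [hU1]; exact (le_max_right _ _).trans (le_max_left _ _)
      U1c := by rw [hU1]; exact le_max_right _ _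
      Φ1 := by rw [hΦ]; exact le_max_left _ _
      Φ2 := by rw [hΦ]; exact le_max_right _ _
      V1 := hV1 κ
      V2 := hV2 κ hκ1
      last := fun τ r₀ h1 h2 => POSG.exists_last hC h1 h2
      flat := fun r₁ t h1 h2 h3 h4 h5 h6 h7 =>
        HF T h ν P φ δt t₀ ρ N x r₁ t (hmonoI _ hε2) (hexc0.trans hε2) hφ hδ hδ2
          ht0 ht0δ hTot hx hx1 hBud (by linarith) h2 h3 h4 h5 h6
          (fun r h8 h9 => hexcη dF hη4 r (by linarith) h9) h7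
      noev := hnoev }
  refine D.all ?_
  have hΦ3 : U1 κ + 3 ≤ Φ κ := by rw [hΦ]; exact le_max_left _ _
  have h1 : 80 * e * s = 80 * (s * e) := by ring
  have h2 := D.w_bounds.1
  have h3 : 0 < s * e := by positivity
  have h4 : 0 < o * Real.exp (U1 κ) := by
    have : 0 < o := by linarith
    positivity
  linarith

end Vale.Agent.P214.PATHG
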