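import Vale.Agent.P214.PATHG.MainD
import Vale.Agent.P214.PATHG.Coll
import Vale.Agent.P214.R2.ExcBasic
import Vale.Agent.P214.PATHG.Qual
import Vale.Agent.P214.PATHG.FlatFin
import Vale.Agent.P214.GEN.Asm

/-!
# P214, block BoxPath: `Main`, the assembly of `GEN.BoxPath`
-/

open Set Filter Topology MeasureTheory Metric
open scoped RealInnerProductSpace ENNReal

set_option linter.all false

namespace Vale.Agent.P214.PATHG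

open Vale.Agent.P214.Skel Vale.Agent.P214.EX Vale.Agent.P214.R2 Vale.Agent.P214.GEN
open Vale.Agent.P214.CAPF Vale.Agent.P214.PATHG.MN

variable {E : Type*} [NormedAddCommGroup E] [InnerProductSpace ℝ E] [FiniteDimensional ℝ E]
  [MeasurableSpace E] [BorelSpace E]

/-- **(MAIN)** `GEN.BoxPath` from `Flat`, `QualAt`, `Vcmp`, `BudS`. -/
theorem boxPath_of {m Q : ℕ} (hm : 1 ≤ m) (hF : Flat E m Q) (hV : Vcmp E m Q) (hB : BudS E m Q)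
    (hQ : ∀ (c₀ κe : ℝ) (Me : ℕ) (η₁ B : ℝ) (Cd : ℕ), 0 < η₁ → 0 < B →
      FlatAt E m Q c₀ κe Me η₁ B Cd → QualAt E m Q c₀ κe Me η₁ B Cd) :
    GEN.BoxPath E m Q := by
  obtain ⟨dV, hdV, HCo⟩ := coll' hV hB
  obtain ⟨c, C, d, εV, hc, hC, hd, hεV, HV⟩ := hV
  intro Kl c₀ κ M hker hM hκ hκ1 hMκ
  obtain ⟨ηF, hηF, HF⟩ := hF Kl c₀ κ M hker hM hκ hκ1 hMκ
  refine ⟨min ηF dV, lt_min hηF hdV, ?_⟩
  intro η₁ hη₁ hη₁le B C9 Ca hB0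
  obtain ⟨Cd, hCd, HF⟩ := HF η₁ hη₁ (hη₁le.trans (min_le_left _ _)) B hB0
  refine ⟨Cd, hCd, ?_⟩
  intro k₀
  have HQ := hQ c₀ κ M η₁ B Cd hη₁ hB0 HF
  obtain ⟨Cb₀, HF⟩ := HF (Ca + 1)
  obtain ⟨Cb, hCb, hCb₀, hCbC9⟩ : ∃ Cb : ℕ, Ca + 1 ≤ Cb ∧ Cb₀ ≤ Cb ∧ C9 ≤ Cb :=
    ⟨Ca + 1 + Cb₀ + C9, by omega, by omega, by omega⟩
  obtain ⟨vF, εF, dF, hvF, hεF, hdF, HF⟩ := HF Cb hCb₀
  obtain ⟨vC, εC, hvC, hεC, HCo⟩ := HCo η₁ B hη₁ (hη₁le.trans (min_le_right _ _)) hB0 Ca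
  obtain ⟨K, hKdef⟩ : ∃ K : ℝ, K = Real.exp (NG.C2 (Mm m) (Mm m) * (2 * B)) := ⟨_, rfl⟩
  have hK : 0 < K := hKdef ▸ Real.exp_pos _
  obtain ⟨vN, hvN, num⟩ := exists_mnum m Cb C9 (Ca + 2) C d hc hK
  obtain ⟨η₂₀, hη₂₀, HQ⟩ := HQ (2 * (Ca + 2)) 1 (by omega) one_pos
  obtain ⟨v₀, hv₀F, hv₀C, hv₀N, hv₀k⟩ : ∃ v₀ : ℝ, vF ≤ v₀ ∧ vC ≤ v₀ ∧ vN ≤ v₀ ∧ (k₀ : ℝ) ≤ v₀ :=
    ⟨max (max vF vC) (max vN k₀), (le_max_left _ _).trans (le_max_left _ _),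
      (le_max_right _ _).trans (le_max_left _ _), (le_max_left _ _).trans (le_max_right _ _),
      (le_max_right _ _).trans (le_max_right _ _)⟩
  obtain ⟨E₀, hE₀⟩ : ∃ E₀ : ℝ, E₀ = Real.exp (-v₀) := ⟨_, rfl⟩
  have hE0 : 0 < E₀ := hE₀ ▸ Real.exp_pos _
  obtain ⟨η₂, hη₂, hη₂a, hη₂b, hη₂c, hη₂d, hη₂e⟩ : ∃ η₂ : ℝ, 0 < η₂ ∧ η₂ ≤ η₂₀ ∧ η₂ ≤ η₁ ∧
      η₂ ≤ d ∧ η₂ ≤ dF ∧ C * η₂ * 2 ^ m ≤ E₀ := by
    have h2 : (0:ℝ) < 2 ^ m := by positivity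
    refine ⟨min (min (min η₂₀ η₁) (min d dF)) (E₀ / (C * 2 ^ m)),
      lt_min (lt_min (lt_min hη₂₀ hη₁) (lt_min hd hdF)) (div_pos hE0 (mul_pos hC h2)),
      (min_le_left _ _).trans ((min_le_left _ _).trans (min_le_left _ _)),
      (min_le_left _ _).trans ((min_le_left _ _).trans (min_le_right _ _)),
      (min_le_left _ _).trans ((min_le_right _ _).trans (min_le_left _ _)),
      (min_le_left _ _).trans ((min_le_right _ _).trans (min_le_right _ _)), ?_⟩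
    calc C * min (min (min η₂₀ η₁) (min d dF)) (E₀ / (C * 2 ^ m)) * 2 ^ m
        ≤ C * (E₀ / (C * 2 ^ m)) * 2 ^ m := by
          gcongr
          exact min_le_right _ _
      _ = _ := by field_simp
  obtain ⟨S₁, εQ, hS₁, hεQ, HQ⟩ := HQ η₂ hη₂ hη₂a
  obtain ⟨ε, hε, hεa, hεb, hεc, hεd, hεe, hεf⟩ : ∃ ε : ℝ, 0 < ε ∧ ε ≤ εV ∧ ε ≤ εF ∧
      ε ≤ εC ∧ ε ≤ εQ ∧ C * ε ≤ E₀ ∧ (S₁ + 4) ^ m * ε ≤ η₂ := by
    have hS0 : 0 < S₁ + 4 := by linarith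
    have hSm : 0 < (S₁ + 4) ^ m := pow_pos hS0 m
    refine ⟨min (min εV (min εF εC)) (min εQ (min (E₀ / C) (η₂ / (S₁ + 4) ^ m))),
      lt_min (lt_min hεV (lt_min hεF hεC)) (lt_min hεQ (lt_min (div_pos hE0 hC)
        (div_pos hη₂ hSm))), ?_, ?_, ?_, ?_, ?_, ?_⟩
    · exact (min_le_left _ _).trans (min_le_left _ _)
    · exact (min_le_left _ _).trans ((min_le_right _ _).trans (min_le_left _ _))
    · exact (min_le_left _ _).trans ((min_le_right _ _).trans (min_le_right _ _))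
    · exact (min_le_right _ _).trans (min_le_left _ _)
    · calc _ ≤ C * (E₀ / C) := by
            gcongr
            exact (min_le_right _ _).trans ((min_le_right _ _).trans (min_le_left _ _))
        _ = _ := by field_simp
    · calc _ ≤ (S₁ + 4) ^ m * (η₂ / (S₁ + 4) ^ m) := by
            gcongr
            exact (min_le_right _ _).trans ((min_le_right _ _).trans (min_le_right _ _))
        _ = _ := by field_simp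
  refine ⟨ε, hε, ?_⟩
  intro T h ν P φ δ t₀ ρ N hI hφ hδ hδ1 ht0 ht0δ hexc hTot x hx hx1 ω hω hden hBud
  have ht0' : t₀ ≤ 1 / 16 := by linarith
  have hcyl := hI.cyl
  have hIm : ∀ ε' : ℝ, ε ≤ ε' → IntCyl m Q T 0 2 h ε' ν P := fun ε' hε' =>
    { hI with mass := hI.mass.trans (mul_le_mul_of_nonneg_right hε' (pow_nonneg hI.pos.le m)) }
  have ht0m : t₀ ^ m ≤ 1 := pow_le_one₀ ht0.le (by linarith)
  have hexc1 : exc T ν P 0 2 ≤ ε := hexc.trans (mul_le_of_le_one_right hε.le ht0m)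
  obtain ⟨hV1, hV2, hV3⟩ := HV T h ν P (hIm εV hεa) (hexc1.trans hεa) x hx hx1
  have mono : ∀ a b, 0 < a → a ≤ b → exc T ν P x a ≤ exc T ν P x b := fun a b _ hab =>
    exc_mono' hcyl hab
  have htop : AA m Q T ν P x t₀ ≤ Real.exp (-v₀) * t₀ ^ 2 := by
    refine (hV2 t₀ ht0 ht0').trans ?_
    have hz : 0 < t₀ ^ (2 - (m : ℤ)) := zpow_pos ht0 _
    calc C * (t₀ ^ (2 - (m : ℤ)) * exc T ν P 0 2) ≤ C * (t₀ ^ (2 - (m : ℤ)) * (ε * t₀ ^ m)) := by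
          gcongr
      _ = C * ε * t₀ ^ 2 := by rw [zpow_two_sub ht0]; field_simp
      _ ≤ E₀ * t₀ ^ 2 := by gcongr
      _ = _ := by rw [hE₀]
  have hDe : ∀ r, 0 < r → r ≤ 1 / 8 → exc T ν P x r ≤ ε * t₀ ^ m := by
    intro r _ hr
    refine le_trans (exc_mono hcyl ?_) hexc
    rw [dist_zero_right]; linarith
  have qm : ∀ s, 0 < s → (∀ s', s ≤ s' → s' ≤ 1 / 8 → exc T ν P x s' ≤ η₁ * s' ^ m) →
      0 < exc T ν P x s → ∀ r r', 2 * s ≤ r → r ≤ r' → r' ≤ 2 * t₀ →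
      AA m Q T ν P x r ≤ K * AA m Q T ν P x r' := by
    intro s hs h1 h2
    rw [hKdef]
    exact (hB T h ε ν P η₁ t₀ B x hI hx hx1 ht0 ht0' hBud s hs h1 h2).2
  rw [hE₀] at hη₂e
  obtain ⟨i, hi, hvi, hcase⟩ := main_abs (A := AA m Q T ν P x) (D := exc T ν P x)
    (Ev := fun l => Ev m Q T ν P t₀ ρ N Cd x l) hm hc hK hC ht0 ht0' hCb hCbC9 hη₂ hη₂b hη₂c
    hη₂d hη₂e hS₁ hεf mono hDe hV1 htop hV3 qm hω hden (fun v hv => num v (hv₀N.trans hv))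
    (fun s hs0 hs3 hs4 hno => HQ T h ν P φ δ t₀ ρ N x s (hIm εQ hεd) (hexc1.trans hεd) hφ hδ hδ1
      ht0 ht0δ hTot hx hx1 hBud hs0 hs3 hs4 hno)
    (fun t r₁ h1 h2 h3 h4 h5 h6 h7 h8 => HF T h ν P φ δ t₀ ρ N x r₁ t (hIm εF hεb)
      (hexc1.trans hεb) hφ hδ hδ1 ht0 ht0δ hTot hx hx1 hBud h1 h2 h3 (hv₀F.trans h4) h5 h6 h7 h8)
    (fun t r0 s h1 h2 h3 h4 h5 h6 h7 h8 h9 h10 => by
      obtain ⟨ra, h11⟩ := HCo T h ε ν P t₀ x t r0 s hεc hI (hexc1.trans hεc) hx hx1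
        ht0 ht0' h1 hBud h2 h3 h4 h5 h6 (hv₀C.trans h7) h8 h9 h10
      exact ⟨ra, h11.pos, h11.le, h11.sq, h11.small⟩)
  refine ⟨i, hi, hv₀k.trans hvi, ?_⟩
  rcases hcase with h | ⟨ra, h1, h2, h3, h4⟩
  · exact Or.inl h
  · exact Or.inr ⟨ra, h1, h2, h3, h4⟩

/-- **BoxPath** -/
theorem boxPath (E : Type*) [NormedAddCommGroup E] [InnerProductSpace ℝ E]
    [FiniteDimensional ℝ E] [MeasurableSpace E] [BorelSpace E] {m Q : ℕ} (hm : 1 ≤ m) :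
    GEN.BoxPath E m Q :=
  boxPath_of hm (flat E hm) (vcmp E Q hm) (budS E m Q) fun _ _ _ _ _ _ hη hB0 hF =>
    qual hm hη hB0 hF

/-- **The flat rate, general case** -/
theorem rateFlat (E : Type*) [NormedAddCommGroup E] [InnerProductSpace ℝ E]
    [FiniteDimensional ℝ E] [MeasurableSpace E] [BorelSpace E] {m Q : ℕ} (hm : 1 ≤ m) :
    RateFlat E m Q :=
  GEN.rateFlat_of_path hm (boxPath E hm)

end Vale.Agent.P214.PATHG
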