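import Vale.Agent.P214.GEN.Vcmp
import Vale.Agent.P214.GEN.Props
import Vale.Agent.P214.NGP.Cyl
import Vale.Agent.P214.R2.UCore

/-!
# P214, general rate, BoxPath: the budget along a path (BUD)

`Bud η₁ t₀ B x` bounds `∫ Yp` along every path `s₁ e^u`, `2 s ≤ s₁`, `s₁ e^U ≤ 2 t₀`, if the excess
at `x` is at most `η₁ s' ^ m` for `s ≤ s' ≤ 1/8`; hence `AA x` is quasi-monotone there.
-/

open Set Filter Topology MeasureTheory Metric
open scoped RealInnerProductSpace ENNReal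

namespace Vale.Agent.P214.PATHG

open Vale.Agent.P214.Skel Vale.Agent.P214.EX Vale.Agent.P214.R2 Vale.Agent.P214.CAPF
  Vale.Agent.P214.GEN

variable {E : Type*} [NormedAddCommGroup E] [InnerProductSpace ℝ E] [FiniteDimensional ℝ E]
  [MeasurableSpace E] [BorelSpace E]
variable {m Q : ℕ} {T : Submodule ℝ E} {h : ℝ} {ν : Measure E} {P : E → E →L[ℝ] E}
  {x : E} {η₁ t₀ B s s₁ U M : ℝ}

lemma win_quarter_pos : 0 < TH.win (1 / 4) := by
  rw [TH.win_one le_rfl]; exact one_pos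

/-- the level of a scale -/
lemma exists_level (hs : 0 < s) (hst : s ≤ t₀) :
    ∃ J : ℕ, t₀ / 2 ^ (J + 1) < s ∧ s ≤ t₀ / 2 ^ J := by
  obtain ⟨J, h1, h2⟩ := exists_nat_pow_near (x := t₀ / s) (y := (2:ℝ)) ((one_le_div hs).2 hst)
    one_lt_two
  refine ⟨J, ?_, ?_⟩
  · rw [div_lt_iff₀ (by positivity)]
    rw [div_lt_iff₀ hs] at h2
    linarith
  · rw [le_div_iff₀ (by positivity)]
    rw [le_div_iff₀ hs] at h1
    linarith

/-- **[BUD]** the budget along a path -/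
theorem bud_Yp (hC : FV.CylStat m T (ball (0 : E) 2) h ν P) (hx : x ∈ T) (hx1 : ‖x‖ ≤ 1)
    (ht0 : 0 < t₀) (ht0' : t₀ ≤ 1 / 16) (hB : Bud m Q T ν P η₁ t₀ B x) (hs : 0 < s)
    (hexc : ∀ s', s ≤ s' → s' ≤ 1 / 8 → exc T ν P x s' ≤ η₁ * s' ^ m) (hs1 : 2 * s ≤ s₁)
    (hU : 0 ≤ U) (hU1 : s₁ * Real.exp U ≤ 2 * t₀) :
    ∫ u in (0:ℝ)..U, NG.Yp (aU m T x TH.win ν (Q * cK m T TH.win) s₁) (gU m T x TH.win P ν s₁) u
      ≤ 2 * B := by
  have hs1p : 0 < s₁ := by linarith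
  have hs1t : s₁ ≤ 2 * t₀ := by
    have := Real.one_le_exp hU
    nlinarith
  obtain ⟨J, hJ1, hJ2⟩ := exists_level (t₀ := t₀) hs (by linarith)
  have hb := hB (J + 1) (fun i hi s' h1 h2 => hexc s' (hJ2.trans (le_trans (by
    gcongr
    · norm_num
    · omega) h1)) h2)
  have hp : 0 < t₀ / 2 ^ (J + 1) := by positivity
  have h1 := int_Yp_le (Q := Q) (s := s₁) (U := U) hC NGP.kernW win_quarter_pos hx
    (s₀ := 2 * (t₀ / 2 ^ (J + 1))) (by positivity) (by linarith) hU hU1 (by linarith)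
  linarith

/-- `AA` in the logarithmic variable -/
lemma AA_exp (m Q : ℕ) (T : Submodule ℝ E) (ν : Measure E) (P : E → E →L[ℝ] E) (x : E) (s u : ℝ) :
    AA m Q T ν P x (s * Real.exp u)
      = NG.Am (aU m T x TH.win ν (Q * cK m T TH.win) s) (gU m T x TH.win P ν s) u := rfl

/-- the energy path at a centre -/
theorem epath_win (hC : FV.CylStat m T (ball (0 : E) 2) h ν P) (hx : x ∈ T) (hx1 : ‖x‖ ≤ 1)
    (hs1 : 0 < s₁) (hU1 : s₁ * Real.exp U < 1) (hg : 0 < ODE.tiltK m T x TH.win P ν s₁)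
    (hM : (m : ℝ) - 2 ≤ M) :
    NG.EPath 0 U M (aU m T x TH.win ν (Q * cK m T TH.win) s₁) (gU m T x TH.win P ν s₁)
      (bU m T x NGP.kk P ν s₁) (g₁U m T x NGP.kk TH.win P ν s₁) :=
  epath hC NGP.kernW _ hs1 (R := s₁ * Real.exp U) le_rfl (ballIn_two hx (by linarith))
    (by simpa using hg) hM

/-- **quasi-monotonicity of `AA`** -/
theorem AA_le (hC : FV.CylStat m T (ball (0 : E) 2) h ν P) (hx : x ∈ T) (hx1 : ‖x‖ ≤ 1)
    (ht0 : 0 < t₀) (ht0' : t₀ ≤ 1 / 16) (hB : Bud m Q T ν P η₁ t₀ B x) (hs : 0 < s)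
    (hexc : ∀ s', s ≤ s' → s' ≤ 1 / 8 → exc T ν P x s' ≤ η₁ * s' ^ m) {r r' : ℝ}
    (hsr : 2 * s ≤ r) (hrr : r ≤ r') (hr' : r' ≤ 2 * t₀)
    (hg : 0 < ODE.tiltK m T x TH.win P ν r) (hM0 : 0 ≤ M) (hM : (m : ℝ) - 2 ≤ M) :
    AA m Q T ν P x r ≤ Real.exp (NG.C2 M M * (2 * B)) * AA m Q T ν P x r' := by
  have hr : 0 < r := by linarith
  set U := Real.log (r' / r) with hUd
  have hU : 0 ≤ U := Real.log_nonneg ((one_le_div hr).2 hrr)
  have hexp : r * Real.exp U = r' := by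
    rw [hUd, Real.exp_log (div_pos (hr.trans_le hrr) hr)]
    field_simp
  have hp := epath_win (Q := Q) (U := U) hC hx hx1 hr (by rw [hexp]; linarith) hg hM
  have hbud := bud_Yp hC hx hx1 ht0 ht0' hB hs hexc hsr hU (by rw [hexp]; exact hr')
  have h1 := hp.A_mono hU hM0 hM0
  have e1 : AA m Q T ν P x r
      = NG.Am (aU m T x TH.win ν (Q * cK m T TH.win) r) (gU m T x TH.win P ν r) 0 := by
    rw [← AA_exp, Real.exp_zero, mul_one]
  have e2 : AA m Q T ν P x r'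
      = NG.Am (aU m T x TH.win ν (Q * cK m T TH.win) r) (gU m T x TH.win P ν r) U := by
    rw [← AA_exp, hexp]
  have hA0 := hp.Apos (u := 0) ⟨le_rfl, hU⟩
  have hA1 := hp.Apos (u := U) ⟨hU, le_rfl⟩
  rw [e1, e2]
  have hC2 : 0 ≤ NG.C2 M M := by unfold NG.C2; positivity
  have h2 := mul_le_mul_of_nonneg_left hbud hC2
  rw [← Real.log_le_log_iff hA0 (by positivity), Real.log_mul (Real.exp_ne_zero _) hA1.ne',
    Real.log_exp]
  linarith

/-- positivity of the tilt is inherited by larger radii -/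
lemma tiltK_win_pos (hC : FV.CylStat m T (ball (0 : E) 2) h ν P) (hs : 0 < s) {r : ℝ}
    (hsr : s ≤ r) (hg : 0 < ODE.tiltK m T x TH.win P ν s) :
    0 < ODE.tiltK m T x TH.win P ν r := by
  exact NGP.CylStat.tiltK_pos hC NGP.kernW hs hsr hg

lemma AA_pos (hg : 0 < ODE.tiltK m T x TH.win P ν s) : 0 < AA m Q T ν P x s :=
  lt_max_of_lt_right (half_pos hg)

end Vale.Agent.P214.PATHG
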