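import Vale.Agent.P214.PATHG.FlatB

/-!
# P214, block BoxPath: no flat stretch without events
-/

open Set Filter Topology MeasureTheory Metric
open scoped RealInnerProductSpace ENNReal

set_option linter.all false

namespace Vale.Agent.P214.PATHG

open Vale.Agent.P214.Skel Vale.Agent.P214.EX Vale.Agent.P214.R2 Vale.Agent.P214.GEN
open Vale.Agent.P214.CAPF

variable {E : Type*} [NormedAddCommGroup E] [InnerProductSpace ℝ E] [FiniteDimensional ℝ E]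
  [MeasurableSpace E] [BorelSpace E]
variable {m Q : ℕ} {T : Submodule ℝ E} {ν : Measure E} {P : E → E →L[ℝ] E}

/-- smallness of the excess above `r₁` -/
lemma small_of {x : E} {v r₁ t c' : ℝ} {Cb : ℕ} (hvc : (v ^ Cb)⁻¹ ≤ c') (hr : 0 < r₁)
    (hup : ∀ r, r₁ < r → r ≤ t / 2 → exc T ν P x r ≤ (v ^ Cb)⁻¹ * r ^ m)
    (htop : ∀ r, t / 2 ≤ r → r ≤ 1 / 8 → exc T ν P x r ≤ c' * r ^ m) (d : ℝ) (hd : c' ≤ d)
    (r : ℝ) (h1 : r₁ < r) (h8 : r ≤ 1 / 8) : exc T ν P x r ≤ d * r ^ m := by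
  have h0 : 0 < r := hr.trans h1
  rcases le_total r (t / 2) with h2 | h2
  · refine (hup r h1 h2).trans ?_
    have := hvc.trans hd
    gcongr
  · refine (htop r h2 h8).trans ?_
    gcongr

lemma winv_le {C c c' κm v : ℝ} {Ca Cb : ℕ} (hN : NumF C c c' κm m Ca Cb v) (hC : 1 ≤ C)
    (hCb : 1 ≤ Cb) : (v ^ Cb)⁻¹ ≤ c' := by
  have hv1 := hN.one
  have hv0 : 0 < v := by linarith
  have h1 : (v ^ Cb)⁻¹ ≤ v⁻¹ := by
    apply inv_anti₀ hv0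
    exact le_self_pow₀ hv1 (by omega)
  have h2 := hN.winv
  have h3 : 1 * v⁻¹ ≤ C * v⁻¹ := by
    have : 0 ≤ v⁻¹ := by positivity
    gcongr
  linarith

/-- the facts at the point and the two scales which do not use the path -/
structure Loc (m Q : ℕ) (T : Submodule ℝ E) (ν : Measure E) (P : E → E →L[ℝ] E) (x : E)
    (B t₀ r₁ s t v c C Cq : ℝ) (Cb : ℕ) : Prop where
  epos : 0 < exc T ν P x r₁
  es : exc T ν P x r₁ ≤ exc T ν P x (s / 2)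
  atp : 0 < AA m Q T ν P x t
  ht1 : c * (t ^ (2 - (m:ℤ)) * ((v ^ Cb)⁻¹ * r₁ ^ m)) ≤ AA m Q T ν P x t
  asl : 2 * s ≤ t → c * (s ^ (2 - (m:ℤ)) * ((v ^ Cb)⁻¹ * r₁ ^ m)) ≤ AA m Q T ν P x s
  asu : 2 * s ≤ t / 2 → AA m Q T ν P x s ≤ C * (s ^ (2 - (m:ℤ)) * ((v ^ Cb)⁻¹ * (2 * s) ^ m))
  q : ∀ r r', s ≤ r → r ≤ r' → r' ≤ t → AA m Q T ν P x r ≤ Cq * AA m Q T ν P x r'
  bud : ∀ U, 0 ≤ U → s * Real.exp U ≤ t →
    ∫ u in (0:ℝ)..U, NG.Yp (aP m Q T ν x s) (gP m T ν P x s) u ≤ 2 * B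
  dbl : 14 * s ≤ t / 2 → exc T ν P x (14 * s) ≤ 56 ^ m * exc T ν P x (s / 2)

lemma loc_of {h ε c C dV c' η₁ t₀ B v r₁ s t Cq : ℝ} {x : E} {Cb : ℕ}
    (hBS : BudS E m Q) (hI : IntCyl m Q T 0 2 h ε ν P) (hx : x ∈ T) (hx1 : ‖x‖ ≤ 1)
    (ht0 : 0 < t₀) (ht16 : t₀ ≤ 1 / 16) (hBud : Bud m Q T ν P η₁ t₀ B x)
    (hc : 0 < c) (hC : 0 < C)
    (V1 : ∀ t, 0 < t → t ≤ 1 / 16 →
      c * (t ^ (2 - (m : ℤ)) * exc T ν P x (t / 2)) ≤ AA m Q T ν P x t)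
    (V3 : ∀ t, 0 < t → t ≤ 1 / 32 → (∀ s, t ≤ s → s ≤ 1 / 8 → exc T ν P x s ≤ dV * s ^ m) →
      AA m Q T ν P x t ≤ C * (t ^ (2 - (m : ℤ)) * exc T ν P x (2 * t)))
    (hv : 0 < v) (hr : 0 < r₁) (hr1t : r₁ ≤ t / 2) (htt : t ≤ t₀) (hs : s = 4 * r₁)
    (hvc : (v ^ Cb)⁻¹ ≤ c') (hη : c' ≤ η₁) (hdV : c' ≤ dV)
    (hlow : (v ^ Cb)⁻¹ * r₁ ^ m ≤ exc T ν P x r₁)
    (hup : ∀ r, r₁ < r → r ≤ t / 2 → exc T ν P x r ≤ (v ^ Cb)⁻¹ * r ^ m)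
    (htop : ∀ r, t / 2 ≤ r → r ≤ 1 / 8 → exc T ν P x r ≤ c' * r ^ m)
    (hCq : Cq = Real.exp (NG.C2 (Mm m) (Mm m) * (2 * B))) :
    Loc m Q T ν P x B t₀ r₁ s t v c C Cq Cb := by
  have hCyl := hI.cyl
  have hsp : 0 < s := by rw [hs]; positivity
  have htp : 0 < t := by linarith
  have hvCb : 0 < (v ^ Cb)⁻¹ := by positivity
  have hsm := small_of hvc hr hup htop
  have he1p : 0 < exc T ν P x r₁ := lt_of_lt_of_le (by positivity) hlow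
  have hemono : ∀ a b, a ≤ b → exc T ν P x a ≤ exc T ν P x b := fun a b hab =>
    exc_mono' hCyl hab
  have hzt := zpow_pos htp (2 - (m:ℤ))
  have hzs := zpow_pos hsp (2 - (m:ℤ))
  have het : exc T ν P x r₁ ≤ exc T ν P x (t / 2) := hemono _ _ hr1t
  have hes2 : exc T ν P x r₁ ≤ exc T ν P x (s / 2) := hemono _ _ (by rw [hs]; linarith)
  have ht1 : c * (t ^ (2 - (m:ℤ)) * ((v ^ Cb)⁻¹ * r₁ ^ m)) ≤ AA m Q T ν P x t := by
    refine le_trans ?_ (V1 t htp (by linarith))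
    have := hlow.trans het
    gcongr
  obtain ⟨B1, B2⟩ := hBS T h _ ν P η₁ t₀ B x hI hx hx1 ht0 ht16 hBud (2 * r₁)
    (by positivity) (fun s' hs' hs8 => hsm η₁ hη s' (by linarith) hs8)
    (he1p.trans_le (hemono _ _ (by linarith)))
  rw [← hCq] at B2
  have hBs : 2 * (2 * r₁) ≤ s := by rw [hs]; linarith
  refine ⟨he1p, hes2, lt_of_lt_of_le (by positivity) ht1, ht1, ?_, ?_, ?_, ?_, ?_⟩
  · intro h16
    refine le_trans ?_ (V1 s hsp (by linarith))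
    have := hlow.trans hes2
    gcongr
  · intro h2
    refine (V3 s hsp (by linarith) (fun r h1 h8 => hsm dV hdV r (by rw [hs] at h1; linarith)
      h8)).trans ?_
    have := hup (2 * s) (by rw [hs]; linarith) h2
    gcongr
  · intro r r' h1 h2 h3
    exact B2 r r' (hBs.trans h1) h2 (by linarith)
  · intro U hU hsU
    exact B1 s U hBs hU (by linarith)
  · intro h14
    refine (hup (14 * s) (by rw [hs]; linarith) h14).trans ?_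
    have h1 : (14 * s) ^ m = 56 ^ m * r₁ ^ m := by
      rw [← mul_pow, hs]; congr 1; ring
    rw [h1]
    have h2 := hlow.trans hes2
    calc (v ^ Cb)⁻¹ * (56 ^ m * r₁ ^ m) = 56 ^ m * ((v ^ Cb)⁻¹ * r₁ ^ m) := by ring
      _ ≤ _ := by gcongr

theorem flat_of (m Q : ℕ) (hm : 1 ≤ m) (hK : PathK E) (hV : Vcmp E m Q) (hBS : BudS E m Q)
    (hS : Start E m Q) (hT : Thin E m Q) : Flat E m Q := by
  obtain ⟨M₀, C₈, κQ, κ₁, A₁, dQ, ε₁S, hM₀, hC₈, hκQ, hκ₁, hA₁, hdQ, hε₁S, HS⟩ :=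
    hS (56 ^ m) (one_le_pow₀ (by norm_num))
  obtain ⟨c, C, dV, εV, hc, hC, hdV, hεV, HV⟩ := hV
  intro Kl c₀ κe Me hη hMe hκe0 hκe1 hMκ
  obtain ⟨η₀, hη₀, HT⟩ := hT Kl c₀ κe Me hη hMe hκe0 hκe1 hMκ
  refine ⟨η₀, hη₀, fun η₁ hη₁ hη₁₀ B hB0 => ?_⟩
  obtain ⟨Cd, cT, hCd, HT⟩ := HT η₁ hη₁ hη₁₀ (2 * B) C₈ κ₁ A₁ (by positivity) hC₈ hκ₁ hA₁
  refine ⟨Cd, hCd, fun Ca => ?_⟩
  obtain ⟨e, he⟩ : ∃ e : ℕ → ℕ, e = fun j => 1 + cT * j := ⟨_, rfl⟩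
  have hem : Monotone e := by
    intro i j hij
    rw [he]
    show 1 + cT * i ≤ 1 + cT * j
    have := Nat.mul_le_mul_left cT hij
    omega
  have he0 : 1 ≤ e 0 := by rw [he]; simp
  have hes : ∀ j, e j + cT ≤ e (j + 1) := by
    intro j
    rw [he]
    show 1 + cT * j + cT ≤ 1 + cT * (j + 1)
    rw [Nat.mul_add]; omega
  clear he
  refine ⟨Ca + e M₀ + 10, fun Cb hCb => ?_⟩
  have hCv : (1:ℝ) ≤ Cb + 3 := by
    have : (0:ℝ) ≤ Cb := Nat.cast_nonneg _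
    linarith
  obtain ⟨κT, ε₁T, dT, hκT, hε₁T, hdT, HT⟩ := HT e M₀ (Cb + 3) he0 hes hCv
  have hlog2 : 0 < Real.log 2 := Real.log_pos (by norm_num)
  have hMm : 0 ≤ Mm m := Nat.cast_nonneg m
  obtain ⟨εN, κ₀N, hεN, hεN1, hκ₀N, HK⟩ := hK M₀ 6 e (Real.log 2) (Mm m) (Mm m) (2 * B) C₈
    (2 * Ca + 4) hM₀ (by norm_num) hem he0 hlog2 (by linarith [Real.log_two_lt_d9]) hMm hMm
    (by positivity) hC₈ (by positivity)
  clear hem he0 hes hCv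
  have hm0 : (0:ℝ) < m := by exact_mod_cast (by omega : 0 < m)
  obtain ⟨Cq, hCq⟩ : ∃ Cq, Cq = Real.exp (NG.C2 (Mm m) (Mm m) * (2 * B)) := ⟨_, rfl⟩
  have hCq1 : 1 ≤ Cq := by
    rw [hCq]
    apply Real.one_le_exp
    have := NG.C2_nonneg hMm hMm
    positivity
  have hCq0 : 0 < Cq := by linarith
  -- constants
  have hK1p : 0 < Cq * (C * 2 ^ m) := by positivity
  have hK2p : 0 < Cq * (4 ^ m / c) := by positivity
  obtain ⟨Cg, hCg⟩ : ∃ Cg, Cg = 1 + Cq * (C * 2 ^ m) + Cq * (4 ^ m / c) + Cq := ⟨_, rfl⟩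
  have hCg1 : 1 ≤ Cg := by rw [hCg]; linarith
  have hCgK1 : Cq * (C * 2 ^ m) ≤ Cg := by rw [hCg]; linarith
  have hCgK2 : Cq * (4 ^ m / c) ≤ Cg := by rw [hCg]; linarith
  have hCgCq : Cq ≤ Cg := by rw [hCg]; linarith
  clear hCg
  obtain ⟨c', hc'p, hc'1, hc'2, hc'3, hc'4, hc'5⟩ : ∃ c' : ℝ, 0 < c' ∧ c' ≤ εN / (16 * m) ∧
      c' ≤ η₁ ∧ c' ≤ dQ ∧ c' ≤ dT ∧ c' ≤ dV :=
    ⟨min (min (min (εN / (16 * m)) η₁) (min dQ dT)) dV, by positivity,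
      (min_le_left _ _).trans ((min_le_left _ _).trans (min_le_left _ _)),
      (min_le_left _ _).trans ((min_le_left _ _).trans (min_le_right _ _)),
      (min_le_left _ _).trans ((min_le_right _ _).trans (min_le_left _ _)),
      (min_le_left _ _).trans ((min_le_right _ _).trans (min_le_right _ _)),
      min_le_right _ _⟩
  obtain ⟨κm, hκm1, hκm2, hκm3, hκm4⟩ : ∃ κm : ℝ, κ₀N ≤ κm ∧ κQ ≤ κm ∧ κT ≤ κm ∧ 4 ≤ κm :=
    ⟨max (max κ₀N κQ) (max κT 4), (le_max_left _ _).trans (le_max_left _ _),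
      (le_max_right _ _).trans (le_max_left _ _), (le_max_left _ _).trans (le_max_right _ _),
      (le_max_right _ _).trans (le_max_right _ _)⟩
  obtain ⟨v₀, hv₀⟩ := eventually_atTop.1
    (exists_num Cg c c' κm (by linarith) hc hc'p m Ca Cb (by omega))
  refine ⟨max v₀ 1, min (min ε₁S ε₁T) εV, c', le_max_right _ _, by positivity, hc'p, ?_⟩
  intro T h ν P φ δt t₀ ρ N x r₁ t hI hexc hφ hδ hδ2 ht0 htδ hTot hx hx1 hBud hr1 hr1t ht hv hlow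
    hup htop hEv
  have hε1 : min (min ε₁S ε₁T) εV ≤ ε₁S := (min_le_left _ _).trans (min_le_left _ _)
  have hε2 : min (min ε₁S ε₁T) εV ≤ ε₁T := (min_le_left _ _).trans (min_le_right _ _)
  have hε3 : min (min ε₁S ε₁T) εV ≤ εV := min_le_right _ _
  obtain ⟨V1, V2, V3⟩ := HV T h ν P (intCyl_mono_delta hI hε3) (hexc.trans hε3) x hx hx1
  clear V2
  obtain ⟨v, hvdef⟩ : ∃ v, vv m Q T ν P x t = v := ⟨_, rfl⟩
  rw [hvdef] at hv hlow hup hEv ⊢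
  have hN := hv₀ v ((le_max_left _ _).trans hv)
  have hv1 : 1 ≤ v := hN.one
  have hv0 : 0 < v := by linarith
  have htp : 0 < t := by linarith
  have hvc : (v ^ Cb)⁻¹ ≤ c' := winv_le hN hCg1 (by omega)
  obtain ⟨s, hs⟩ : ∃ s, s = 4 * r₁ := ⟨_, rfl⟩
  have hsp : 0 < s := by rw [hs]; positivity
  have hLoc : Loc m Q T ν P x B t₀ r₁ s t v c C Cq Cb :=
    loc_of hBS hI hx hx1 ht0 (by linarith) hBud hc hC V1 V3 hv0 hr1 hr1t ht hs hvc hc'2 hc'5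
      hlow hup htop hCq
  have hsm := small_of hvc hr1 hup htop
  have hsm' : ∀ d, c' ≤ d → ∀ r, s ≤ r → r ≤ 1 / 8 → exc T ν P x r ≤ d * r ^ m :=
    fun d hd r hr hr8 => hsm d hd r (by rw [hs] at hr; linarith) hr8
  clear V1 V3 hlow hup htop hsm hBud
  by_contra hcon
  rw [not_lt, ← hs] at hcon
  -- number of steps
  have hsq := hN.sqrt_big
  obtain ⟨I, hI1, hI2, hI3⟩ := exists_steps hsq
  obtain ⟨R₁, hR₁⟩ : ∃ R₁, R₁ = s * √(εN / (16 * m)) := ⟨_, rfl⟩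
  have hR₁p : 0 < R₁ := by rw [hR₁]; positivity
  have hR₁sq : R₁ ^ 2 = s ^ 2 * (εN / (16 * m)) := by
    rw [hR₁, mul_pow, Real.sq_sqrt (by positivity)]
  obtain ⟨κ, hκ⟩ : ∃ κ, κ = 3 * Real.log v := ⟨_, rfl⟩
  have hP : Prep m Q T ν P x s t κ Cq (Cb + 3) R₁ (e M₀) I :=
    prep hN (by omega) hc hC hCq1 hCgK1 hCgK2 hCg1 hc'1 hεN rfl hκ hs hr1 htp (by omega) hvdef hI3
      hR₁sq hLoc.atp hLoc.ht1 hLoc.asl hLoc.asu hcon hLoc.q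
  have hκm' : κm ≤ κ := by rw [hκ]; exact hN.kap
  have hsc := hP.scale _ le_rfl
  have h2pow : s * 2 ^ (I + 6) = s * Real.exp (((I + 6 : ℕ) : ℝ) * Real.log 2) := by
    rw [← Real.log_pow, Real.exp_log (by positivity)]
  have hsN : s * 2 ^ (I + 6) ≤ t / 8 := by rw [h2pow]; exact hsc
  have h64 := hP.s64
  obtain ⟨S₀, δ, β, hne, hcard, hδ0, hβ0, hBot, hPD⟩ := HS T h ν P x s (I + 6) εN (2 * B) κ
    (intCyl_mono_delta hI hε1) (hexc.trans hε1) hx hx1 hsp (by linarith) (by linarith)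
    (hsm' dQ hc'3) (hLoc.dbl (by linarith)) (hLoc.epos.trans_le hLoc.es) hεN hεN1
    (hκm2.trans hκm') (hLoc.bud _ (by positivity) (by linarith))
  rw [← hR₁] at hPD
  have hNE := noEvent_of (R₁ := R₁) (κ := κ) (e := e) (M₀ := M₀) (S₀ := S₀) hs hr1 ht0 htp hI1 hsq
    hP.scale hEv (HT T h ν P φ δt t₀ ρ N x s I κ εN δ β R₁ S₀
      (intCyl_mono_delta hI hε2) (hexc.trans hε2) hφ hδ hδ2 ht0 htδ hTot hx hx1 hsp (by linarith)
      hεN hεN1 (hκm3.trans hκm') hδ0 hβ0 hR₁p (by rw [hR₁sq]; apply le_of_eq; field_simp) hne hcard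
      (hsm' dT hc'4) hBot hPD hP.vvc)
  have hκ4 := hκm4.trans hκm'
  have hfin := HK I κ εN (aP m Q T ν x s) (gP m T ν P x s) _ _ S₀ _ _ _ _ _
    (fun i => ((NG.Lam κ (Real.log 2) i) ^ 2)⁻¹) (hκm1.trans hκm') hεN.le le_rfl hne hcard hPD
    (fun i => by positivity) (theta_le hκ4) (theta_sum hκ4 I) hNE (lam_ge hN hκ hI2)
  have hAg0 : NG.Ag (aP m Q T ν x s) (gP m T ν P x s) (Real.log 2) 0 = AA m Q T ν P x s := by
    unfold NG.Ag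
    rw [Am_eq]
    simp
  rw [hAg0] at hfin
  have hasl := hLoc.asl (by linarith)
  have hz := zpow_pos hsp (2 - (m:ℤ))
  have hAsp : 0 < AA m Q T ν P x s := lt_of_lt_of_le (by positivity) hasl
  exact contra_of hN hκ hI2 hCq0 hCgCq hP.top.1 hLoc.atp hAsp hP.top.2 hcon hfin

end Vale.Agent.P214.PATHG
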