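import Mathlib

/-!
# P214, block BoxPath: numerical inequalities for large `v`
-/

open Set Filter Topology Asymptotics

set_option linter.all false

namespace Vale.Agent.P214.PATHG

/-- all the numerical facts about a large value of `v` used in `Flat` -/
structure NumF (C c c' κm : ℝ) (m Ca Cb : ℕ) (v : ℝ) : Prop where
  one : 1 ≤ v
  kap : κm ≤ 3 * Real.log v
  logpos : 2 ≤ Real.log v
  expk : Real.exp (3 * Real.log v / 8) ≤ √v / 4
  sqrt_big : 100 ≤ √v
  small_log : 3 * Real.log v ≤ √v / 4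
  small_log2 : Cb * Real.log v - Real.log c ≤ v / 2
  sqrt_v : √v + 40 ≤ v / (2 * m) * 2
  logC : Real.log C ≤ Real.log v
  fin : Ca * Real.log v + Real.log C < (2 * Ca + 4) * (Real.log v / 2 - Real.log 4)
  winv : C * v⁻¹ ≤ c'
  

lemma tendsto_log_sub (a b : ℝ) : Tendsto (fun v : ℝ => v - a * Real.log v - b) atTop atTop := by
  have h1 : (fun v : ℝ => a * Real.log v + b) =o[atTop] (fun v : ℝ => v) := by
    refine Asymptotics.IsLittleO.add (Real.isLittleO_log_id_atTop.const_mul_left a) ?_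
    exact Asymptotics.isLittleO_const_left.2 (Or.inr (tendsto_norm_atTop_atTop.comp tendsto_id))
  have h2 : (fun v : ℝ => v - a * Real.log v - b) ~[atTop] (fun v : ℝ => v) := by
    have : (fun v : ℝ => v - a * Real.log v - b) = fun v => v - (a * Real.log v + b) := by
      funext v; ring
    rw [this]
    exact Asymptotics.IsEquivalent.refl.sub_isLittleO h1
  exact h2.symm.tendsto_atTop tendsto_id

lemma eventually_log_le (a b : ℝ) {c : ℝ} (hc : 0 < c) :
    ∀ᶠ v : ℝ in atTop, a * Real.log v + b ≤ c * v := by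
  filter_upwards [(tendsto_log_sub (a / c) (b / c)).eventually_ge_atTop 0] with v hv
  have := mul_nonneg hc.le hv
  have e : c * (v - a / c * Real.log v - b / c) = c * v - a * Real.log v - b := by
    field_simp
  linarith

lemma eventually_log_le_sqrt (a b : ℝ) {c : ℝ} (hc : 0 < c) :
    ∀ᶠ v : ℝ in atTop, a * Real.log v + b ≤ c * √v := by
  have h1 := Real.tendsto_sqrt_atTop.eventually (eventually_log_le (2 * a) b hc)
  filter_upwards [h1, eventually_gt_atTop 0] with v hv hv0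
  rw [Real.log_sqrt hv0.le] at hv
  linarith

theorem exists_num (C c c' κm : ℝ) (hC : 0 < C) (hc : 0 < c) (hc' : 0 < c') (m Ca Cb : ℕ)
    (hm : 1 ≤ m) : ∀ᶠ v : ℝ in atTop, NumF C c c' κm m Ca Cb v := by
  have hlog := Real.tendsto_log_atTop
  have hm' : (0:ℝ) < m := by exact_mod_cast hm
  have e1 : ∀ᶠ v : ℝ in atTop, 1 ≤ v := eventually_ge_atTop 1
  have e2 : ∀ᶠ v : ℝ in atTop, κm ≤ 3 * Real.log v := by
    filter_upwards [hlog.eventually_ge_atTop (κm / 3)] with v hv; linarith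
  have e3 : ∀ᶠ v : ℝ in atTop, 2 ≤ Real.log v := hlog.eventually_ge_atTop 2
  have e4 : ∀ᶠ v : ℝ in atTop, 100 ≤ √v := Real.tendsto_sqrt_atTop.eventually_ge_atTop 100
  have e5 : ∀ᶠ v : ℝ in atTop, 3 * Real.log v ≤ √v / 4 := by
    filter_upwards [eventually_log_le_sqrt 3 0 (show (0:ℝ) < 1 / 4 by norm_num)] with v hv
    linarith
  have e6 : ∀ᶠ v : ℝ in atTop, Cb * Real.log v - Real.log c ≤ v / 2 := by
    filter_upwards [eventually_log_le Cb (-Real.log c) (show (0:ℝ) < 1 / 2 by norm_num)] with v hv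
    linarith
  have e7 : ∀ᶠ v : ℝ in atTop, √v + 40 ≤ v / (2 * m) * 2 := by
    have h1 : ∀ᶠ w : ℝ in atTop, w + 40 ≤ w ^ 2 / m := by
      filter_upwards [eventually_ge_atTop (2 * (m:ℝ)), eventually_ge_atTop 40] with w h1 h2
      rw [le_div_iff₀ hm']
      nlinarith
    filter_upwards [Real.tendsto_sqrt_atTop.eventually h1, eventually_ge_atTop 0] with v hv hv0
    rw [Real.sq_sqrt hv0] at hv
    have : v / (2 * m) * 2 = v / m := by field_simp
    rw [this]; exact hv
  have e8 : ∀ᶠ v : ℝ in atTop, Real.log C ≤ Real.log v := by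
    filter_upwards [hlog.eventually_ge_atTop (Real.log C)] with v hv using hv
  have e9 : ∀ᶠ v : ℝ in atTop,
      Ca * Real.log v + Real.log C < (2 * Ca + 4) * (Real.log v / 2 - Real.log 4) := by
    filter_upwards [hlog.eventually_gt_atTop ((Real.log C + (2 * Ca + 4) * Real.log 4) / 2)]
      with v hv
    have : (2 * (Ca:ℝ) + 4) * (Real.log v / 2 - Real.log 4)
        = Ca * Real.log v + 2 * Real.log v - (2 * Ca + 4) * Real.log 4 := by ring
    linarith
  have e10 : ∀ᶠ v : ℝ in atTop, C * v⁻¹ ≤ c' := by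
    filter_upwards [eventually_ge_atTop (C / c'), eventually_gt_atTop 0] with v hv hv0
    rw [div_le_iff₀ hc'] at hv
    rw [← div_eq_mul_inv, div_le_iff₀ hv0]; linarith
  have e11 : ∀ᶠ v : ℝ in atTop, Real.exp (3 * Real.log v / 8) ≤ √v / 4 := by
    filter_upwards [eventually_gt_atTop 0, hlog.eventually_ge_atTop (8 * Real.log 4)] with v hv0 hv
    have h1 : √v / 4 = Real.exp (Real.log v / 2 - Real.log 4) := by
      rw [Real.exp_sub, Real.exp_log (by norm_num : (0:ℝ) < 4), ← Real.log_sqrt hv0.le,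
        Real.exp_log (Real.sqrt_pos.2 hv0)]
    rw [h1]
    apply Real.exp_le_exp.2
    linarith
  filter_upwards [e1, e2, e3, e4, e5, e6, e7, e8, e9, e10, e11] with v h1 h2 h3 h4 h5 h6 h7 h8 h9
    h10 h11
  exact ⟨h1, h2, h3, h11, h4, h5, h6, h7, h8, h9, h10⟩

/-- sums of inverse squares of `κ + 2 i h` -/
lemma sum_inv_sq_le {κ h : ℝ} (hh : 0 < h) (hκ : 2 * h < κ) (n : ℕ) :
    ∑ i ∈ Finset.range n, ((κ + 2 * (i * h)) ^ 2)⁻¹
      ≤ 1 / (2 * h) * (1 / (κ - 2 * h) - 1 / (κ - 2 * h + 2 * (n * h))) := by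
  induction n with
  | zero => simp
  | succ n ih =>
    rw [Finset.sum_range_succ]
    have hn : (0:ℝ) ≤ n * h := by positivity
    have h1 : 0 < κ - 2 * h := by linarith
    have h2 : 0 < κ - 2 * h + 2 * (n * h) := by linarith
    have h3 : 0 < κ + 2 * (n * h) := by linarith
    have key : ((κ + 2 * (n * h)) ^ 2)⁻¹
        ≤ 1 / (2 * h) * (1 / (κ - 2 * h + 2 * (n * h)) - 1 / (κ + 2 * (n * h))) := by
      have e : 1 / (2 * h) * (1 / (κ - 2 * h + 2 * (n * h)) - 1 / (κ + 2 * (n * h)))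
          = ((κ - 2 * h + 2 * (n * h)) * (κ + 2 * (n * h)))⁻¹ := by
        obtain ⟨X, hX⟩ : ∃ X, X = κ - 2 * h + 2 * (n * h) := ⟨_, rfl⟩
        obtain ⟨Y, hY⟩ : ∃ Y, Y = κ + 2 * (n * h) := ⟨_, rfl⟩
        rw [← hX] at h2 ⊢
        rw [← hY] at h3 ⊢
        have hXY : Y - X = 2 * h := by rw [hX, hY]; ring
        rw [div_sub_div _ _ h2.ne' h3.ne']
        have : 1 * Y - X * 1 = 2 * h := by linarith
        rw [this]
        field_simp
      rw [e]
      apply inv_anti₀ (by positivity)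
      rw [sq]
      gcongr
      linarith
    have e2 : κ - 2 * h + 2 * (((n + 1 : ℕ) : ℝ) * h) = κ + 2 * (n * h) := by push_cast; ring
    rw [e2]
    have e3 : 1 / (2 * h) * (1 / (κ - 2 * h) - 1 / (κ + 2 * (n * h)))
        = 1 / (2 * h) * (1 / (κ - 2 * h) - 1 / (κ - 2 * h + 2 * (n * h)))
          + 1 / (2 * h) * (1 / (κ - 2 * h + 2 * (n * h)) - 1 / (κ + 2 * (n * h))) := by ring
    rw [e3]
    linarith

end Vale.Agent.P214.PATHG
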