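import Vale.Agent.P214.PATHG.Props
import Vale.Agent.P214.PATHG.Num
import Vale.Agent.P214.R2.Pieces

/-!
# P214, block BoxPath: lemmas for the flat stretch
-/

open Set Filter Topology MeasureTheory Metric
open scoped RealInnerProductSpace ENNReal

set_option linter.all false

namespace Vale.Agent.P214.PATHG

open Vale.Agent.P214.Skel Vale.Agent.P214.EX Vale.Agent.P214.R2 Vale.Agent.P214.GEN
open Vale.Agent.P214.CAPF

variable {E : Type*} [NormedAddCommGroup E] [InnerProductSpace ℝ E] [FiniteDimensional ℝ E]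
  [MeasurableSpace E] [BorelSpace E]
variable {m Q : ℕ} {T : Submodule ℝ E} {ν : Measure E} {P : E → E →L[ℝ] E}

lemma Am_eq (x : E) (s u : ℝ) :
    NG.Am (aP m Q T ν x s) (gP m T ν P x s) u = AA m Q T ν P x (s * Real.exp u) := rfl

lemma AA_of_vv {x : E} {t : ℝ} (ht : 0 < t) (hA : 0 < AA m Q T ν P x t) :
    Real.log (AA m Q T ν P x t) = 2 * Real.log t - vv m Q T ν P x t := by
  unfold vv
  rw [Real.log_div (by positivity) hA.ne', Real.log_pow]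
  push_cast; ring

/-- logarithm of a product of the form `c (t^{2-m} (v^{-Cb} r^m))` -/
lemma log_prod {c t v r : ℝ} {m Cb : ℕ} (hc : 0 < c) (ht : 0 < t) (hv : 0 < v) (hr : 0 < r) :
    Real.log (c * (t ^ (2 - (m:ℤ)) * ((v ^ Cb)⁻¹ * r ^ m)))
      = Real.log c + (2 - m) * Real.log t - Cb * Real.log v + m * Real.log r := by
  have hz := zpow_pos ht (2 - (m:ℤ))
  rw [Real.log_mul hc.ne' (by positivity), Real.log_mul hz.ne' (by positivity),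
      Real.log_mul (by positivity) (by positivity), Real.log_zpow, Real.log_inv, Real.log_pow,
      Real.log_pow]
  push_cast; ring

lemma ell_lower {x : E} {c t v r₁ : ℝ} {Cb : ℕ} (hc : 0 < c) (ht : 0 < t) (hv : 0 < v)
    (hr : 0 < r₁) (hA : 0 < AA m Q T ν P x t) (hvv : vv m Q T ν P x t = v)
    (h1 : c * (t ^ (2 - (m:ℤ)) * ((v ^ Cb)⁻¹ * r₁ ^ m)) ≤ AA m Q T ν P x t) :
    v - Cb * Real.log v + Real.log c ≤ m * (Real.log t - Real.log r₁) := by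
  have hz := zpow_pos ht (2 - (m:ℤ))
  have h2 := Real.log_le_log (by positivity) h1
  rw [log_prod hc ht hv hr, AA_of_vv ht hA, hvv] at h2
  have e1 : (2 - (m:ℝ)) * Real.log t = 2 * Real.log t - m * Real.log t := by ring
  have e2 : (m:ℝ) * (Real.log t - Real.log r₁) = m * Real.log t - m * Real.log r₁ := by ring
  linarith

/-- lower bound of `log A(s)`, `s = 4 r₁` -/
lemma start_lower {x : E} {c s v r₁ : ℝ} {Cb : ℕ} (hc : 0 < c) (hv : 0 < v)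
    (hr : 0 < r₁) (hs : s = 4 * r₁)
    (h1 : c * (s ^ (2 - (m:ℤ)) * ((v ^ Cb)⁻¹ * r₁ ^ m)) ≤ AA m Q T ν P x s) :
    Real.log c - m * (2 * Real.log 2) - Cb * Real.log v + 2 * Real.log s
      ≤ Real.log (AA m Q T ν P x s) := by
  have hsp : 0 < s := by rw [hs]; positivity
  have hz := zpow_pos hsp (2 - (m:ℤ))
  have h2 := Real.log_le_log (by positivity) h1
  have hlogs : Real.log s = Real.log r₁ + 2 * Real.log 2 := by
    rw [hs, Real.log_mul (by norm_num) hr.ne', show (4:ℝ) = 2 ^ 2 by norm_num, Real.log_pow]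
    push_cast; ring
  rw [log_prod hc hsp hv hr] at h2
  have e1 : (2 - (m:ℝ)) * Real.log s = 2 * Real.log s - m * Real.log s := by ring
  have e2 : (m:ℝ) * Real.log s = m * Real.log r₁ + m * (2 * Real.log 2) := by rw [hlogs]; ring
  linarith

/-- upper bound of `log A(s)` -/
lemma start_upper {x : E} {C s v : ℝ} {Cb : ℕ} (hC : 0 < C) (hv : 0 < v) (hsp : 0 < s)
    (hA : 0 < AA m Q T ν P x s)
    (h1 : AA m Q T ν P x s ≤ C * (s ^ (2 - (m:ℤ)) * ((v ^ Cb)⁻¹ * (2 * s) ^ m))) :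
    Real.log (AA m Q T ν P x s) ≤ Real.log (C * 2 ^ m) - Cb * Real.log v + 2 * Real.log s := by
  have h2 := Real.log_le_log hA h1
  rw [log_prod hC hsp hv (by positivity), Real.log_mul (by norm_num) hsp.ne'] at h2
  rw [Real.log_mul hC.ne' (by positivity), Real.log_pow]
  have e1 : (2 - (m:ℝ)) * Real.log s = 2 * Real.log s - m * Real.log s := by ring
  have e2 : (m:ℝ) * (Real.log 2 + Real.log s) = m * Real.log 2 + m * Real.log s := by ring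
  linarith

lemma start_upper' {x : E} {C s v : ℝ} {Cb : ℕ} (hsp : 0 < s)
    (h1 : AA m Q T ν P x s ≤ C * (s ^ (2 - (m:ℤ)) * ((v ^ Cb)⁻¹ * (2 * s) ^ m))) :
    AA m Q T ν P x s ≤ C * (2 ^ m * ((v ^ Cb)⁻¹ * s ^ 2)) := by
  refine h1.trans (le_of_eq ?_)
  have h5 : s ^ (2 - (m:ℤ)) * s ^ m = s ^ 2 := by
    rw [← zpow_natCast s m, ← zpow_add₀ hsp.ne']
    simp
  rw [mul_pow]
  calc C * (s ^ (2 - (m:ℤ)) * ((v ^ Cb)⁻¹ * (2 ^ m * s ^ m)))
      = C * (2 ^ m * ((v ^ Cb)⁻¹ * (s ^ (2 - (m:ℤ)) * s ^ m))) := by ring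
    _ = _ := by rw [h5]

/-- bounds of `vv` on the stretch -/
lemma stretch {x : E} {s u t L Cq C2 c4 : ℝ} {Ca Cb : ℕ} (hsp : 0 < s) (hCq : 0 < Cq)
    (hAs : 0 < AA m Q T ν P x s) (hAt : 0 < AA m Q T ν P x t)
    (q1 : AA m Q T ν P x s ≤ Cq * AA m Q T ν P x (s * Real.exp u))
    (q2 : AA m Q T ν P x (s * Real.exp u) ≤ Cq * AA m Q T ν P x t)
    (hfl : Real.log (AA m Q T ν P x t) ≤ Ca * L + Real.log (AA m Q T ν P x s))
    (hl : c4 - Cb * L + 2 * Real.log s ≤ Real.log (AA m Q T ν P x s))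
    (hu : Real.log (AA m Q T ν P x s) ≤ C2 - Cb * L + 2 * Real.log s) :
    0 < AA m Q T ν P x (s * Real.exp u) ∧
      2 * u + (Cb - Ca) * L - (Real.log Cq + C2) ≤ vv m Q T ν P x (s * Real.exp u) ∧
      vv m Q T ν P x (s * Real.exp u) ≤ 2 * u + Cb * L + (Real.log Cq - c4) := by
  have hrp : 0 < s * Real.exp u := by positivity
  have hArp : 0 < AA m Q T ν P x (s * Real.exp u) := by
    by_contra hcon2
    have : Cq * AA m Q T ν P x (s * Real.exp u) ≤ 0 :=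
      mul_nonpos_of_nonneg_of_nonpos hCq.le (not_lt.1 hcon2)
    linarith
  have hv' := AA_of_vv hrp hArp
  have l1 : Real.log (AA m Q T ν P x (s * Real.exp u))
      ≤ Real.log Cq + Real.log (AA m Q T ν P x t) := by
    rw [← Real.log_mul (by positivity) hAt.ne']
    exact Real.log_le_log hArp q2
  have l4 : Real.log (AA m Q T ν P x s)
      ≤ Real.log Cq + Real.log (AA m Q T ν P x (s * Real.exp u)) := by
    rw [← Real.log_mul (by positivity) hArp.ne']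
    exact Real.log_le_log hAs q1
  have hlr : Real.log (s * Real.exp u) = Real.log s + u := by
    rw [Real.log_mul hsp.ne' (Real.exp_pos u).ne', Real.log_exp]
  rw [hlr] at hv'
  have e1 : ((Cb:ℝ) - Ca) * L = Cb * L - Ca * L := by ring
  refine ⟨hArp, ?_, ?_⟩ <;> linarith

/-- the window condition -/
lemma window {κu v Cq C A s R2 At As : ℝ} {Ca Cb m' eM : ℕ} (hv1 : 1 ≤ v)
    (hκ0 : 0 ≤ κu) (hκ : κu ≤ v) (hCb : Ca + eM + 10 ≤ Cb) (hA0 : 0 ≤ A) (hCq : 0 < Cq)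
    (hC : 0 < C) (hA : A ≤ Cq * At) (hAt : At ≤ v ^ Ca * As)
    (hAs : As ≤ C * (2 ^ m' * ((v ^ Cb)⁻¹ * s ^ 2)))
    (hw : Cq * (C * 2 ^ m') * v⁻¹ ≤ R2) :
    κu ^ (eM + 1) * A ≤ s ^ 2 * R2 := by
  have hv0 : 0 < v := by linarith
  have h3 : A ≤ Cq * (v ^ Ca * (C * (2 ^ m' * ((v ^ Cb)⁻¹ * s ^ 2)))) := by
    refine hA.trans ?_
    have h5 : At ≤ v ^ Ca * (C * (2 ^ m' * ((v ^ Cb)⁻¹ * s ^ 2))) :=
      hAt.trans (by gcongr)
    gcongr
  have h6 : κu ^ (eM + 1) ≤ v ^ (eM + 1) := by gcongr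
  have h7 : v ^ (eM + 1) * v ^ Ca * (v ^ Cb)⁻¹ ≤ v⁻¹ := by
    rw [← pow_add]
    obtain ⟨k, hk⟩ : ∃ k, Cb = (eM + 1 + Ca) + (k + 1) := ⟨Cb - (eM + 1 + Ca) - 1, by omega⟩
    rw [hk, pow_add v (eM + 1 + Ca) (k + 1), mul_inv, ← mul_assoc,
      mul_inv_cancel₀ (by positivity), one_mul]
    apply inv_anti₀ hv0
    exact le_self_pow₀ hv1 (by omega)
  have hKp : 0 < Cq * (C * 2 ^ m') := by positivity
  calc κu ^ (eM + 1) * A
      ≤ v ^ (eM + 1) * (Cq * (v ^ Ca * (C * (2 ^ m' * ((v ^ Cb)⁻¹ * s ^ 2))))) := by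
        gcongr
    _ = (Cq * (C * 2 ^ m')) * (v ^ (eM + 1) * v ^ Ca * (v ^ Cb)⁻¹) * s ^ 2 := by ring
    _ ≤ (Cq * (C * 2 ^ m')) * v⁻¹ * s ^ 2 := by gcongr
    _ ≤ R2 * s ^ 2 := by gcongr
    _ = s ^ 2 * R2 := by ring

/-- scales of the stretch -/
lemma scale_le {t r₁ s u ℓ sv : ℝ} (htp : 0 < t) (hr : 0 < r₁) (hs : s = 4 * r₁)
    (hℓ : ℓ = Real.log t - Real.log r₁) (hℓ2 : sv + 40 ≤ 2 * ℓ) (hu : u ≤ sv / 4 + 6)
    (hsv : 0 ≤ sv) : s * Real.exp u ≤ t / 8 := by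
  have hsp : 0 < s := by rw [hs]; positivity
  have hlog2u : Real.log 2 < 0.6931471808 := Real.log_two_lt_d9
  have hlogs : Real.log s = Real.log r₁ + 2 * Real.log 2 := by
    rw [hs, Real.log_mul (by norm_num) hr.ne', show (4:ℝ) = 2 ^ 2 by norm_num, Real.log_pow]
    push_cast; ring
  have h1 : Real.log (s * Real.exp u) ≤ Real.log (t / 8) := by
    rw [Real.log_mul hsp.ne' (Real.exp_pos u).ne', Real.log_exp,
      Real.log_div htp.ne' (by norm_num), show (8:ℝ) = 2 ^ 3 by norm_num, Real.log_pow, hlogs]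
    push_cast
    linarith
  exact (Real.log_le_log_iff (by positivity) (by positivity)).1 h1

/-- the thresholds are summable -/
lemma theta_sum {κ : ℝ} (hκ4 : 4 ≤ κ) (I : ℕ) :
    ∑ i ∈ Finset.range I, ((NG.Lam κ (Real.log 2) i) ^ 2)⁻¹ ≤ 1 := by
  have hlog2 : 0 < Real.log 2 := Real.log_pos (by norm_num)
  have hlog2u : Real.log 2 < 0.6931471808 := Real.log_two_lt_d9
  have hlog2l : 0.6931471803 < Real.log 2 := Real.log_two_gt_d9
  have h1 := sum_inv_sq_le (κ := κ) (h := Real.log 2) hlog2 (by linarith) I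
  have h2 : ∑ i ∈ Finset.range I, ((NG.Lam κ (Real.log 2) i) ^ 2)⁻¹
      = ∑ i ∈ Finset.range I, ((κ + 2 * (i * Real.log 2)) ^ 2)⁻¹ := rfl
  rw [h2]
  refine h1.trans ?_
  have h3 : 1 ≤ κ - 2 * Real.log 2 := by linarith
  have h4 : 0 ≤ 1 / (κ - 2 * Real.log 2 + 2 * (I * Real.log 2)) := by
    have : (0:ℝ) ≤ I * Real.log 2 := by positivity
    have : 0 < κ - 2 * Real.log 2 + 2 * (I * Real.log 2) := by linarith
    positivity
  have h5 : 1 / (κ - 2 * Real.log 2) ≤ 1 := by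
    rw [div_le_one (by linarith)]; exact h3
  have h6 : 1 / (2 * Real.log 2) ≤ 1 := by
    rw [div_le_one (by linarith)]; linarith
  have h7 : 0 ≤ 1 / (2 * Real.log 2) := by positivity
  calc 1 / (2 * Real.log 2) * (1 / (κ - 2 * Real.log 2)
        - 1 / (κ - 2 * Real.log 2 + 2 * (I * Real.log 2)))
      ≤ 1 / (2 * Real.log 2) * 1 := by gcongr; linarith
    _ ≤ 1 := by linarith

/-- number of steps -/
lemma exists_steps {v : ℝ} (hsq : 100 ≤ √v) :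
    ∃ I : ℕ, (I:ℝ) ≤ √v / 4 ∧ √v / 4 < I + 1 ∧
      (((I + 6 : ℕ) : ℝ)) * Real.log 2 ≤ √v / 4 * 0.7 + 4.2 := by
  have hlog2u : Real.log 2 < 0.6931471808 := Real.log_two_lt_d9
  have hlog2l : 0.6931471803 < Real.log 2 := Real.log_two_gt_d9
  refine ⟨⌊√v / 4⌋₊, Nat.floor_le (by positivity), Nat.lt_floor_add_one _, ?_⟩
  have h1 : ((⌊√v / 4⌋₊ : ℕ) : ℝ) ≤ √v / 4 := Nat.floor_le (by positivity)
  push_cast
  calc (((⌊√v / 4⌋₊ : ℕ) : ℝ) + 6) * Real.log 2 ≤ (√v / 4 + 6) * 0.7 := by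
        gcongr
        linarith
    _ = _ := by ring

/-- everything about the stretch which does not need the path lemma -/
structure Prep (m Q : ℕ) (T : Submodule ℝ E) (ν : Measure E) (P : E → E →L[ℝ] E) (x : E)
    (s t κ Cq Cv R₁ : ℝ) (eM I : ℕ) : Prop where
  s64 : 64 * s ≤ t / 8
  scale : ∀ u, u ≤ ((I + 6 : ℕ) : ℝ) * Real.log 2 → s * Real.exp u ≤ t / 8
  vvc : ∀ u ∈ Icc (0:ℝ) (((I + 6 : ℕ) : ℝ) * Real.log 2),
    κ + 2 * u ≤ Cv * vv m Q T ν P x (s * Real.exp u) ∧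
    vv m Q T ν P x (s * Real.exp u) ≤ Cv * (κ + 2 * u) ∧
    (κ + 2 * u) ^ (eM + 1) * AA m Q T ν P x (s * Real.exp u) ≤ R₁ ^ 2
  top : 0 < AA m Q T ν P x (s * Real.exp (((I + 6 : ℕ) : ℝ) * Real.log 2)) ∧
    AA m Q T ν P x (s * Real.exp (((I + 6 : ℕ) : ℝ) * Real.log 2)) ≤ Cq * AA m Q T ν P x t

lemma ell_big {Cg c c' κm v r : ℝ} {Ca Cb : ℕ} (hN : NumF Cg c c' κm m Ca Cb v) (hm : 1 ≤ m)
    (h : v - Cb * Real.log v + Real.log c ≤ m * r) : √v + 40 ≤ 2 * r := by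
  have hm0 : (0:ℝ) < m := by exact_mod_cast hm
  have h1 := hN.sqrt_v
  have h3 := hN.small_log2
  have h2 : v / (2 * m) ≤ r := by
    rw [div_le_iff₀ (by positivity)]
    have : r * (2 * m) = 2 * (m * r) := by ring
    rw [this]
    linarith
  linarith

lemma s64_of {s t sv : ℝ} {I : ℕ} (hscale : ∀ u, u ≤ ((I + 6 : ℕ) : ℝ) * Real.log 2 →
    s * Real.exp u ≤ t / 8) : 64 * s ≤ t / 8 := by
  have hlog2 : 0 < Real.log 2 := Real.log_pos (by norm_num)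
  have h1 := hscale (6 * Real.log 2) (by
    push_cast
    have : (0:ℝ) ≤ I * Real.log 2 := by positivity
    have e : ((I:ℝ) + 6) * Real.log 2 = I * Real.log 2 + 6 * Real.log 2 := by ring
    rw [e]
    linarith)
  have h2 : Real.exp (6 * Real.log 2) = 64 := by
    rw [show (6:ℝ) * Real.log 2 = Real.log (2 ^ 6) by rw [Real.log_pow]; norm_num,
      Real.exp_log (by positivity)]
    norm_num
  rw [h2] at h1
  linarith

lemma vvl_num {κ L u lg w Ca Cb : ℝ} (hκ : κ = 3 * L) (hL : 0 ≤ L) (h4 : 4 ≤ Cb - Ca)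
    (hlg : lg ≤ L) (a3 : 2 * u + (Cb - Ca) * L - lg ≤ w) : κ + 2 * u ≤ w := by
  have h5 : 4 * L ≤ (Cb - Ca) * L := by gcongr
  rw [hκ]; linarith

lemma vvu_num {κ L u lg w Cb : ℝ} (hκ : κ = 3 * L) (hL : 0 ≤ L) (hu : 0 ≤ u) (hCb : 0 ≤ Cb)
    (hlg : lg ≤ L) (a4 : w ≤ 2 * u + Cb * L + lg) : w ≤ (Cb + 3) * (κ + 2 * u) := by
  have h3 : 0 ≤ Cb * L := by positivity
  have h4 : 0 ≤ Cb * u := mul_nonneg hCb hu
  have e : (Cb + 3) * (3 * L + 2 * u) = 3 * (Cb * L) + 2 * (Cb * u) + 9 * L + 6 * u := by ring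
  rw [hκ, e]; linarith

lemma kv_num {κ L u v U : ℝ} (hκ : κ = 3 * L) (hv : 0 ≤ v) (hsq : 100 ≤ √v)
    (hsl : 3 * L ≤ √v / 4) (hu : u ≤ U) (hU : U ≤ √v / 4 * 0.7 + 4.2) : κ + 2 * u ≤ v := by
  have h4 : κ + 2 * u ≤ √v := by rw [hκ]; linarith
  have h3 : 1 * √v ≤ √v * √v := by gcongr; linarith
  rw [Real.mul_self_sqrt hv, one_mul] at h3
  exact h4.trans h3

lemma logK1 {C Cq Cg : ℝ} (hCq : 0 < Cq) (hC : 0 < C) (hK1 : Cq * (C * 2 ^ m) ≤ Cg) :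
    Real.log Cq + Real.log (C * 2 ^ m) ≤ Real.log Cg := by
  rw [← Real.log_mul (by positivity) (by positivity)]
  exact Real.log_le_log (by positivity) hK1

lemma logK2 {c Cq Cg : ℝ} (hCq : 0 < Cq) (hc : 0 < c) (hK2 : Cq * (4 ^ m / c) ≤ Cg) :
    Real.log Cq - (Real.log c - m * (2 * Real.log 2)) ≤ Real.log Cg := by
  have h1 : Real.log (Cq * (4 ^ m / c)) = Real.log Cq - (Real.log c - m * (2 * Real.log 2)) := by
    rw [Real.log_mul (by positivity) (by positivity), Real.log_div (by positivity) hc.ne',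
      Real.log_pow, show (4:ℝ) = 2 ^ 2 by norm_num, Real.log_pow]
    push_cast; ring
  rw [← h1]
  exact Real.log_le_log (by positivity) hK2

/-- the bounds on the stretch -/
lemma stretch' {C c Cq Cg : ℝ} {Ca Cb : ℕ} {x : E} {r₁ s t v L U : ℝ}
    (hc : 0 < c) (hC : 0 < C) (hCq1 : 1 ≤ Cq)
    (hK1 : Cq * (C * 2 ^ m) ≤ Cg) (hK2 : Cq * (4 ^ m / c) ≤ Cg) (hv0 : 0 < v)
    (hL : L = Real.log v) (hs : s = 4 * r₁) (hr : 0 < r₁) 
    (hAtp : 0 < AA m Q T ν P x t)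
    (hAsl : c * (s ^ (2 - (m:ℤ)) * ((v ^ Cb)⁻¹ * r₁ ^ m)) ≤ AA m Q T ν P x s)
    (hAsu : AA m Q T ν P x s ≤ C * (s ^ (2 - (m:ℤ)) * ((v ^ Cb)⁻¹ * (2 * s) ^ m)))
    (hflat : AA m Q T ν P x t ≤ v ^ Ca * AA m Q T ν P x s)
    (hscale : ∀ u, u ≤ U → s * Real.exp u ≤ t)
    (hq : ∀ r r', s ≤ r → r ≤ r' → r' ≤ t → AA m Q T ν P x r ≤ Cq * AA m Q T ν P x r') :
    ∀ u ∈ Icc (0:ℝ) U, 0 < AA m Q T ν P x (s * Real.exp u) ∧
      AA m Q T ν P x (s * Real.exp u) ≤ Cq * AA m Q T ν P x t ∧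
      2 * u + (Cb - Ca) * L - Real.log Cg ≤ vv m Q T ν P x (s * Real.exp u) ∧
      vv m Q T ν P x (s * Real.exp u) ≤ 2 * u + Cb * L + Real.log Cg := by
  intro u hu
  have hsp : 0 < s := by rw [hs]; positivity
  have hz := zpow_pos hsp (2 - (m:ℤ))
  have hAsp : 0 < AA m Q T ν P x s := lt_of_lt_of_le (by positivity) hAsl
  have h1 := start_lower hc hv0 hr hs hAsl
  have h2 := start_upper hC hv0 hsp hAsp hAsu
  have hlflat : Real.log (AA m Q T ν P x t) ≤ Ca * L + Real.log (AA m Q T ν P x s) := by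
    have h2 := Real.log_le_log hAtp hflat
    rw [Real.log_mul (by positivity) hAsp.ne', Real.log_pow, ← hL] at h2
    exact h2
  rw [← hL] at h1 h2
  have hCq0 : 0 < Cq := by linarith
  have k1 := logK1 hCq0 hC hK1
  have k2 := logK2 hCq0 hc hK2
  have hr' := hscale u hu.2
  have hexp1 : 1 ≤ Real.exp u := Real.one_le_exp hu.1
  have hsr : s ≤ s * Real.exp u := le_mul_of_one_le_right hsp.le hexp1
  have q1 := hq s (s * Real.exp u) le_rfl hsr hr'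
  have q2 := hq (s * Real.exp u) t hsr hr' le_rfl
  obtain ⟨a1, a2, a3⟩ := stretch hsp hCq0 hAsp hAtp q1 q2 hlflat h1 h2
  refine ⟨a1, q2, ?_, ?_⟩
  · linarith only [a2, k1]
  · linarith only [a3, k2]

lemma prep {C c c' κm Cg : ℝ} {Ca Cb eM I : ℕ} {x : E} {r₁ s t v L κ Cq εN R₁ : ℝ}
    (hN : NumF Cg c c' κm m Ca Cb v) (hm : 1 ≤ m) (hc : 0 < c) (hC : 0 < C) (hCq1 : 1 ≤ Cq)
    (hK1 : Cq * (C * 2 ^ m) ≤ Cg) (hK2 : Cq * (4 ^ m / c) ≤ Cg) (hCg1 : 1 ≤ Cg)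
    (hc'1 : c' ≤ εN / (16 * m)) (hεN : 0 < εN)
    (hL : L = Real.log v) (hκ : κ = 3 * L) (hs : s = 4 * r₁) (hr : 0 < r₁) (htp : 0 < t)
    (hCb : Ca + eM + 10 ≤ Cb) (hvv : vv m Q T ν P x t = v)
    (hIl : (((I + 6 : ℕ) : ℝ)) * Real.log 2 ≤ √v / 4 * 0.7 + 4.2)
    (hR₁sq : R₁ ^ 2 = s ^ 2 * (εN / (16 * m)))
    (hAtp : 0 < AA m Q T ν P x t)
    (ht1 : c * (t ^ (2 - (m:ℤ)) * ((v ^ Cb)⁻¹ * r₁ ^ m)) ≤ AA m Q T ν P x t)
    (hAsl : 2 * s ≤ t → c * (s ^ (2 - (m:ℤ)) * ((v ^ Cb)⁻¹ * r₁ ^ m)) ≤ AA m Q T ν P x s)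
    (hAsu : 2 * s ≤ t / 2 → AA m Q T ν P x s ≤ C * (s ^ (2 - (m:ℤ)) * ((v ^ Cb)⁻¹ * (2 * s) ^ m)))
    (hflat : AA m Q T ν P x t ≤ v ^ Ca * AA m Q T ν P x s)
    (hq : ∀ r r', s ≤ r → r ≤ r' → r' ≤ t → AA m Q T ν P x r ≤ Cq * AA m Q T ν P x r') :
    Prep m Q T ν P x s t κ Cq (Cb + 3) R₁ eM I := by
  have hv1 := hN.one
  have hv0 : 0 < v := by linarith
  have hsp : 0 < s := by rw [hs]; positivity
  have hsv := Real.sqrt_nonneg v
  have hL2 : 2 ≤ L := by rw [hL]; exact hN.logpos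
  have hCq0 : 0 < Cq := by linarith
  have hℓ2 := ell_big hN hm (ell_lower hc htp hv0 hr hAtp hvv ht1)
  have hscale : ∀ u, u ≤ ((I + 6 : ℕ) : ℝ) * Real.log 2 → s * Real.exp u ≤ t / 8 := fun u hu =>
    scale_le htp hr hs rfl hℓ2 (by linarith) hsv
  have hs64 : 64 * s ≤ t / 8 := s64_of (sv := 0) hscale
  have hAsu' := hAsu (by linarith)
  have hAsl' := hAsl (by linarith)
  have h3 := start_upper' hsp hAsu'
  have hst := stretch' (U := ((I + 6 : ℕ) : ℝ) * Real.log 2) hc hC hCq1 hK1 hK2 hv0 hL hs hr hAtp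
    hAsl' hAsu' hflat (fun u hu => (hscale u hu).trans (by linarith)) hq
  have hlogCg : Real.log Cg ≤ L := by rw [hL]; exact hN.logC
  have hCbCa : (Ca:ℝ) + eM + 10 ≤ Cb := by exact_mod_cast hCb
  have heM : (0:ℝ) ≤ eM := Nat.cast_nonneg _
  have hCb0 : (0:ℝ) ≤ Cb := Nat.cast_nonneg _
  have hsl := hN.small_log
  rw [← hL] at hsl
  have h44 : (4:ℝ) ≤ Cb - Ca := by linarith only [hCbCa, heM]
  have hCv1 : (1:ℝ) ≤ Cb + 3 := by linarith only [hCb0]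
  have hwin : Cq * (C * 2 ^ m) * v⁻¹ ≤ εN / (16 * m) := by
    refine le_trans ?_ (hN.winv.trans hc'1)
    gcongr
  refine ⟨hs64, hscale, fun u hu => ?_, ?_⟩
  · obtain ⟨a1, a2, a3, a4⟩ := hst u hu
    have hu0 := hu.1
    have hκu : 0 ≤ κ + 2 * u := by rw [hκ]; linarith only [hL2, hu0]
    have hvvl : κ + 2 * u ≤ vv m Q T ν P x (s * Real.exp u) :=
      vvl_num hκ (by linarith only [hL2]) h44 hlogCg a3
    refine ⟨?_, vvu_num hκ (by linarith only [hL2]) hu0 hCb0 hlogCg a4, ?_⟩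
    · calc κ + 2 * u ≤ 1 * vv m Q T ν P x (s * Real.exp u) := by rw [one_mul]; exact hvvl
        _ ≤ _ := by
          have : 0 ≤ vv m Q T ν P x (s * Real.exp u) := hκu.trans hvvl
          gcongr
    · have hkv : κ + 2 * u ≤ v := kv_num hκ hv0.le hN.sqrt_big hsl hu.2 hIl
      rw [hR₁sq]
      exact window (Cq := Cq) (C := C) (m' := m) (Cb := Cb) (Ca := Ca) hv1 hκu hkv hCb a1.le hCq0
        hC a2 hflat h3 hwin
  · have hlog2 : 0 < Real.log 2 := Real.log_pos (by norm_num)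
    obtain ⟨a1, a2, -, -⟩ := hst _ ⟨by positivity, le_rfl⟩
    exact ⟨a1, a2⟩

end Vale.Agent.P214.PATHG
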