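import Vale.Agent.P214.PATHG.FlatAux

/-!
# P214, block BoxPath: the two final lemmas for the flat stretch
-/

open Set Filter Topology MeasureTheory Metric
open scoped RealInnerProductSpace ENNReal

set_option linter.all false

namespace Vale.Agent.P214.PATHG

open Vale.Agent.P214.Skel Vale.Agent.P214.EX Vale.Agent.P214.R2 Vale.Agent.P214.GEN
open Vale.Agent.P214.CAPF

variable {E : Type*} [NormedAddCommGroup E] [InnerProductSpace ℝ E] [FiniteDimensional ℝ E]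
  [MeasurableSpace E] [BorelSpace E]
variable {m Q : ℕ} {T : Submodule ℝ E} {ν : Measure E} {P : E → E →L[ℝ] E}

lemma level_log {r₁ s u τ : ℝ} (hr : 0 < r₁) (hs : s = 4 * r₁) (hτ : 0 < τ)
    (h : τ ≤ 2 * (s * Real.exp u)) : Real.log (τ / r₁) ≤ 3 * Real.log 2 + u := by
  have h2 : τ / r₁ ≤ 2 ^ 3 * Real.exp u := by
    rw [div_le_iff₀ hr]
    rw [hs] at h
    linarith
  have h3 := Real.log_le_log (by positivity) h2
  rw [Real.log_mul (by positivity) (Real.exp_pos u).ne', Real.log_exp, Real.log_pow] at h3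
  push_cast at h3
  exact h3

lemma u_le {sv u : ℝ} {i I : ℕ} (hi : i < I) (hI : (I:ℝ) ≤ sv / 4)
    (hu : u ≤ ((i + 1 : ℕ) : ℝ) * Real.log 2) (hsv : 100 ≤ sv) :
    2 * (3 * Real.log 2 + u) ≤ sv := by
  have hlog2 : 0 < Real.log 2 := Real.log_pos (by norm_num)
  have hlog2u : Real.log 2 < 0.6931471808 := Real.log_two_lt_d9
  have h1 : ((i + 1 : ℕ) : ℝ) ≤ I := by exact_mod_cast hi
  have h2 : ((i + 1 : ℕ) : ℝ) * Real.log 2 ≤ sv / 4 * 1 := by
    have : Real.log 2 ≤ 1 := by linarith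
    have : ((i + 1 : ℕ) : ℝ) ≤ sv / 4 := h1.trans hI
    gcongr
  linarith

lemma noEvent_of {t₀ : ℝ} {ρ N : ℕ → E → ℝ} {Cd : ℕ} {x : E} {r₁ s t v κ R₁ : ℝ} {e : ℕ → ℕ}
    {M₀ I : ℕ} {S₀ : Finset E} (hs : s = 4 * r₁) (hr : 0 < r₁) (ht0 : 0 < t₀) (htp : 0 < t)
    (hI1 : (I:ℝ) ≤ √v / 4) (hsq : 100 ≤ √v)
    (hscale : ∀ u, u ≤ ((I + 6 : ℕ) : ℝ) * Real.log 2 → s * Real.exp u ≤ t / 8)
    (hEv : ∀ l : ℕ, 4 * r₁ ≤ t₀ / 2 ^ l → t₀ / 2 ^ l ≤ t →
      2 * Real.log (t₀ / 2 ^ l / r₁) ≤ √v → ¬ Ev m Q T ν P t₀ ρ N Cd x l)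
    (HT : ∀ i < I, ∀ j < M₀, ∀ S ⊆ S₀, S.Nonempty →
      NG.Sep S (NG.rad2 e κ (Real.log 2) (aP m Q T ν x s) (gP m T ν P x s) (j + 1) i) →
      NG.Cov S S₀ (NG.rad2 e κ (Real.log 2) (aP m Q T ν x s) (gP m T ν P x s) j i) →
      NG.Ag (aP m Q T ν x s) (gP m T ν P x s) (Real.log 2) (i + 6)
        < 2 * NG.Ag (aP m Q T ν x s) (gP m T ν P x s) (Real.log 2) i →
      ∀ u ∈ Icc (i * Real.log 2 : ℝ) ((i + 1 : ℕ) * Real.log 2),
        ((NG.Lam κ (Real.log 2) i) ^ 2)⁻¹ * NG.Am (aP m Q T ν x s) (gP m T ν P x s) u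
          < gP m T ν P x s u - gSU m T x TH.win (capF T S (wR S R₁)) P ν s u →
        ∃ l : ℕ, s ≤ t₀ / 2 ^ l ∧ t₀ / 2 ^ l ≤ 2 * (s * Real.exp u) ∧
          Ev m Q T ν P t₀ ρ N Cd x l) :
    NoEventK I 6 (Real.log 2) κ e M₀ (aP m Q T ν x s) (gP m T ν P x s) S₀
      (fun S => gSU m T x TH.win (capF T S (wR S R₁)) P ν s)
      (fun i => ((NG.Lam κ (Real.log 2) i) ^ 2)⁻¹) := by
  intro i hi j hj S hSS hSne hsep hcov
  by_contra hcon2
  rw [not_or, not_le] at hcon2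
  obtain ⟨hjump, hbad⟩ := hcon2
  push Not at hbad
  obtain ⟨u, hu, hθ⟩ := hbad
  have hlog2 : 0 < Real.log 2 := Real.log_pos (by norm_num)
  have huI : u ≤ ((I + 6 : ℕ) : ℝ) * Real.log 2 := by
    refine hu.2.trans ?_
    gcongr
    omega
  obtain ⟨l, hl1, hl2, hl3⟩ := HT i hi j hj S hSS hSne hsep hcov hjump u hu hθ
  have hTl : 0 < t₀ / 2 ^ l := by positivity
  refine hEv l (by rw [← hs]; exact hl1) ?_ ?_ hl3
  · have := hscale u huI
    linarith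
  · have h1 := level_log hr hs hTl hl2
    have h2 := u_le hi hI1 hu.2 hsq
    linarith

lemma contra_of {C c c' κm : ℝ} {Ca Cb I : ℕ} {v κ Cq At Ah As : ℝ}
    (hN : NumF C c c' κm m Ca Cb v) (hκ : κ = 3 * Real.log v) (hI2 : √v / 4 < I + 1)
    (hCq : 0 < Cq) (hCqC : Cq ≤ C) (hAh : 0 < Ah) (hAt : 0 < At) (hAs : 0 < As)
    (h1 : Ah ≤ Cq * At) (h2 : At ≤ v ^ Ca * As)
    (hfin : (2 * (Ca:ℝ) + 4) * Real.log (NG.Lam κ (Real.log 2) I) ≤ Real.log Ah - Real.log As) :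
    False := by
  have hv1 := hN.one
  have hv0 : 0 < v := by linarith
  have hlog2 : 0 < Real.log 2 := Real.log_pos (by norm_num)
  have hlog2u : Real.log 2 < 0.6931471808 := Real.log_two_lt_d9
  have hlog2l : 0.6931471803 < Real.log 2 := Real.log_two_gt_d9
  have hCp : 0 < C := by linarith
  have l1 : Real.log Ah ≤ Real.log Cq + Real.log At := by
    rw [← Real.log_mul hCq.ne' hAt.ne']
    exact Real.log_le_log hAh h1
  have l2 : Real.log At ≤ Ca * Real.log v + Real.log As := by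
    have := Real.log_le_log hAt h2
    rwa [Real.log_mul (by positivity) hAs.ne', Real.log_pow] at this
  have l3 : Real.log Cq ≤ Real.log C := Real.log_le_log hCq hCqC
  have hsq := hN.sqrt_big
  have hL2 := hN.logpos
  have hLam : √v / 4 ≤ NG.Lam κ (Real.log 2) I := by
    have h3 : NG.Lam κ (Real.log 2) I = κ + 2 * (I * Real.log 2) := rfl
    have h4 : √v / 4 * Real.log 2 ≤ (I + 1) * Real.log 2 := by
      have := hI2.le
      gcongr
    have h5 : √v / 4 * 0.69 ≤ √v / 4 * Real.log 2 := by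
      have : (0.69:ℝ) ≤ Real.log 2 := by linarith
      gcongr
    have h6 : ((I:ℝ) + 1) * Real.log 2 = I * Real.log 2 + Real.log 2 := by ring
    rw [h3, hκ]
    linarith
  have l4 : Real.log v / 2 - Real.log 4 ≤ Real.log (NG.Lam κ (Real.log 2) I) := by
    have h3 : Real.log v / 2 - Real.log 4 = Real.log (√v / 4) := by
      rw [Real.log_div (by positivity) (by norm_num), Real.log_sqrt hv0.le]
    rw [h3]
    exact Real.log_le_log (by positivity) hLam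
  have l5 : (2 * (Ca:ℝ) + 4) * (Real.log v / 2 - Real.log 4)
      ≤ (2 * Ca + 4) * Real.log (NG.Lam κ (Real.log 2) I) := by gcongr
  have l6 := hN.fin
  linarith

lemma lam_ge {C c c' κm : ℝ} {Ca Cb I : ℕ} {v κ : ℝ}
    (hN : NumF C c c' κm m Ca Cb v) (hκ : κ = 3 * Real.log v) (hI2 : √v / 4 < I + 1) :
    Real.exp (κ / 8) ≤ NG.Lam κ (Real.log 2) I := by
  have hlog2 : 0 < Real.log 2 := Real.log_pos (by norm_num)
  have hlog2u : Real.log 2 < 0.6931471808 := Real.log_two_lt_d9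
  have hlog2l : 0.6931471803 < Real.log 2 := Real.log_two_gt_d9
  have hsq := hN.sqrt_big
  have hL2 := hN.logpos
  have h1 := hN.expk
  have h3 : NG.Lam κ (Real.log 2) I = κ + 2 * (I * Real.log 2) := rfl
  have h4 : √v / 4 * Real.log 2 ≤ (I + 1) * Real.log 2 := by
    have := hI2.le
    gcongr
  have h5 : √v / 4 * 0.69 ≤ √v / 4 * Real.log 2 := by
    have : (0.69:ℝ) ≤ Real.log 2 := by linarith
    gcongr
  have h6 : ((I:ℝ) + 1) * Real.log 2 = I * Real.log 2 + Real.log 2 := by ring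
  rw [h3, hκ]
  linarith

lemma theta_le {κ : ℝ} (hκ4 : 4 ≤ κ) (i : ℕ) :
    ((NG.Lam κ (Real.log 2) i) ^ 2)⁻¹ ≤ 1 / 4 := by
  have hlog2 : 0 < Real.log 2 := Real.log_pos (by norm_num)
  have h3 : NG.Lam κ (Real.log 2) i = κ + 2 * (i * Real.log 2) := rfl
  have h4 : 4 ≤ NG.Lam κ (Real.log 2) i := by
    rw [h3]
    have : (0:ℝ) ≤ i * Real.log 2 := by positivity
    linarith
  rw [one_div]
  apply inv_anti₀ (by norm_num)
  calc (4:ℝ) ≤ 4 ^ 2 := by norm_num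
    _ ≤ _ := by gcongr

end Vale.Agent.P214.PATHG
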