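import Mathlib

/-!
# P214, block BoxPath: the abstract part of `Main`

Two functions `A D : ℝ → ℝ` at a fixed base point (`A = AA x`, `D = exc x`).
-/

open Set Filter Topology

namespace Vale.Agent.P214.PATHG.MN

/-- the last scale `r₁ ≤ t` with `κ r₁ ^ m ≤ D r₁` -/
theorem last_scale {m : ℕ} {D : ℝ → ℝ} {κ r t : ℝ} (hr : 0 < r) (hrt : r ≤ t)
    (hmono : ∀ a b, 0 < a → a ≤ b → D a ≤ D b) (h : κ * r ^ m ≤ D r) :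
    ∃ r₁, r ≤ r₁ ∧ r₁ ≤ t ∧ κ * r₁ ^ m ≤ D r₁ ∧ ∀ q, r₁ < q → q ≤ t → D q < κ * q ^ m := by
  set S : Set ℝ := {q | r ≤ q ∧ q ≤ t ∧ κ * q ^ m ≤ D q} with hS
  have hne : S.Nonempty := ⟨r, le_rfl, hrt, h⟩
  have hbd : BddAbove S := ⟨t, fun q hq => hq.2.1⟩
  have hle : ∀ q ∈ S, q ≤ sSup S := fun q hq => le_csSup hbd hq
  have hcl : sSup S ∈ closure S := csSup_mem_closure hne hbd
  have hclosed : IsClosed {q : ℝ | r ≤ q ∧ q ≤ t ∧ κ * q ^ m ≤ D (sSup S)} := by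
    refine (isClosed_le continuous_const continuous_id).inter
      ((isClosed_le continuous_id continuous_const).inter ?_)
    exact isClosed_le (continuous_const.mul (continuous_pow m)) continuous_const
  have hsub : S ⊆ {q : ℝ | r ≤ q ∧ q ≤ t ∧ κ * q ^ m ≤ D (sSup S)} := fun q hq =>
    ⟨hq.1, hq.2.1, hq.2.2.trans (hmono _ _ (hr.trans_le hq.1) (hle q hq))⟩
  obtain ⟨h1, h2, h3⟩ := closure_minimal hsub hclosed hcl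
  refine ⟨sSup S, h1, h2, h3, fun q hq hqt => ?_⟩
  by_contra hcon
  exact absurd (hle q ⟨h1.trans hq.le, hqt, not_lt.1 hcon⟩) (not_le.2 hq)

/-- the abstract facts at a base point -/
structure AD (m : ℕ) (c C K d η₁ t₀ : ℝ) (A D : ℝ → ℝ) : Prop where
  mono : ∀ a b, 0 < a → a ≤ b → D a ≤ D b
  low : ∀ t, 0 < t → t ≤ 1 / 16 → c * (t ^ (2 - (m : ℤ)) * D (t / 2)) ≤ A t
  up : ∀ t, 0 < t → t ≤ 1 / 32 → (∀ s, t ≤ s → s ≤ 1 / 8 → D s ≤ d * s ^ m) →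
    A t ≤ C * (t ^ (2 - (m : ℤ)) * D (2 * t))
  qm : ∀ s, 0 < s → (∀ s', s ≤ s' → s' ≤ 1 / 8 → D s' ≤ η₁ * s' ^ m) → 0 < D s →
    ∀ r r', 2 * s ≤ r → r ≤ r' → r' ≤ 2 * t₀ → A r ≤ K * A r'

/-- abstract collapse -/
def CollA (A : ℝ → ℝ) (Ca : ℕ) (v T₁ ra : ℝ) : Prop :=
  0 < ra ∧ ra ≤ T₁ ∧ A T₁ ≤ ra ^ 2 ∧
    ∀ r, 0 < r → (v ^ Ca)⁻¹ * A T₁ ≤ r ^ 2 → r ≤ ra → A r ≤ (v ^ Ca)⁻¹ * A T₁

theorem zpow_two_sub {t : ℝ} (ht : 0 < t) (m : ℕ) :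
    t ^ (2 - (m : ℤ)) = t ^ 2 * (t ^ m)⁻¹ := by
  rw [sub_eq_add_neg, zpow_add₀ ht.ne', zpow_neg, zpow_natCast]; norm_cast

/-- `D (T₁ / 2)` is exponentially small -/
theorem D_half {m : ℕ} {c v T₁ : ℝ} {A D : ℝ → ℝ} (hc : 0 < c) (hT : 0 < T₁)
    (low : c * (T₁ ^ (2 - (m : ℤ)) * D (T₁ / 2)) ≤ A T₁)
    (hAT : A T₁ = T₁ ^ 2 * Real.exp (-v)) : c * Real.exp v * D (T₁ / 2) ≤ T₁ ^ m := by
  rw [zpow_two_sub hT, hAT] at low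
  have h1 : 0 < T₁ ^ m := pow_pos hT m
  have h2 : 0 < T₁ ^ 2 := pow_pos hT 2
  have h3 : c * D (T₁ / 2) ≤ T₁ ^ m * Real.exp (-v) := by
    have : T₁ ^ 2 * (c * D (T₁ / 2)) ≤ T₁ ^ 2 * (T₁ ^ m * Real.exp (-v)) := by
      calc T₁ ^ 2 * (c * D (T₁ / 2)) = T₁ ^ m * (c * (T₁ ^ 2 * (T₁ ^ m)⁻¹ * D (T₁ / 2))) := by
            field_simp
        _ ≤ T₁ ^ m * (T₁ ^ 2 * Real.exp (-v)) := by gcongr
        _ = _ := by ring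
    exact le_of_mul_le_mul_left this h2
  calc c * Real.exp v * D (T₁ / 2) = Real.exp v * (c * D (T₁ / 2)) := by ring
    _ ≤ Real.exp v * (T₁ ^ m * Real.exp (-v)) := by gcongr
    _ = T₁ ^ m := by rw [Real.exp_neg]; field_simp

/-- the scale `r₁` is much smaller than `T₁`: any `b` with `v ^ Cb * b ^ m < c e ^ v` -/
theorem small_of {m Cb : ℕ} {c v T₁ b r₁ : ℝ} {D : ℝ → ℝ} (hc : 0 < c) (hv : 0 < v)
    (hT : 0 < T₁) (hb : 0 < b) (hr : 0 < r₁) (hr2 : r₁ ≤ T₁ / 2)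
    (mono : ∀ a b, 0 < a → a ≤ b → D a ≤ D b)
    (hD : c * Real.exp v * D (T₁ / 2) ≤ T₁ ^ m) (hn : v ^ Cb * b ^ m < c * Real.exp v)
    (h1 : (v ^ Cb)⁻¹ * r₁ ^ m ≤ D r₁) : r₁ * b < T₁ := by
  have h2 : (v ^ Cb)⁻¹ * r₁ ^ m ≤ D (T₁ / 2) := h1.trans (mono _ _ hr hr2)
  have hvC : 0 < v ^ Cb := pow_pos hv _
  have h3 : (r₁ * b) ^ m < T₁ ^ m := by
    calc (r₁ * b) ^ m = (v ^ Cb * b ^ m) * ((v ^ Cb)⁻¹ * r₁ ^ m) := by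
          rw [mul_pow]; field_simp
      _ < (c * Real.exp v) * ((v ^ Cb)⁻¹ * r₁ ^ m) := by
          apply mul_lt_mul_of_pos_right hn; positivity
      _ ≤ (c * Real.exp v) * D (T₁ / 2) := by gcongr
      _ ≤ T₁ ^ m := hD
  exact lt_of_pow_lt_pow_left₀ m hT.le h3

/-- **The core**: from the last scale `r₁` with `v ^ (-Cb) r₁ ^ m ≤ D r₁` to a collapse. -/
theorem core {m Ca Cb : ℕ} {c v s T₁ : ℝ} {A D : ℝ → ℝ} (hc : 0 < c) (hv : 1 ≤ v)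
    (mono : ∀ a b, 0 < a → a ≤ b → D a ≤ D b)
    (hD : c * Real.exp v * D (T₁ / 2) ≤ T₁ ^ m)
    (hs : 0 < s) (hsT : 4 * s ≤ T₁) (hn : v ^ Cb * 8 ^ m < c * Real.exp v) (hCb : Ca + 1 ≤ Cb)
    (H : ∀ r₁, s ≤ r₁ → r₁ ≤ T₁ / 2 → (v ^ Cb)⁻¹ * r₁ ^ m ≤ D r₁ →
      (∀ r, r₁ < r → r ≤ T₁ / 2 → D r < (v ^ Cb)⁻¹ * r ^ m) →
      v ^ (Ca + 1) * A (4 * r₁) ≤ A T₁)
    (Hlow : (∀ r, s ≤ r → r ≤ T₁ / 2 → D r < (v ^ Cb)⁻¹ * r ^ m) →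
      v ^ (Ca + 1) * A (2 * s) ≤ A T₁)
    (HC : ∀ r0, 2 * s ≤ r0 → r0 ≤ T₁ → v ^ (Ca + 1) * A r0 ≤ A T₁ →
      (∀ r, r0 ≤ r → r ≤ T₁ / 2 → D r ≤ (v ^ (Ca + 1))⁻¹ * r ^ m) →
      ∃ ra, CollA A Ca v T₁ ra) :
    ∃ ra, CollA A Ca v T₁ ra := by
  have hT : 0 < T₁ := by linarith
  have hv0 : 0 < v := by linarith
  have hpow : (v ^ Cb)⁻¹ ≤ (v ^ (Ca + 1))⁻¹ :=
    inv_anti₀ (pow_pos hv0 _) (pow_le_pow_right₀ hv hCb)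
  by_cases h : ∃ r, s ≤ r ∧ r ≤ T₁ / 2 ∧ (v ^ Cb)⁻¹ * r ^ m ≤ D r
  · obtain ⟨r, hr1, hr2, hr3⟩ := h
    obtain ⟨r₁, h1, h2, h3, h4⟩ := last_scale (hs.trans_le hr1) hr2 mono hr3
    have hr₁ : 0 < r₁ := by linarith
    have h5 : r₁ * 8 < T₁ := small_of hc hv0 hT (by norm_num) hr₁ h2 mono hD hn h3
    refine HC (4 * r₁) (by linarith) (by linarith) (H r₁ (hr1.trans h1) h2 h3 h4) ?_
    intro q hq1 hq2
    have hq : 0 < q := by linarith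
    refine (h4 q (by linarith) hq2).le.trans ?_
    gcongr
  · push Not at h
    refine HC (2 * s) le_rfl (by linarith) (Hlow h) ?_
    intro q hq1 hq2
    have hq : 0 < q := by linarith
    refine (h q (by linarith) hq2).le.trans ?_
    gcongr

end Vale.Agent.P214.PATHG.MN
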