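import Mathlib

/-!
# P214, block BoxPath: the numerical thresholds of `Main`
-/

open Set Filter Topology

namespace Vale.Agent.P214.PATHG.MN

/-- the numerical conditions on `v` -/
structure MNum (m Cb C9 q : ℕ) (c C K d v : ℝ) : Prop where
  n1 : 5 ≤ v
  n2 : v ^ Cb * 8 ^ m < c * Real.exp v
  n3 : v ^ Cb * Real.exp (√v) ^ m < c * Real.exp v
  n4 : K * 2 ^ m * v ^ Cb ≤ 4 * c * Real.exp (√v)
  n5 : 4 ^ q * K ≤ v
  n6 : 4 * C * d * 2 ^ m ≤ v
  n7 : 2 ^ m * v ^ C9 ≤ c * Real.exp v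

theorem ev_pow_lt_exp (n : ℕ) {b c : ℝ} (hb : 0 < b) (hc : 0 < c) :
    ∀ᶠ v : ℝ in atTop, b * v ^ n < c * Real.exp v := by
  have h := (Real.isLittleO_pow_exp_atTop (n := n)).def (show 0 < c / (2 * b) by positivity)
  filter_upwards [h, eventually_gt_atTop 0] with v hv hv0
  rw [Real.norm_of_nonneg (by positivity), Real.norm_of_nonneg (Real.exp_pos v).le] at hv
  have hE := Real.exp_pos v
  calc b * v ^ n ≤ b * (c / (2 * b) * Real.exp v) := by gcongr
    _ = c * Real.exp v / 2 := by field_simp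
    _ < c * Real.exp v := by
        have : 0 < c * Real.exp v := by positivity
        linarith

theorem ev_pow_lt_exp_half (n : ℕ) {b c : ℝ} (hb : 0 < b) (hc : 0 < c) :
    ∀ᶠ v : ℝ in atTop, b * v ^ n < c * Real.exp (v / 2) := by
  have h := (ev_pow_lt_exp n (b := b * 2 ^ n) (by positivity) hc)
  have h2 : Tendsto (fun v : ℝ => v / 2) atTop atTop := tendsto_id.atTop_div_const (by norm_num)
  filter_upwards [h2.eventually h] with v hv
  calc b * v ^ n = b * 2 ^ n * (v / 2) ^ n := by rw [div_pow]; field_simp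
    _ < _ := hv

theorem ev_pow_lt_exp_sqrt (n : ℕ) {b c : ℝ} (hb : 0 < b) (hc : 0 < c) :
    ∀ᶠ v : ℝ in atTop, b * v ^ n < c * Real.exp (√v) := by
  have h := (ev_pow_lt_exp (2 * n) hb hc)
  filter_upwards [Real.tendsto_sqrt_atTop.eventually h, eventually_ge_atTop 0] with v hv hv0
  rwa [pow_mul, Real.sq_sqrt hv0] at hv

/-- all conditions hold for large `v` -/
theorem exists_mnum (m Cb C9 q : ℕ) {c : ℝ} (C d : ℝ) {K : ℝ} (hc : 0 < c) (hK : 0 < K) :
    ∃ v₀ : ℝ, 1 ≤ v₀ ∧ ∀ v, v₀ ≤ v → MNum m Cb C9 q c C K d v := by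
  have e2 := ev_pow_lt_exp Cb (b := 8 ^ m) (by positivity) hc
  have e3 := ev_pow_lt_exp_half Cb (b := 1) one_pos hc
  have e4 := ev_pow_lt_exp_sqrt Cb (b := K * 2 ^ m) (c := 4 * c) (by positivity) (by positivity)
  have e7 := ev_pow_lt_exp C9 (b := 2 ^ m) (by positivity) hc
  have key : ∀ᶠ v : ℝ in atTop, MNum m Cb C9 q c C K d v := by
    filter_upwards [e2, e3, e4, e7, eventually_ge_atTop (5:ℝ), eventually_ge_atTop (4 ^ q * K),
      eventually_ge_atTop (4 * C * d * 2 ^ m), eventually_ge_atTop ((2 * m : ℝ) ^ 2)]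
      with v h2 h3 h4 h7 h1 h5 h6 h8
    have hv : 0 ≤ v := by linarith
    refine ⟨h1, by linarith [mul_comm ((8:ℝ) ^ m) (v ^ Cb)], ?_, h4.le, h5, h6, h7.le⟩
    have h9 : (2 * m : ℝ) ≤ √v := Real.le_sqrt_of_sq_le h8
    have h10 : m * √v ≤ v / 2 := by
      have := Real.mul_self_sqrt hv
      have h0 := Real.sqrt_nonneg v
      nlinarith
    calc v ^ Cb * Real.exp (√v) ^ m = v ^ Cb * Real.exp (m * √v) := by rw [← Real.exp_nat_mul]
      _ ≤ v ^ Cb * Real.exp (v / 2) := by gcongr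
      _ < (c * Real.exp (v / 2)) * Real.exp (v / 2) := by
          have : v ^ Cb < c * Real.exp (v / 2) := by linarith
          have h0 := Real.exp_pos (v / 2)
          exact mul_lt_mul_of_pos_right this h0
      _ = c * Real.exp v := by rw [mul_assoc, ← Real.exp_add]; ring_nf
  obtain ⟨v₀, hv₀⟩ := eventually_atTop.1 key
  exact ⟨max 1 v₀, le_max_left _ _, fun v hv => hv₀ v ((le_max_right _ _).trans hv)⟩

end Vale.Agent.P214.PATHG.MN
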