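import Vale.Agent.P214.PATHG.MainA
import Vale.Agent.P214.PATHG.MainN

/-!
# P214, block BoxPath: the two cases of `Main` (abstract form)

Levels `T_l = t₀ / 2 ^ l`, `V_l = log (T_l² / A T_l)`.
-/

open Set Filter Topology

namespace Vale.Agent.P214.PATHG.MN

/-- `V` of the abstract function `A` -/
noncomputable def VV (A : ℝ → ℝ) (t : ℝ) : ℝ := Real.log (t ^ 2 / A t)

theorem A_eq {A : ℝ → ℝ} {t : ℝ} (ht : 0 < t) (hA : 0 < A t) :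
    A t = t ^ 2 * Real.exp (-VV A t) := by
  unfold VV
  rw [Real.exp_neg, Real.exp_log (by positivity)]
  field_simp

/-- a set of levels which is bounded has a largest element -/
theorem exists_max {G : ℕ → Prop} (hne : ∃ i, G i) (hbd : ∃ N, ∀ i, G i → i ≤ N) :
    ∃ i, G i ∧ ∀ j, G j → j ≤ i := by
  obtain ⟨N, hN⟩ := hbd
  classical
  obtain ⟨i, hi⟩ := hne
  have hfin : {i | G i}.Finite := (Set.finite_Iic N).subset fun j hj => hN j hj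
  obtain ⟨j, hj1, hj2⟩ := hfin.exists_maximalFor id _ ⟨i, hi⟩
  exact ⟨j, hj1, fun k hk => le_of_not_gt fun hlt => absurd (hj2 hk hlt.le) (not_le.2 hlt)⟩

variable {m Ca Cb C9 q : ℕ} {c C K d η₁ t₀ v₀ : ℝ} {A D : ℝ → ℝ} {Ev : ℕ → Prop}

/-- the levels of the flat range are strictly below the top level -/
theorem level_lt {v r₁ T₁ Tl : ℝ} (hr : 0 < r₁)
    (h1 : r₁ * Real.exp (√v) < T₁) (h3 : 2 * Real.log (Tl / r₁) ≤ √v)
    (hT : 0 < Tl) : Tl < T₁ := by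
  have h0 := Real.sqrt_nonneg v
  have h4 : Real.log (Tl / r₁) ≤ √v := by linarith
  have h5 : Tl / r₁ ≤ Real.exp (√v) := by
    rwa [Real.log_le_iff_le_exp (by positivity)] at h4
  rw [div_le_iff₀ hr] at h5
  linarith [mul_comm r₁ (Real.exp (√v))]

theorem level_mono (ht0 : 0 < t₀) {l i : ℕ} (h : t₀ / 2 ^ l < t₀ / 2 ^ i) : i < l := by
  by_contra hcon
  have h1 : (2:ℝ) ^ l ≤ 2 ^ i := pow_le_pow_right₀ (by norm_num) (not_lt.1 hcon)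
  have h2 : t₀ / 2 ^ i ≤ t₀ / 2 ^ l := by gcongr
  linarith

/-- **Case A**: no scale with large excess. -/
theorem caseA {ω : ℝ} (hc : 0 < c) (ht0 : 0 < t₀) (ht0' : t₀ ≤ 1 / 16)
    (hCb : Ca + 1 ≤ Cb) (hC9 : C9 ≤ Cb)
    (mono : ∀ a b, 0 < a → a ≤ b → D a ≤ D b)
    (low : ∀ t, 0 < t → t ≤ 1 / 16 → c * (t ^ (2 - (m : ℤ)) * D (t / 2)) ≤ A t)
    (hω : 0 < ω) (hden : ∃ t₁ : ℝ, 0 < t₁ ∧ ∀ t, 0 < t → t ≤ t₁ → ω * t ^ m ≤ D t)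
    (num : ∀ v, v₀ ≤ v → MNum m Cb C9 q c C K d v) (hv₀ : ∀ l : ℕ, v₀ ≤ VV A (t₀ / 2 ^ l))
    (hsm : ∀ r, 0 < r → r ≤ 1 / 8 → D r ≤ η₁ * r ^ m)
    (HF : ∀ (i : ℕ) (r₁ : ℝ), 0 < r₁ → r₁ ≤ t₀ / 2 ^ i / 2 →
      (VV A (t₀ / 2 ^ i) ^ Cb)⁻¹ * r₁ ^ m ≤ D r₁ →
      (∀ r, r₁ < r → r ≤ t₀ / 2 ^ i / 2 → D r ≤ (VV A (t₀ / 2 ^ i) ^ Cb)⁻¹ * r ^ m) →
      (∀ l : ℕ, 4 * r₁ ≤ t₀ / 2 ^ l → t₀ / 2 ^ l ≤ t₀ / 2 ^ i →
        2 * Real.log (t₀ / 2 ^ l / r₁) ≤ √(VV A (t₀ / 2 ^ i)) → ¬ Ev l) →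
      VV A (t₀ / 2 ^ i) ^ (Ca + 1) * A (4 * r₁) < A (t₀ / 2 ^ i))
    (HC : ∀ (i : ℕ) (s r0 : ℝ), 0 < s → 2 * s ≤ r0 → r0 ≤ t₀ / 2 ^ i →
      (∀ r, s ≤ r → r ≤ 1 / 8 → D r ≤ η₁ * r ^ m) → 0 < D s →
      VV A (t₀ / 2 ^ i) ^ (Ca + 1) * A r0 ≤ A (t₀ / 2 ^ i) →
      (∀ r, r0 ≤ r → r ≤ t₀ / 2 ^ i / 2 → D r ≤ (VV A (t₀ / 2 ^ i) ^ (Ca + 1))⁻¹ * r ^ m) →
      (∀ r, 0 < r → (VV A (t₀ / 2 ^ i) ^ Ca)⁻¹ * A (t₀ / 2 ^ i) ≤ r ^ 2 → 2 * s ≤ r) →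
      ∃ ra, CollA A Ca (VV A (t₀ / 2 ^ i)) (t₀ / 2 ^ i) ra) :
    ∃ i : ℕ, (i = 0 ∨ Ev i) ∧ (ω ≤ (VV A (t₀ / 2 ^ i) ^ C9)⁻¹ ∨
      ∃ ra, CollA A Ca (VV A (t₀ / 2 ^ i)) (t₀ / 2 ^ i) ra) := by
  obtain ⟨t₁, ht₁, hden⟩ := hden
  by_contra hcon
  push Not at hcon
  have hDpos : ∀ r, 0 < r → 0 < D r := by
    intro r hr
    have h1 : 0 < min r t₁ := lt_min hr ht₁
    have h2 := hden (min r t₁) h1 (min_le_right _ _)
    have h3 := mono (min r t₁) r h1 (min_le_left _ _)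
    have h4 : 0 < ω * (min r t₁) ^ m := by positivity
    linarith
  have hTpos : ∀ l : ℕ, 0 < t₀ / 2 ^ l := fun l => by positivity
  have hTle : ∀ l : ℕ, t₀ / 2 ^ l ≤ t₀ := fun l => div_le_self ht0.le (one_le_pow₀ (by norm_num))
  have hApos : ∀ l : ℕ, 0 < A (t₀ / 2 ^ l) := by
    intro l
    refine lt_of_lt_of_le ?_ (low _ (hTpos l) ((hTle l).trans ht0'))
    have := hDpos (t₀ / 2 ^ l / 2) (by have := hTpos l; linarith)
    have := hTpos l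
    positivity
  -- the set of levels is bounded
  have hbd : ∃ N, ∀ i, (i = 0 ∨ Ev i) → i ≤ N := by
    obtain ⟨N, hN⟩ := exists_nat_gt (t₀ / t₁)
    refine ⟨N, fun i hi => ?_⟩
    by_contra hlt
    have hlt' : N < i := not_le.1 hlt
    have h1 : t₀ / 2 ^ i < t₁ := by
      rw [div_lt_iff₀ (by positivity)]
      rw [div_lt_iff₀ ht₁] at hN
      have h2 : (N : ℝ) ≤ 2 ^ i := by
        have h3 : (i : ℝ) < 2 ^ i := by exact_mod_cast i.lt_two_pow_self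
        have h4 : (N : ℝ) ≤ i := by exact_mod_cast hlt'.le
        linarith
      nlinarith
    obtain ⟨h2, -⟩ := hcon i hi
    set T₁ := t₀ / 2 ^ i with hT₁
    have hTp := hTpos i
    have hnum := num _ (hv₀ i)
    set v := VV A T₁ with hv
    have hv0 : 0 < v := by linarith [hnum.n1]
    have hD := D_half hc hTp (low _ hTp ((hTle i).trans ht0')) (A_eq hTp (hApos i))
    have h3 := hden (T₁ / 2) (by positivity) (by linarith)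
    have h4 : c * Real.exp v * (ω * (T₁ / 2) ^ m) ≤ T₁ ^ m := by
      refine le_trans ?_ hD
      have := Real.exp_pos v
      gcongr
    have h5 : c * Real.exp v * ω ≤ 2 ^ m := by
      have h6 : 0 < T₁ ^ m := by positivity
      rw [div_pow] at h4
      have h7 : (c * Real.exp v * ω) * T₁ ^ m ≤ 2 ^ m * T₁ ^ m := by
        calc (c * Real.exp v * ω) * T₁ ^ m
            = 2 ^ m * (c * Real.exp v * (ω * (T₁ ^ m / 2 ^ m))) := by field_simp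
          _ ≤ 2 ^ m * T₁ ^ m := by gcongr
      exact le_of_mul_le_mul_right h7 h6
    have h8 : (v ^ C9)⁻¹ * (2 ^ m * v ^ C9) < ω * (c * Real.exp v) := by
      have h9 := hnum.n7
      have h10 : 0 < 2 ^ m * v ^ C9 := by positivity
      calc (v ^ C9)⁻¹ * (2 ^ m * v ^ C9) < ω * (2 ^ m * v ^ C9) :=
            mul_lt_mul_of_pos_right h2 h10
        _ ≤ ω * (c * Real.exp v) := by gcongr
    have h9 : (v ^ C9)⁻¹ * (2 ^ m * v ^ C9) = 2 ^ m := by field_simp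
    rw [h9] at h8
    linarith
  obtain ⟨i, hi, himax⟩ := exists_max ⟨0, Or.inl rfl⟩ hbd
  obtain ⟨hωi, hno⟩ := hcon i hi
  have hTp := hTpos i
  have hnum := num _ (hv₀ i)
  have hD := D_half hc hTp (low _ hTp ((hTle i).trans ht0')) (A_eq hTp (hApos i))
  have hv1 : 1 ≤ VV A (t₀ / 2 ^ i) := by linarith [hnum.n1]
  have hv0 : 0 < VV A (t₀ / 2 ^ i) := by linarith
  set s : ℝ := min (min t₁ (t₀ / 2 ^ i / 4))
    (√((VV A (t₀ / 2 ^ i) ^ Ca)⁻¹ * A (t₀ / 2 ^ i)) / 2) with hs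
  have hAi := hApos i
  have hs0 : 0 < s := by
    refine lt_min (lt_min ht₁ (by positivity)) ?_
    have : 0 < √((VV A (t₀ / 2 ^ i) ^ Ca)⁻¹ * A (t₀ / 2 ^ i)) := Real.sqrt_pos.2 (by positivity)
    positivity
  have hs1 : s ≤ t₁ := (min_le_left _ _).trans (min_le_left _ _)
  have hs2 : s ≤ t₀ / 2 ^ i / 4 := (min_le_left _ _).trans (min_le_right _ _)
  have hs3 : s ≤ √((VV A (t₀ / 2 ^ i) ^ Ca)⁻¹ * A (t₀ / 2 ^ i)) / 2 := min_le_right _ _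
  suffices hsuf : ∃ ra, CollA A Ca (VV A (t₀ / 2 ^ i)) (t₀ / 2 ^ i) ra by
    obtain ⟨ra, hra⟩ := hsuf
    exact hno ra hra
  refine core (s := s) hc hv1 mono hD hs0 (by linarith) hnum.n2 hCb ?_ ?_ ?_
  · intro r₁ h1 h2 h3 h4
    have hr₁ : 0 < r₁ := by linarith
    have h5 := small_of hc hv0 hTp (Real.exp_pos _) hr₁ h2 mono hD hnum.n3 h3
    refine (HF i r₁ hr₁ h2 h3 (fun r hr hr' => (h4 r hr hr').le) ?_).le
    intro l hl1 hl2 hl3 hEv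
    have h6 := level_lt hr₁ h5 hl3 (hTpos l)
    have h7 := level_mono ht0 h6
    have h8 := himax l (Or.inr hEv)
    omega
  · intro h
    exfalso
    have h1 := h s le_rfl (by linarith)
    have h2 := hden s hs0 hs1
    have h3 : ω < (VV A (t₀ / 2 ^ i) ^ Cb)⁻¹ := by
      have h4 : 0 < s ^ m := by positivity
      exact lt_of_mul_lt_mul_right (h2.trans_lt h1) h4.le
    have h4 : (VV A (t₀ / 2 ^ i) ^ Cb)⁻¹ ≤ (VV A (t₀ / 2 ^ i) ^ C9)⁻¹ :=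
      inv_anti₀ (by positivity) (pow_le_pow_right₀ hv1 hC9)
    linarith
  · intro r0 h1 h2 h3 h4
    refine HC i s r0 hs0 h1 h2 (fun r hr hr' => hsm r (by linarith) hr') (hDpos s hs0) h3 h4 ?_
    intro r hr hr2
    have h5 : √((VV A (t₀ / 2 ^ i) ^ Ca)⁻¹ * A (t₀ / 2 ^ i)) ≤ r := by
      rw [← Real.sqrt_sq hr.le]
      exact Real.sqrt_le_sqrt hr2
    linarith

end Vale.Agent.P214.PATHG.MN
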