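import Vale.Agent.P214.PATHG.MainB

/-!
# P214, block BoxPath: case B of `Main` (abstract form)

`s` is the last scale with large excess.
-/

open Set Filter Topology

namespace Vale.Agent.P214.PATHG.MN

variable {m Ca Cb C9 q : ℕ} {c C K d t₀ v₀ : ℝ} {A D : ℝ → ℝ} {Ev : ℕ → Prop}

/-- `V` at a level of the flat range -/
theorem V_level {r₁ v Tl : ℝ} (hc : 0 < c) (hv : 0 < v)
    (low : c * ((2 * r₁) ^ (2 - (m : ℤ)) * D r₁) ≤ A (2 * r₁))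
    (hr₁ : 0 < r₁) (h3 : (v ^ Cb)⁻¹ * r₁ ^ m ≤ D r₁)
    (hq : A (2 * r₁) ≤ K * A Tl) (hTl : 0 < Tl) (hA : 0 < A Tl)
    (n4 : K * 2 ^ m * v ^ Cb ≤ 4 * c * Real.exp (√v))
    (h4 : 2 * Real.log (Tl / r₁) ≤ √v) : VV A Tl ≤ 2 * √v := by
  have h5 : (2 * r₁) ^ (2 - (m : ℤ)) * r₁ ^ m = 4 * (2 ^ m)⁻¹ * r₁ ^ 2 := by
    rw [zpow_two_sub (by positivity), mul_pow, mul_pow]
    field_simp
    norm_num
  have hz : 0 < (2 * r₁) ^ (2 - (m : ℤ)) := zpow_pos (by positivity) _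
  have h6 : c * ((v ^ Cb)⁻¹ * (4 * (2 ^ m)⁻¹ * r₁ ^ 2)) ≤ K * A Tl := by
    calc c * ((v ^ Cb)⁻¹ * (4 * (2 ^ m)⁻¹ * r₁ ^ 2))
        = c * ((2 * r₁) ^ (2 - (m : ℤ)) * ((v ^ Cb)⁻¹ * r₁ ^ m)) := by rw [← h5]; ring
      _ ≤ c * ((2 * r₁) ^ (2 - (m : ℤ)) * D r₁) := by gcongr
      _ ≤ A (2 * r₁) := low
      _ ≤ K * A Tl := hq
  have hE := Real.exp_pos (√v)
  have h7 : r₁ ^ 2 ≤ Real.exp (√v) * A Tl := by
    have h8 : (4 * c) * r₁ ^ 2 ≤ (4 * c) * (Real.exp (√v) * A Tl) := by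
      calc (4 * c) * r₁ ^ 2
          = (2 ^ m * v ^ Cb) * (c * ((v ^ Cb)⁻¹ * (4 * (2 ^ m)⁻¹ * r₁ ^ 2))) := by field_simp
        _ ≤ (2 ^ m * v ^ Cb) * (K * A Tl) := by gcongr
        _ = (K * 2 ^ m * v ^ Cb) * A Tl := by ring
        _ ≤ (4 * c * Real.exp (√v)) * A Tl := by gcongr
        _ = _ := by ring
    exact le_of_mul_le_mul_left h8 (by positivity)
  have h9 : Tl ^ 2 / A Tl ≤ (Tl / r₁) ^ 2 * Real.exp (√v) := by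
    rw [div_le_iff₀ hA, div_pow, div_mul_eq_mul_div, div_mul_eq_mul_div, le_div_iff₀ (by positivity)]
    calc Tl ^ 2 * r₁ ^ 2 ≤ Tl ^ 2 * (Real.exp (√v) * A Tl) := by gcongr
      _ = _ := by ring
  calc VV A Tl ≤ Real.log ((Tl / r₁) ^ 2 * Real.exp (√v)) := by
        unfold VV
        exact Real.log_le_log (by positivity) h9
    _ = 2 * Real.log (Tl / r₁) + √v := by
        rw [Real.log_mul (by positivity) (by positivity), Real.log_exp, Real.log_pow]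
        norm_num
    _ ≤ 2 * √v := by linarith

/-- **Case B**: `s` is the last scale with large excess. -/
theorem caseB {s : ℝ} (hc : 0 < c) (hK : 0 < K) (hC : 0 < C)
    (ht0 : 0 < t₀) (ht0' : t₀ ≤ 1 / 16)
    (hCb : Ca + 1 ≤ Cb) (hq : Ca + 2 ≤ q) (hs : 0 < s)
    (mono : ∀ a b, 0 < a → a ≤ b → D a ≤ D b)
    (low : ∀ t, 0 < t → t ≤ 1 / 16 → c * (t ^ (2 - (m : ℤ)) * D (t / 2)) ≤ A t)
    (up : ∀ t, s ≤ t → t ≤ 1 / 32 → A t ≤ C * (t ^ (2 - (m : ℤ)) * D (2 * t)))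
    (qm : ∀ r r', 2 * s ≤ r → r ≤ r' → r' ≤ 2 * t₀ → A r ≤ K * A r')
    (hDs : 0 < D s)
    (num : ∀ v, v₀ ≤ v → MNum m Cb C9 q c C K d v)
    (hv₀ : ∀ l : ℕ, 4 * s ≤ t₀ / 2 ^ l → v₀ ≤ VV A (t₀ / 2 ^ l))
    (hsd : ∀ r, s ≤ r → r ≤ 1 / 8 → D r ≤ d * r ^ m)
    (hst : 4 * s ≤ t₀)
    (hqual : (∀ l : ℕ, 4 * s ≤ t₀ / 2 ^ l →
      VV A (t₀ / 2 ^ l) ^ (2 * q) * s ^ 2 ≤ A (t₀ / 2 ^ l) → ¬ Ev l) →
      VV A t₀ ^ (2 * q) * s ^ 2 ≤ A t₀)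
    (HF : ∀ (i : ℕ) (r₁ : ℝ), 4 * s ≤ t₀ / 2 ^ i → s ≤ r₁ → r₁ ≤ t₀ / 2 ^ i / 2 →
      (VV A (t₀ / 2 ^ i) ^ Cb)⁻¹ * r₁ ^ m ≤ D r₁ →
      (∀ r, r₁ < r → r ≤ t₀ / 2 ^ i / 2 → D r ≤ (VV A (t₀ / 2 ^ i) ^ Cb)⁻¹ * r ^ m) →
      (∀ l : ℕ, 4 * r₁ ≤ t₀ / 2 ^ l → t₀ / 2 ^ l ≤ t₀ / 2 ^ i →
        2 * Real.log (t₀ / 2 ^ l / r₁) ≤ √(VV A (t₀ / 2 ^ i)) → ¬ Ev l) →
      VV A (t₀ / 2 ^ i) ^ (Ca + 1) * A (4 * r₁) < A (t₀ / 2 ^ i))
    (HC : ∀ (i : ℕ) (r0 : ℝ), 4 * s ≤ t₀ / 2 ^ i → 2 * s ≤ r0 → r0 ≤ t₀ / 2 ^ i →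
      VV A (t₀ / 2 ^ i) ^ (Ca + 1) * A r0 ≤ A (t₀ / 2 ^ i) →
      (∀ r, r0 ≤ r → r ≤ t₀ / 2 ^ i / 2 → D r ≤ (VV A (t₀ / 2 ^ i) ^ (Ca + 1))⁻¹ * r ^ m) →
      (∀ r, 0 < r → (VV A (t₀ / 2 ^ i) ^ Ca)⁻¹ * A (t₀ / 2 ^ i) ≤ r ^ 2 → 2 * s ≤ r) →
      ∃ ra, CollA A Ca (VV A (t₀ / 2 ^ i)) (t₀ / 2 ^ i) ra) :
    ∃ i : ℕ, (i = 0 ∨ Ev i) ∧ v₀ ≤ VV A (t₀ / 2 ^ i) ∧
      ∃ ra, CollA A Ca (VV A (t₀ / 2 ^ i)) (t₀ / 2 ^ i) ra := by
  have hTpos : ∀ l : ℕ, 0 < t₀ / 2 ^ l := fun l => by positivity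
  have hTle : ∀ l : ℕ, t₀ / 2 ^ l ≤ t₀ := fun l => div_le_self ht0.le (one_le_pow₀ (by norm_num))
  have hDpos : ∀ r, s ≤ r → 0 < D r := fun r hr => hDs.trans_le (mono s r hs hr)
  have hApos : ∀ t, 2 * s ≤ t → t ≤ 1 / 16 → 0 < A t := by
    intro t h1 h2
    have ht : 0 < t := by linarith
    refine lt_of_lt_of_le ?_ (low t ht h2)
    have := hDpos (t / 2) (by linarith)
    positivity
  -- the qualified levels
  set G : ℕ → Prop := fun l => (l = 0 ∨ Ev l) ∧ 4 * s ≤ t₀ / 2 ^ l ∧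
    VV A (t₀ / 2 ^ l) ^ (2 * q) * s ^ 2 ≤ A (t₀ / 2 ^ l) with hG
  have hne : ∃ l, G l := by
    by_cases h : ∃ l, 4 * s ≤ t₀ / 2 ^ l ∧
        VV A (t₀ / 2 ^ l) ^ (2 * q) * s ^ 2 ≤ A (t₀ / 2 ^ l) ∧ Ev l
    · obtain ⟨l, h1, h2, h3⟩ := h
      exact ⟨l, Or.inr h3, h1, h2⟩
    · push Not at h
      refine ⟨0, Or.inl rfl, by simpa using hst, by simpa using hqual h⟩
  have hbd : ∃ N, ∀ l, G l → l ≤ N := by
    obtain ⟨N, hN⟩ := exists_nat_gt (t₀ / (4 * s))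
    refine ⟨N, fun l hl => ?_⟩
    by_contra hlt
    have h1 := hl.2.1
    rw [le_div_iff₀ (by positivity)] at h1
    rw [div_lt_iff₀ (by positivity)] at hN
    have h3 : (l : ℝ) < 2 ^ l := by exact_mod_cast l.lt_two_pow_self
    have h4 : (N : ℝ) ≤ l := by exact_mod_cast (not_le.1 hlt).le
    nlinarith
  obtain ⟨i, ⟨hi, hi4, hiq⟩, himax⟩ := exists_max hne hbd
  refine ⟨i, hi, hv₀ i hi4, ?_⟩
  have hTp := hTpos i
  have hnum := num _ (hv₀ i hi4)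
  have hAi := hApos (t₀ / 2 ^ i) (by linarith) ((hTle i).trans ht0')
  have hD := D_half hc hTp (low _ hTp ((hTle i).trans ht0')) (A_eq hTp hAi)
  set v := VV A (t₀ / 2 ^ i) with hv
  have hv5 : 5 ≤ v := hnum.n1
  have hv1 : 1 ≤ v := by linarith
  have hv0 : 0 < v := by linarith
  refine core (s := s) hc hv1 mono hD hs hi4 hnum.n2 hCb ?_ ?_ ?_
  · intro r₁ h1 h2 h3 h4
    have hr₁ : 0 < r₁ := by linarith
    by_contra hcon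
    have hcon' : A (t₀ / 2 ^ i) < v ^ (Ca + 1) * A (4 * r₁) := not_le.1 hcon
    have h5 := small_of hc hv0 hTp (Real.exp_pos _) hr₁ h2 mono hD hnum.n3 h3
    refine absurd (HF i r₁ hi4 h1 h2 h3 (fun r hr hr' => (h4 r hr hr').le) ?_) (by
      rw [not_lt]; exact hcon'.le)
    intro l hl1 hl2 hl3 hEv
    have h6 := level_lt hr₁ h5 hl3 (hTpos l)
    have h7 := level_mono ht0 h6
    -- the level `l` is qualified
    have hTl := hTle l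
    have hAl := hApos (t₀ / 2 ^ l) (by linarith) ((hTle l).trans ht0')
    have h8 : A (4 * r₁) ≤ K * A (t₀ / 2 ^ l) := qm _ _ (by linarith) hl1 (by linarith)
    have h9 : A (2 * r₁) ≤ K * A (t₀ / 2 ^ l) := qm _ _ (by linarith) (by linarith) (by linarith)
    have hlow := low (2 * r₁) (by positivity) (by linarith)
    rw [show 2 * r₁ / 2 = r₁ by ring] at hlow
    have h10 := V_level (A := A) (D := D) hc hv0 hlow hr₁ h3 h9 (hTpos l) hAl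
      hnum.n4 hl3
    have h11 : v₀ ≤ VV A (t₀ / 2 ^ l) := hv₀ l (by linarith)
    have h12 : 0 ≤ VV A (t₀ / 2 ^ l) := by linarith [(num _ h11).n1]
    have h13 : VV A (t₀ / 2 ^ l) ^ (2 * q) ≤ 4 ^ q * v ^ q := by
      calc VV A (t₀ / 2 ^ l) ^ (2 * q) ≤ (2 * √v) ^ (2 * q) := by gcongr
        _ = ((2 * √v) ^ 2) ^ q := by rw [pow_mul]
        _ = (4 * v) ^ q := by
            congr 1
            rw [mul_pow, Real.sq_sqrt hv0.le]; norm_num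
        _ = _ := mul_pow _ _ _
    have h14 : VV A (t₀ / 2 ^ l) ^ (2 * q) * s ^ 2 ≤ A (t₀ / 2 ^ l) := by
      have hA1 : v ^ (2 * q) * s ^ 2 ≤ v ^ (Ca + 1) * (K * A (t₀ / 2 ^ l)) := by
        refine hiq.trans (hcon'.le.trans ?_)
        gcongr
      have h15 : (v ^ (Ca + 1) * K) * (VV A (t₀ / 2 ^ l) ^ (2 * q) * s ^ 2)
          ≤ (v ^ (Ca + 1) * K) * A (t₀ / 2 ^ l) := by
        calc (v ^ (Ca + 1) * K) * (VV A (t₀ / 2 ^ l) ^ (2 * q) * s ^ 2)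
            ≤ (v ^ (Ca + 1) * K) * (4 ^ q * v ^ q * s ^ 2) := by gcongr
          _ = (4 ^ q * K) * v ^ (Ca + 1) * v ^ q * s ^ 2 := by ring
          _ ≤ v * v ^ (Ca + 1) * v ^ q * s ^ 2 := by
              have := hnum.n5
              gcongr
          _ = v ^ (Ca + 2) * v ^ q * s ^ 2 := by rw [pow_succ v (Ca + 1)]; ring
          _ ≤ v ^ q * v ^ q * s ^ 2 := by gcongr
          _ = v ^ (2 * q) * s ^ 2 := by rw [two_mul, pow_add]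
          _ ≤ _ := hA1
          _ = _ := by ring
      exact le_of_mul_le_mul_left h15 (by positivity)
    have h16 := himax l ⟨Or.inr hEv, by linarith, h14⟩
    omega
  · intro _
    have h1 := up (2 * s) (by linarith) (by linarith [hTle i])
    have h2 := hsd (2 * (2 * s)) (by linarith) (by linarith [hTle i])
    have hz : 0 < (2 * s) ^ (2 - (m : ℤ)) := zpow_pos (by positivity) _
    have h3 : (2 * s) ^ (2 - (m : ℤ)) * (2 * (2 * s)) ^ m = 4 * 2 ^ m * s ^ 2 := by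
      rw [zpow_two_sub (by positivity), mul_pow 2 (2 * s)]
      field_simp
      norm_num
    calc v ^ (Ca + 1) * A (2 * s)
        ≤ v ^ (Ca + 1) * (C * ((2 * s) ^ (2 - (m : ℤ)) * (d * (2 * (2 * s)) ^ m))) := by
          gcongr
          exact h1.trans (by gcongr)
      _ = (4 * C * d * 2 ^ m) * v ^ (Ca + 1) * s ^ 2 := by
          rw [show (2 * s) ^ (2 - (m : ℤ)) * (d * (2 * (2 * s)) ^ m)
            = d * ((2 * s) ^ (2 - (m : ℤ)) * (2 * (2 * s)) ^ m) by ring, h3]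
          ring
      _ ≤ v * v ^ (Ca + 1) * s ^ 2 := by
          have := hnum.n6
          gcongr
      _ = v ^ (Ca + 2) * s ^ 2 := by rw [pow_succ v (Ca + 1)]; ring
      _ ≤ v ^ (2 * q) * s ^ 2 := by
          have := pow_le_pow_right₀ hv1 (show Ca + 2 ≤ 2 * q by omega)
          gcongr
      _ ≤ _ := hiq
  · intro r0 h1 h2 h3 h4
    refine HC i r0 hi4 h1 h2 h3 h4 ?_
    intro r hr hr2
    have h5 : v ^ Ca * (4 * s ^ 2) ≤ v ^ (2 * q) * s ^ 2 := by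
      calc v ^ Ca * (4 * s ^ 2) ≤ v ^ Ca * (v * s ^ 2) := by gcongr; linarith
        _ = v ^ (Ca + 1) * s ^ 2 := by rw [pow_succ]; ring
        _ ≤ _ := by
            have := pow_le_pow_right₀ hv1 (show Ca + 1 ≤ 2 * q by omega)
            gcongr
    have h6 : (v ^ Ca)⁻¹ * (v ^ Ca * (4 * s ^ 2)) ≤ r ^ 2 := by
      refine le_trans ?_ hr2
      have : v ^ Ca * (4 * s ^ 2) ≤ A (t₀ / 2 ^ i) := h5.trans hiq
      gcongr
    have h7 : (v ^ Ca)⁻¹ * (v ^ Ca * (4 * s ^ 2)) = (2 * s) ^ 2 := by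
      field_simp; norm_num
    rw [h7] at h6
    exact le_of_sq_le_sq h6 hr.le

end Vale.Agent.P214.PATHG.MN
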