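import Vale.Agent.P214.PATHG.MainC

/-!
# P214, block BoxPath: the abstract form of `Main`, both cases together
-/

open Set Filter Topology

namespace Vale.Agent.P214.PATHG.MN

/-- `V` is large when `A t ≤ a t²` -/
theorem le_VV {A : ℝ → ℝ} {t a v₀ : ℝ} (ht : 0 < t) (hA : 0 < A t) (h : A t ≤ a * t ^ 2)
    (ha : a ≤ Real.exp (-v₀)) : v₀ ≤ VV A t := by
  unfold VV
  rw [Real.le_log_iff_exp_le (by positivity), le_div_iff₀ hA]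
  have ht2 : 0 < t ^ 2 := by positivity
  calc Real.exp v₀ * A t ≤ Real.exp v₀ * (Real.exp (-v₀) * t ^ 2) := by
        have := Real.exp_pos v₀
        gcongr
        exact h.trans (by gcongr)
    _ = t ^ 2 := by rw [Real.exp_neg]; field_simp

/-- the bound of `A` from the excess at `2 t` -/
theorem A_le_of {A D : ℝ → ℝ} {m : ℕ} {C η t : ℝ} (hC : 0 ≤ C) (ht : 0 < t)
    (h : A t ≤ C * (t ^ (2 - (m : ℤ)) * D (2 * t))) (hD : D (2 * t) ≤ η * (2 * t) ^ m) :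
    A t ≤ (C * η * 2 ^ m) * t ^ 2 := by
  have hz : 0 < t ^ (2 - (m : ℤ)) := zpow_pos ht _
  calc A t ≤ C * (t ^ (2 - (m : ℤ)) * (η * (2 * t) ^ m)) := h.trans (by gcongr)
    _ = (C * η * 2 ^ m) * t ^ 2 := by
        rw [zpow_two_sub ht, mul_pow]; field_simp

/-- from `D q < η q ^ m` for `q > s` to `D s ≤ η s ^ m` -/
theorem le_of_right {D : ℝ → ℝ} {m : ℕ} {η s b : ℝ} (hsb : s < b) (hs : 0 < s)
    (mono : ∀ a b, 0 < a → a ≤ b → D a ≤ D b)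
    (h : ∀ q, s < q → q ≤ b → D q ≤ η * q ^ m) : D s ≤ η * s ^ m := by
  have hcont : Tendsto (fun r' : ℝ => η * r' ^ m) (𝓝[>] s) (𝓝 (η * s ^ m)) :=
    ((continuous_const.mul (continuous_pow m)).tendsto s).mono_left nhdsWithin_le_nhds
  refine ge_of_tendsto hcont ?_
  filter_upwards [Ioo_mem_nhdsGT hsb] with r' hr'
  exact (mono s r' hs hr'.1.le).trans (h r' hr'.1 hr'.2.le)

variable {m Ca Cb C9 : ℕ} {c C K d dF η₁ η₂ t₀ v₀ S₁ e ω : ℝ} {A D : ℝ → ℝ} {Ev : ℕ → Prop}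

/-- the levels above the last bad scale have large `V` -/
theorem level_V (hC : 0 < C) (ht0 : 0 < t₀) (ht0' : t₀ ≤ 1 / 16)
    (hApos : ∀ t, 0 < t → t ≤ 1 / 16 → 0 < A t)
    (up : ∀ t, 0 < t → t ≤ 1 / 32 → (∀ s, t ≤ s → s ≤ 1 / 8 → D s ≤ d * s ^ m) →
      A t ≤ C * (t ^ (2 - (m : ℤ)) * D (2 * t)))
    (htop : v₀ ≤ VV A t₀) (hη₂ : η₂ ≤ d) (hη₂e : C * η₂ * 2 ^ m ≤ Real.exp (-v₀)) (l : ℕ)
    (hl : ∀ r, t₀ / 2 ^ l ≤ r → r ≤ 1 / 8 → D r ≤ η₂ * r ^ m) : v₀ ≤ VV A (t₀ / 2 ^ l) := by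
  have h2 : 0 < t₀ / 2 ^ l := by positivity
  rcases Nat.eq_zero_or_pos l with rfl | hl0
  · simpa using htop
  · have h1 : t₀ / 2 ^ l ≤ 1 / 32 := by
      have h2 : (2:ℝ) ≤ 2 ^ l := by
        calc (2:ℝ) = 2 ^ 1 := by norm_num
          _ ≤ 2 ^ l := pow_le_pow_right₀ (by norm_num) (by omega)
      rw [div_le_iff₀ (by positivity)]
      linarith
    refine le_VV h2 (hApos _ h2 (by linarith)) (a := C * η₂ * 2 ^ m) ?_ hη₂e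
    refine A_le_of hC.le h2 (up _ h2 h1 fun r hr hr' => (hl r hr hr').trans ?_)
      (hl _ (by linarith) (by linarith))
    have : 0 < r := by linarith
    gcongr

/-- **Main**, abstract form -/
theorem main_abs (hm : 1 ≤ m) (hc : 0 < c) (hK : 0 < K) (hC : 0 < C)
    (ht0 : 0 < t₀) (ht0' : t₀ ≤ 1 / 16) (hCb : Ca + 1 ≤ Cb) (hC9 : C9 ≤ Cb)
    (hη₂ : 0 < η₂) (hη₂b : η₂ ≤ η₁) (hη₂c : η₂ ≤ d) (hη₂d : η₂ ≤ dF)
    (hη₂e : C * η₂ * 2 ^ m ≤ Real.exp (-v₀))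
    (hS₁ : 1 ≤ S₁) (he : (S₁ + 4) ^ m * e ≤ η₂)
    (mono : ∀ a b, 0 < a → a ≤ b → D a ≤ D b)
    (hDe : ∀ r, 0 < r → r ≤ 1 / 8 → D r ≤ e * t₀ ^ m)
    (low : ∀ t, 0 < t → t ≤ 1 / 16 → c * (t ^ (2 - (m : ℤ)) * D (t / 2)) ≤ A t)
    (htop : A t₀ ≤ Real.exp (-v₀) * t₀ ^ 2)
    (up : ∀ t, 0 < t → t ≤ 1 / 32 → (∀ s, t ≤ s → s ≤ 1 / 8 → D s ≤ d * s ^ m) →
      A t ≤ C * (t ^ (2 - (m : ℤ)) * D (2 * t)))
    (qm : ∀ s, 0 < s → (∀ s', s ≤ s' → s' ≤ 1 / 8 → D s' ≤ η₁ * s' ^ m) → 0 < D s →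
      ∀ r r', 2 * s ≤ r → r ≤ r' → r' ≤ 2 * t₀ → A r ≤ K * A r')
    (hω : 0 < ω) (hden : ∃ t₁ : ℝ, 0 < t₁ ∧ ∀ t, 0 < t → t ≤ t₁ → ω * t ^ m ≤ D t)
    (num : ∀ v, v₀ ≤ v → MNum m Cb C9 (Ca + 2) c C K d v)
    (hqual : ∀ s, 0 < s → η₂ * s ^ m ≤ D s → (∀ r, s < r → r ≤ 1 / 8 → D r ≤ η₂ * r ^ m) →
      (∀ l : ℕ, 4 * s ≤ t₀ / 2 ^ l →
        1 * VV A (t₀ / 2 ^ l) ^ (2 * (Ca + 2)) * s ^ 2 ≤ A (t₀ / 2 ^ l) → ¬ Ev l) →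
      ∀ l : ℕ, S₁ * s ≤ t₀ / 2 ^ l →
        1 * VV A (t₀ / 2 ^ l) ^ (2 * (Ca + 2)) * s ^ 2 ≤ A (t₀ / 2 ^ l))
    (HF : ∀ (t r₁ : ℝ), 0 < r₁ → r₁ ≤ t / 2 → t ≤ t₀ → v₀ ≤ VV A t →
      (VV A t ^ Cb)⁻¹ * r₁ ^ m ≤ D r₁ →
      (∀ r, r₁ < r → r ≤ t / 2 → D r ≤ (VV A t ^ Cb)⁻¹ * r ^ m) →
      (∀ r, t / 2 ≤ r → r ≤ 1 / 8 → D r ≤ dF * r ^ m) →
      (∀ l : ℕ, 4 * r₁ ≤ t₀ / 2 ^ l → t₀ / 2 ^ l ≤ t →
        2 * Real.log (t₀ / 2 ^ l / r₁) ≤ √(VV A t) → ¬ Ev l) →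
      VV A t ^ (Ca + 1) * A (4 * r₁) < A t)
    (HC : ∀ (t r0 s : ℝ), t ≤ t₀ → 0 < s → 2 * s ≤ r0 → r0 ≤ t →
      (∀ r, s ≤ r → r ≤ 1 / 8 → D r ≤ η₁ * r ^ m) → 0 < D s → v₀ ≤ VV A t →
      VV A t ^ (Ca + 1) * A r0 ≤ A t →
      (∀ r, r0 ≤ r → r ≤ t / 2 → D r ≤ (VV A t ^ (Ca + 1))⁻¹ * r ^ m) →
      (∀ r, 0 < r → (VV A t ^ Ca)⁻¹ * A t ≤ r ^ 2 → 2 * s ≤ r) →
      ∃ ra, CollA A Ca (VV A t) t ra) :
    ∃ i : ℕ, (i = 0 ∨ Ev i) ∧ v₀ ≤ VV A (t₀ / 2 ^ i) ∧ (ω ≤ (VV A (t₀ / 2 ^ i) ^ C9)⁻¹ ∨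
      ∃ ra, CollA A Ca (VV A (t₀ / 2 ^ i)) (t₀ / 2 ^ i) ra) := by
  have hDpos : ∀ r, 0 < r → 0 < D r := by
    obtain ⟨t₁, ht₁, hden⟩ := hden
    intro r hr
    have h1 : 0 < min r t₁ := lt_min hr ht₁
    have h2 := hden (min r t₁) h1 (min_le_right _ _)
    have h3 := mono (min r t₁) r h1 (min_le_left _ _)
    have h4 : 0 < ω * (min r t₁) ^ m := by positivity
    linarith
  have hTpos : ∀ l : ℕ, 0 < t₀ / 2 ^ l := fun l => by positivity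
  have hTle : ∀ l : ℕ, t₀ / 2 ^ l ≤ t₀ := fun l => div_le_self ht0.le (one_le_pow₀ (by norm_num))
  have hApos : ∀ t, 0 < t → t ≤ 1 / 16 → 0 < A t := by
    intro t h1 h2
    refine lt_of_lt_of_le ?_ (low t h1 h2)
    have := hDpos (t / 2) (by positivity)
    positivity
  have htopV : v₀ ≤ VV A t₀ := le_VV ht0 (hApos t₀ ht0 ht0') htop le_rfl
  by_cases hs : ∃ r, 0 < r ∧ r ≤ 1 / 8 ∧ η₂ * r ^ m ≤ D r
  · -- Case B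
    obtain ⟨r, hr, hr8, hrη⟩ := hs
    obtain ⟨s, hs1, hs2, hs3, hs4⟩ := last_scale hr hr8 mono hrη
    have hs0 : 0 < s := hr.trans_le hs1
    have hSs : (S₁ + 4) * s ≤ t₀ := by
      have h1 : ((S₁ + 4) * s) ^ m ≤ t₀ ^ m := by
        have h2 : η₂ * ((S₁ + 4) * s) ^ m ≤ η₂ * t₀ ^ m := by
          calc η₂ * ((S₁ + 4) * s) ^ m = (S₁ + 4) ^ m * (η₂ * s ^ m) := by rw [mul_pow]; ring
            _ ≤ (S₁ + 4) ^ m * (e * t₀ ^ m) := by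
                have := hs3.trans (hDe s hs0 hs2)
                gcongr
            _ = ((S₁ + 4) ^ m * e) * t₀ ^ m := by ring
            _ ≤ η₂ * t₀ ^ m := by gcongr
        exact le_of_mul_le_mul_left h2 hη₂
      exact le_of_pow_le_pow_left₀ (by omega) ht0.le h1
    have hs4t : 4 * s ≤ t₀ := by nlinarith
    have hsS : S₁ * s ≤ t₀ := by nlinarith
    have hsη₂ : ∀ r, s ≤ r → r ≤ 1 / 8 → D r ≤ η₂ * r ^ m := by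
      intro r h1 h2
      rcases h1.eq_or_lt with h3 | h3
      · rw [← h3]
        exact le_of_right (b := 1 / 8) (by linarith) hs0 mono fun q h4 h5 => (hs4 q h4 h5).le
      · exact (hs4 r h3 h2).le
    have hsη₁ : ∀ r, s ≤ r → r ≤ 1 / 8 → D r ≤ η₁ * r ^ m := fun r h1 h2 =>
      (hsη₂ r h1 h2).trans (mul_le_mul_of_nonneg_right hη₂b (pow_nonneg (by linarith) m))
    have hsd : ∀ r, s ≤ r → r ≤ 1 / 8 → D r ≤ d * r ^ m := fun r h1 h2 =>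
      (hsη₂ r h1 h2).trans (mul_le_mul_of_nonneg_right hη₂c (pow_nonneg (by linarith) m))
    have hsdF : ∀ r, s ≤ r → r ≤ 1 / 8 → D r ≤ dF * r ^ m := fun r h1 h2 =>
      (hsη₂ r h1 h2).trans (mul_le_mul_of_nonneg_right hη₂d (pow_nonneg (by linarith) m))
    have hDs := hDpos s hs0
    have hlevs : ∀ l : ℕ, 4 * s ≤ t₀ / 2 ^ l → v₀ ≤ VV A (t₀ / 2 ^ l) :=
      fun l hl => level_V hC ht0 ht0' hApos up htopV hη₂c hη₂e l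
        fun r h1 h2 => hsη₂ r (by linarith) h2
    obtain ⟨i, hi, hvi, h⟩ := caseB (Ev := Ev) (C9 := C9) (q := Ca + 2) hc hK hC ht0 ht0' hCb
      le_rfl hs0 mono low
      (fun t h1 h2 => up t (by linarith) h2 fun r h3 h4 => hsd r (by linarith) h4)
      (qm s hs0 hsη₁ hDs) hDs num hlevs hsd hs4t
      (by
        intro hno
        have h1 := hqual s hs0 hs3 (fun r hr hr' => hsη₂ r hr.le hr')
          (fun l hl hl2 => hno l hl (by rw [one_mul] at hl2; exact hl2)) 0 (by simpa using hsS)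
        rw [one_mul, pow_zero, div_one] at h1
        exact h1)
      (fun i r₁ hi4 h1 h2 h3 h4 h5 => HF (t₀ / 2 ^ i) r₁ (by linarith) h2 (hTle i)
        (hlevs i hi4) h3 h4 (fun r h6 h7 => hsdF r (by linarith) h7) h5)
      (fun i r0 hi4 h1 h2 h3 h4 h5 => HC (t₀ / 2 ^ i) r0 s (hTle i) hs0 h1 h2 hsη₁ hDs
        (hlevs i hi4) h3 h4 h5)
    exact ⟨i, hi, hvi, Or.inr h⟩
  · -- Case A
    push Not at hs
    have hsη₂ : ∀ r, 0 < r → r ≤ 1 / 8 → D r ≤ η₂ * r ^ m := fun r h1 h2 => (hs r h1 h2).le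
    have hsη₁ : ∀ r, 0 < r → r ≤ 1 / 8 → D r ≤ η₁ * r ^ m := fun r h1 h2 =>
      (hsη₂ r h1 h2).trans (mul_le_mul_of_nonneg_right hη₂b (pow_nonneg h1.le m))
    have hsdF : ∀ r, 0 < r → r ≤ 1 / 8 → D r ≤ dF * r ^ m := fun r h1 h2 =>
      (hsη₂ r h1 h2).trans (mul_le_mul_of_nonneg_right hη₂d (pow_nonneg h1.le m))
    have hlevs : ∀ l : ℕ, v₀ ≤ VV A (t₀ / 2 ^ l) := fun l =>
      level_V hC ht0 ht0' hApos up htopV hη₂c hη₂e l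
        fun r h1 h2 => hsη₂ r ((hTpos l).trans_le h1) h2
    obtain ⟨i, hi, h⟩ := caseA (Ev := Ev) (C9 := C9) (q := Ca + 2) hc ht0 ht0' hCb hC9 mono low
      hω hden num hlevs hsη₁
      (fun i r₁ h1 h2 h3 h4 h5 => HF (t₀ / 2 ^ i) r₁ h1 h2 (hTle i) (hlevs i) h3 h4
        (fun r h6 h7 => hsdF r (by linarith [hTpos i]) h7) h5)
      (fun i s r0 hs0 h1 h2 h3 h4 h5 h6 h7 => HC (t₀ / 2 ^ i) r0 s (hTle i) hs0 h1 h2 h3 h4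
        (hlevs i) h5 h6 h7)
    exact ⟨i, hi, hlevs i, h⟩

end Vale.Agent.P214.PATHG.MN
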