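import Mathlib

/-!
# P214, block BoxPath, (QUAL): the real analysis

`A` = the quantity `AA x`, `X` = the excess `exc x`, `v t = log (t² / A t)`.
-/

open Set Filter Topology

set_option linter.all false

namespace Vale.Agent.P214.PATHG

/-- constants of the failing scale -/
lemma exists_V (Cb : ℕ) (c1 c2 c3 d v₀ : ℝ) (hc1 : 0 ≤ c1) (hc2 : 0 ≤ c2) (hd : 0 < d) :
    ∃ V : ℝ, 1 ≤ V ∧ ∀ v, V ≤ v → c1 * v ^ Cb < Real.exp v ∧
      c2 * v ^ Cb * Real.exp (√v) < Real.exp v ∧ 1 / d < v ∧ v₀ ≤ v ∧ 1 ≤ v ∧ c3 ≤ v := by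
  have h3 : ∀ᶠ v : ℝ in atTop, c1 * v ^ Cb < Real.exp v := by
    have h := (Real.tendsto_pow_mul_exp_neg_atTop_nhds_zero Cb).const_mul c1
    rw [mul_zero] at h
    filter_upwards [h.eventually (gt_mem_nhds zero_lt_one)] with v hv
    have he := Real.exp_pos v
    have : c1 * v ^ Cb = (c1 * (v ^ Cb * Real.exp (-v))) * Real.exp v := by
      rw [Real.exp_neg]; field_simp
    rw [this]
    nlinarith
  have h4 : ∀ᶠ v : ℝ in atTop, c2 * v ^ Cb * Real.exp (√v) < Real.exp v := by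
    have h0 : Tendsto (fun v : ℝ => v / 2) atTop atTop := tendsto_id.atTop_div_const two_pos
    have h := ((Real.tendsto_pow_mul_exp_neg_atTop_nhds_zero Cb).comp h0).const_mul (c2 * 2 ^ Cb)
    rw [mul_zero] at h
    filter_upwards [h.eventually (gt_mem_nhds zero_lt_one), eventually_ge_atTop 4] with v hv hv4
    have he := Real.exp_pos v
    have h5 : √v ≤ v / 2 := by
      rw [Real.sqrt_le_left (by linarith)]
      nlinarith
    have h6 : c2 * v ^ Cb * Real.exp (v / 2) =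
        (c2 * 2 ^ Cb * (((v / 2) ^ Cb) * Real.exp (-(v / 2)))) * Real.exp v := by
      have h7 : Real.exp v = Real.exp (v / 2) * Real.exp (v / 2) := by
        rw [← Real.exp_add]; congr 1; ring
      rw [h7, Real.exp_neg, div_pow]; field_simp
    have h8 : c2 * v ^ Cb * Real.exp (√v) ≤ c2 * v ^ Cb * Real.exp (v / 2) := by gcongr
    simp only [Function.comp_apply] at hv
    rw [h6] at h8
    refine h8.trans_lt ?_
    nlinarith
  obtain ⟨V, hV⟩ := ((h3.and h4).and ((eventually_gt_atTop (1 / d)).and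
    ((eventually_ge_atTop v₀).and ((eventually_ge_atTop 1).and
      (eventually_ge_atTop c3))))).exists_forall_of_atTop
  refine ⟨max V 1, le_max_right _ _, fun v hv => ?_⟩
  obtain ⟨⟨a1, a2⟩, a4, a5, a6, a7⟩ := hV v ((le_max_left _ _).trans hv)
  exact ⟨a1, a2, a4, a5, a6, a7⟩

/-- **Phase 1**: after the growth has started every scale is qualified. -/
lemma phase1 {A : ℝ → ℝ} {q : ℕ} {s o u κ Cs g₀ Kq : ℝ} (hs : 0 < s) (ho1 : 2 * s ≤ o)
    (ho2 : o ≤ κ * (2 * s)) (hκ : 1 ≤ κ) (hCs : 1 ≤ Cs) (hg : 0 < g₀) (hK : 0 < Kq)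
    (hA2 : g₀ * s ^ 2 ≤ A (2 * s)) (hle : A (o * Real.exp u) ≤ (o * Real.exp u) ^ 2)
    (hgr : (1 + u / κ) ^ (q + 1) * A (2 * s) ≤ Cs * A (o * Real.exp u)) (hu0 : 0 ≤ u)
    (hu1 : Real.log (4 * κ ^ 2 * Cs / g₀) ≤ u) (hu2 : Kq * Cs * 3 ^ q * κ ^ (q + 1) / g₀ ≤ u) :
    Kq * Real.log ((o * Real.exp u) ^ 2 / A (o * Real.exp u)) ^ q * s ^ 2
      ≤ A (o * Real.exp u) := by
  have ho : 0 < o := by linarith
  have hκ0 : 0 < κ := by linarith
  have hCs0 : 0 < Cs := by linarith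
  have hA20 : 0 < A (2 * s) := lt_of_lt_of_le (by positivity) hA2
  have hr0 : 0 < o * Real.exp u := by positivity
  set X := A (o * Real.exp u) with hX
  have hX1 : A (2 * s) ≤ Cs * X := by
    refine le_trans ?_ hgr
    have : (1 : ℝ) ≤ (1 + u / κ) ^ (q + 1) := one_le_pow₀ (by
      have : 0 ≤ u / κ := by positivity
      linarith)
    nlinarith
  have hX0 : 0 < X := by
    by_contra h
    have : Cs * X ≤ 0 := mul_nonpos_of_nonneg_of_nonpos hCs0.le (not_lt.1 h)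
    linarith
  set w := Real.log ((o * Real.exp u) ^ 2 / X) with hw
  have hw0 : 0 ≤ w := Real.log_nonneg (by rw [le_div_iff₀ hX0, one_mul]; exact hle)
  have hw3 : w ≤ 3 * u := by
    have h1 : (o * Real.exp u) ^ 2 / X ≤ (4 * κ ^ 2 * Cs / g₀) * Real.exp (2 * u) := by
      have h2 : g₀ * s ^ 2 / Cs ≤ X := by
        rw [div_le_iff₀ hCs0, mul_comm X]; exact hA2.trans hX1
      have h3 : 0 < g₀ * s ^ 2 / Cs := by positivity
      calc (o * Real.exp u) ^ 2 / X ≤ (κ * (2 * s) * Real.exp u) ^ 2 / (g₀ * s ^ 2 / Cs) := by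
            gcongr
        _ = (4 * κ ^ 2 * Cs / g₀) * Real.exp (2 * u) := by
            have : Real.exp (2 * u) = Real.exp u ^ 2 := by
              rw [← Real.exp_nat_mul]; norm_num
            rw [this]
            field_simp
            ring
    have h4 := Real.log_le_log (by positivity) h1
    rw [Real.log_mul (by positivity) (Real.exp_ne_zero _), Real.log_exp] at h4
    linarith
  have h5 : w ^ q ≤ (3 * u) ^ q := by gcongr
  have h6 : u ^ (q + 1) / κ ^ (q + 1) * A (2 * s) ≤ Cs * X := by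
    refine le_trans ?_ hgr
    rw [← div_pow]
    gcongr
    linarith
  have h7 : Kq * (3 * u) ^ q * Cs ≤ u ^ (q + 1) / κ ^ (q + 1) * g₀ := by
    rw [div_mul_eq_mul_div, le_div_iff₀ (by positivity), mul_pow]
    rw [div_le_iff₀ hg] at hu2
    calc Kq * (3 ^ q * u ^ q) * Cs * κ ^ (q + 1) = (Kq * Cs * 3 ^ q * κ ^ (q + 1)) * u ^ q := by ring
      _ ≤ (u * g₀) * u ^ q := by gcongr
      _ = u ^ (q + 1) * g₀ := by ring
  have h8 : Cs * (Kq * w ^ q * s ^ 2) ≤ Cs * X := by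
    calc Cs * (Kq * w ^ q * s ^ 2) ≤ Cs * (Kq * (3 * u) ^ q * s ^ 2) := by gcongr
      _ = Kq * (3 * u) ^ q * Cs * s ^ 2 := by ring
      _ ≤ u ^ (q + 1) / κ ^ (q + 1) * g₀ * s ^ 2 := by gcongr
      _ = u ^ (q + 1) / κ ^ (q + 1) * (g₀ * s ^ 2) := by ring
      _ ≤ u ^ (q + 1) / κ ^ (q + 1) * A (2 * s) := by gcongr
      _ ≤ Cs * X := h6
  exact le_of_mul_le_mul_left h8 hCs0

section fail

variable {A X : ℝ → ℝ} {m q Cb : ℕ} {s t r L c Cv g₀ Kq κ w U d : ℝ}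

/-- The excess at `t / 2` is below the threshold. -/
lemma fail_top (ht : 0 < t) (hc : 0 < c) (hlow : c * X (t / 2) * t ^ 2 ≤ A t * t ^ m)
    (hA : 0 < A t) (hv : 0 < Real.log (t ^ 2 / A t))
    (h3 : 2 ^ m / c * Real.log (t ^ 2 / A t) ^ Cb < Real.exp (Real.log (t ^ 2 / A t))) :
    X (t / 2) < (Real.log (t ^ 2 / A t) ^ Cb)⁻¹ * (t / 2) ^ m := by
  set v := Real.log (t ^ 2 / A t) with hvd
  have hAe : A t * Real.exp v = t ^ 2 := by
    rw [hvd, Real.exp_log (by positivity)]; field_simp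
  rw [← div_eq_inv_mul, lt_div_iff₀ (by positivity)]
  by_cases hX : X (t / 2) ≤ 0
  · have h1 : X (t / 2) * v ^ Cb ≤ 0 := mul_nonpos_of_nonpos_of_nonneg hX (by positivity)
    have h2 : 0 < (t / 2) ^ m := by positivity
    linarith
  · rw [not_le] at hX
    have h5 : X (t / 2) * Real.exp v ≤ t ^ m / c := by
      have h6 : t ^ 2 * (c * (X (t / 2) * Real.exp v)) ≤ t ^ 2 * t ^ m := by
        calc t ^ 2 * (c * (X (t / 2) * Real.exp v))
            = c * X (t / 2) * t ^ 2 * Real.exp v := by ring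
          _ ≤ A t * t ^ m * Real.exp v := by gcongr
          _ = (A t * Real.exp v) * t ^ m := by ring
          _ = _ := by rw [hAe]
      have h8 := le_of_mul_le_mul_left h6 (by positivity)
      rw [le_div_iff₀ hc]
      linarith
    have h9 : t ^ m / c = (t / 2) ^ m * (2 ^ m / c) := by rw [div_pow]; field_simp
    have h10 : X (t / 2) * v ^ Cb * Real.exp v < (t / 2) ^ m * Real.exp v := by
      calc X (t / 2) * v ^ Cb * Real.exp v = (X (t / 2) * Real.exp v) * v ^ Cb := by ring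
        _ ≤ (t ^ m / c) * v ^ Cb := by gcongr
        _ = (t / 2) ^ m * (2 ^ m / c * v ^ Cb) := by rw [h9]; ring
        _ < _ := mul_lt_mul_of_pos_left h3 (by positivity)
    exact lt_of_mul_lt_mul_right h10 (Real.exp_pos v).le

/-- The excess is above the threshold at the scale `4 w`, `w = o e^U`. -/
lemma fail_big (hs : 0 < s) (hκ : 1 ≤ κ) (hw : w ≤ κ * (2 * s) * Real.exp U) (hw0 : 0 < w)
    (hL : 0 < L) (hCv : 0 < Cv) (hg : 0 < g₀) (hA2 : g₀ * s ^ 2 ≤ A (2 * s))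
    (hm : A (2 * s) ≤ L * A (2 * w))
    (hup : A (2 * w) * (2 * w) ^ m ≤ Cv * X (4 * w) * (2 * w) ^ 2) :
    g₀ * Real.exp (-(2 * U)) / (16 * κ ^ 2 * L * Cv * 2 ^ m) * (4 * w) ^ m ≤ X (4 * w) := by
  have hκ0 : 0 < κ := by linarith
  have h1 : w ^ 2 ≤ 4 * κ ^ 2 * s ^ 2 * Real.exp (2 * U) := by
    calc w ^ 2 ≤ (κ * (2 * s) * Real.exp U) ^ 2 := by gcongr
      _ = _ := by
        have : Real.exp (2 * U) = Real.exp U ^ 2 := by rw [← Real.exp_nat_mul]; norm_num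
        rw [this]; ring
  have h2 : g₀ * s ^ 2 * (2 * w) ^ m ≤ L * Cv * X (4 * w) * (2 * w) ^ 2 := by
    calc g₀ * s ^ 2 * (2 * w) ^ m ≤ (L * A (2 * w)) * (2 * w) ^ m :=
          mul_le_mul_of_nonneg_right (hA2.trans hm) (by positivity)
      _ = L * (A (2 * w) * (2 * w) ^ m) := by ring
      _ ≤ L * (Cv * X (4 * w) * (2 * w) ^ 2) := by gcongr
      _ = _ := by ring
  have h3 : w ^ 2 * (g₀ * (2 * w) ^ m) ≤
      w ^ 2 * (16 * κ ^ 2 * Real.exp (2 * U) * (L * Cv * X (4 * w))) := by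
    calc w ^ 2 * (g₀ * (2 * w) ^ m)
        ≤ (4 * κ ^ 2 * s ^ 2 * Real.exp (2 * U)) * (g₀ * (2 * w) ^ m) := by gcongr
      _ = 4 * κ ^ 2 * Real.exp (2 * U) * (g₀ * s ^ 2 * (2 * w) ^ m) := by ring
      _ ≤ 4 * κ ^ 2 * Real.exp (2 * U) * (L * Cv * X (4 * w) * (2 * w) ^ 2) := by gcongr
      _ = _ := by ring
  have h4 := le_of_mul_le_mul_left h3 (by positivity)
  have h5 : g₀ * Real.exp (-(2 * U)) / (16 * κ ^ 2 * L * Cv * 2 ^ m) * (4 * w) ^ m =
      (g₀ * (2 * w) ^ m) / (16 * κ ^ 2 * Real.exp (2 * U) * (L * Cv)) := by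
    have e1 : (4 * w) ^ m = 2 ^ m * (2 * w) ^ m := by rw [← mul_pow]; congr 1; ring
    rw [e1, Real.exp_neg]
    field_simp
  rw [h5, div_le_iff₀ (by positivity)]
  calc g₀ * (2 * w) ^ m ≤ 16 * κ ^ 2 * Real.exp (2 * U) * (L * Cv * X (4 * w)) := h4
    _ = _ := by ring

/-- the threshold at large cost is below `d` -/
lemma thr_lt {v : ℝ} (hd : 0 < d) (hCb : 1 ≤ Cb) (h1 : 1 ≤ v) (h2 : 1 / d < v) :
    (v ^ Cb)⁻¹ < d := by
  have h3 : v ≤ v ^ Cb := le_self_pow₀ h1 (by omega)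
  have h4 : 1 / d < v ^ Cb := h2.trans_le h3
  rw [one_div] at h4
  exact inv_lt_of_inv_lt₀ hd h4

/-- The scale `t` itself is far above `r`: `√v < 2 log (t / r)`. -/
lemma fail_far (hr : 0 < r) (hrt : 4 * r ≤ t) (hc : 0 < c) (hL : 0 < L)
    (hA : 0 < A t) (hv : 0 < Real.log (t ^ 2 / A t))
    (hX : (Real.log (t ^ 2 / A t) ^ Cb)⁻¹ * r ^ m ≤ X (2 * r))
    (hlow : c * X (2 * r) * (4 * r) ^ 2 ≤ A (4 * r) * (4 * r) ^ m)
    (hm : A (4 * r) ≤ L * A t)
    (h3 : 4 ^ m * L / (16 * c) * Real.log (t ^ 2 / A t) ^ Cb *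
      Real.exp (√(Real.log (t ^ 2 / A t))) < Real.exp (Real.log (t ^ 2 / A t))) :
    √(Real.log (t ^ 2 / A t)) < 2 * Real.log (t / r) := by
  set v := Real.log (t ^ 2 / A t) with hvd
  have ht : 0 < t := by linarith
  by_contra hcon
  rw [not_lt] at hcon
  have hAe : A t * Real.exp v = t ^ 2 := by
    rw [hvd, Real.exp_log (by positivity)]; field_simp
  have h1 : t ^ 2 ≤ r ^ 2 * Real.exp (√v) := by
    have h2 : (t / r) ^ 2 ≤ Real.exp (√v) := by
      have h4 : Real.exp (2 * Real.log (t / r)) = (t / r) ^ 2 := by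
        rw [mul_comm, Real.exp_mul, Real.exp_log (by positivity)]
        norm_num
      rw [← h4]
      exact Real.exp_le_exp.2 hcon
    rw [div_pow, div_le_iff₀ (by positivity)] at h2
    linarith
  have h5 : c * ((v ^ Cb)⁻¹ * r ^ m) * (4 * r) ^ 2 ≤ L * A t * (4 * r) ^ m := by
    calc c * ((v ^ Cb)⁻¹ * r ^ m) * (4 * r) ^ 2 ≤ c * X (2 * r) * (4 * r) ^ 2 := by gcongr
      _ ≤ A (4 * r) * (4 * r) ^ m := hlow
      _ ≤ _ := by gcongr
  have h6 : r ^ m * (16 * c * r ^ 2) ≤ r ^ m * (4 ^ m * L * A t * v ^ Cb) := by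
    have h7 : v ^ Cb * (c * ((v ^ Cb)⁻¹ * r ^ m) * (4 * r) ^ 2)
        ≤ v ^ Cb * (L * A t * (4 * r) ^ m) := by gcongr
    have h8 : v ^ Cb * (c * ((v ^ Cb)⁻¹ * r ^ m) * (4 * r) ^ 2) = r ^ m * (16 * c * r ^ 2) := by
      field_simp
      ring
    rw [h8, mul_pow] at h7
    linarith
  have h9 := le_of_mul_le_mul_left h6 (by positivity)
  have h10 : r ^ 2 * Real.exp v ≤ r ^ 2 * (4 ^ m * L / (16 * c) * v ^ Cb * Real.exp (√v)) := by
    have h11 : r ^ 2 ≤ 4 ^ m * L / (16 * c) * v ^ Cb * A t := by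
      rw [div_mul_eq_mul_div, div_mul_eq_mul_div, le_div_iff₀ (by positivity)]
      linarith
    calc r ^ 2 * Real.exp v ≤ (4 ^ m * L / (16 * c) * v ^ Cb * A t) * Real.exp v := by gcongr
      _ = 4 ^ m * L / (16 * c) * v ^ Cb * (A t * Real.exp v) := by ring
      _ = 4 ^ m * L / (16 * c) * v ^ Cb * t ^ 2 := by rw [hAe]
      _ ≤ 4 ^ m * L / (16 * c) * v ^ Cb * (r ^ 2 * Real.exp (√v)) := by gcongr
      _ = _ := by ring
  have h12 := le_of_mul_le_mul_left h10 (by positivity)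
  linarith

/-- The contradiction at the failing scale. -/
lemma fail_end (hs : 0 < s) (hL : 1 ≤ L) (hK : 0 < Kq) (hg : 0 < g₀)
    (hA2 : g₀ * s ^ 2 ≤ A (2 * s)) (hm1 : A (2 * s) ≤ L * A r)
    (hfail : A t < Kq * Real.log (t ^ 2 / A t) ^ q * s ^ 2)
    (hgr : Real.log (t ^ 2 / A t) ^ (q + 1) * A r < A t)
    (hv0 : 0 < Real.log (t ^ 2 / A t))
    (hbig : L * Kq / g₀ ≤ Real.log (t ^ 2 / A t)) : False := by
  set v := Real.log (t ^ 2 / A t) with hvd
  have hL0 : 0 < L := by linarith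
  have h1 : v ^ (q + 1) * (g₀ * s ^ 2) < (L * Kq * v ^ q) * s ^ 2 := by
    calc v ^ (q + 1) * (g₀ * s ^ 2) ≤ v ^ (q + 1) * (L * A r) :=
          mul_le_mul_of_nonneg_left (hA2.trans hm1) (by positivity)
      _ = L * (v ^ (q + 1) * A r) := by ring
      _ < L * A t := mul_lt_mul_of_pos_left hgr hL0
      _ ≤ L * (Kq * v ^ q * s ^ 2) := by gcongr
      _ = _ := by ring
  have h2 : v ^ q * s ^ 2 * (v * g₀) < v ^ q * s ^ 2 * (L * Kq) := by
    calc _ = v ^ (q + 1) * (g₀ * s ^ 2) := by ring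
      _ < _ := h1
      _ = _ := by ring
  have h3 := lt_of_mul_lt_mul_left h2 (by positivity)
  rw [div_le_iff₀ hg] at hbig
  linarith

end fail

end Vale.Agent.P214.PATHG
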