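import Vale.Agent.P214.PATHG.QualA

/-!
# P214, block BoxPath, (QUAL): one step and the induction over the levels (real analysis)
-/

open Set Filter Topology

set_option linter.all false

namespace Vale.Agent.P214.PATHG

/-- the data at one centre -/
structure QD (A X : ℝ → ℝ) (m q Cb : ℕ) (s t₀ c CV L g₀ Kq κ o U V Φ CS v₀ : ℝ)
    (Evp : ℕ → Prop) : Prop where
  hs : 0 < s
  ht0 : 0 < t₀
  ht0' : t₀ ≤ 1 / 16
  hc : 0 < c
  hCV : 0 < CV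
  hL : 1 ≤ L
  hg : 0 < g₀
  hK : 0 < Kq
  hκ : 1 ≤ κ
  hCS : 1 ≤ CS
  hCb : 1 ≤ Cb
  low : ∀ t, 0 < t → t ≤ 1 / 16 → c * X (t / 2) * t ^ 2 ≤ A t * t ^ m
  up : ∀ t, s ≤ t → t ≤ 1 / 32 → A t * t ^ m ≤ CV * X (2 * t) * t ^ 2
  A2 : g₀ * s ^ 2 ≤ A (2 * s)
  mono : ∀ r r', 2 * s ≤ r → r ≤ r' → r' ≤ 2 * t₀ → A r ≤ L * A r'
  Ale : ∀ t, 2 * s ≤ t → t ≤ 1 / 16 → A t ≤ t ^ 2
  Xmono : ∀ r r', r ≤ r' → X r ≤ X r'
  o1 : 2 * s ≤ o
  o2 : o ≤ κ * (2 * s)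
  oΦ : o * Real.exp Φ ≤ t₀ / 40
  grow : ∀ u, 0 ≤ u → u ≤ Φ → (1 + u / κ) ^ (q + 1) * A (2 * s) ≤ CS * A (o * Real.exp u)
  U1a : Real.log (4 * κ ^ 2 * CS / g₀) ≤ U
  U1b : Kq * CS * 3 ^ q * κ ^ (q + 1) / g₀ ≤ U
  U1c : 1 ≤ U
  Φ1 : U + 3 ≤ Φ
  Φ2 : κ * (Kq * (L * CS) / g₀ * V ^ q) ≤ Φ
  V1 : 1 ≤ V
  V2 : ∀ v, V ≤ v → 2 ^ m / c * v ^ Cb < Real.exp v ∧
      4 ^ m * L / (16 * c) * v ^ Cb * Real.exp (√v) < Real.exp v ∧
      1 / (g₀ * Real.exp (-(2 * U)) / (16 * κ ^ 2 * L * CV * 2 ^ m)) < v ∧ v₀ ≤ v ∧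
      1 ≤ v ∧ L * Kq / g₀ ≤ v
  last : ∀ τ r₀ : ℝ, (∃ r, 0 < r ∧ r ≤ r₀ ∧ τ * r ^ m < X r) → X r₀ < τ * r₀ ^ m →
    ∃ r, 0 < r ∧ r < r₀ ∧ X r = τ * r ^ m ∧ ∀ r', r < r' → r' ≤ r₀ → X r' < τ * r' ^ m
  flat : ∀ r₁ t : ℝ, 4 * s ≤ r₁ → r₁ ≤ t / 2 → t ≤ t₀ → v₀ ≤ Real.log (t ^ 2 / A t) →
    (Real.log (t ^ 2 / A t) ^ Cb)⁻¹ * r₁ ^ m ≤ X r₁ →
    (∀ r, r₁ < r → r ≤ t / 2 → X r ≤ (Real.log (t ^ 2 / A t) ^ Cb)⁻¹ * r ^ m) →
    (∀ l : ℕ, 4 * r₁ ≤ t₀ / 2 ^ l → t₀ / 2 ^ l ≤ t →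
      2 * Real.log (t₀ / 2 ^ l / r₁) ≤ √(Real.log (t ^ 2 / A t)) → ¬ Evp l) →
    Real.log (t ^ 2 / A t) ^ (q + 1) * A (4 * r₁) < A t
  noev : ∀ l : ℕ, 4 * s ≤ t₀ / 2 ^ l →
    Kq * Real.log ((t₀ / 2 ^ l) ^ 2 / A (t₀ / 2 ^ l)) ^ q * s ^ 2 ≤ A (t₀ / 2 ^ l) → ¬ Evp l

namespace QD

variable {A X : ℝ → ℝ} {m q Cb : ℕ} {s t₀ c CV L g₀ Kq κ o U V Φ CS v₀ : ℝ} {Evp : ℕ → Prop}

lemma Apos (D : QD A X m q Cb s t₀ c CV L g₀ Kq κ o U V Φ CS v₀ Evp) {r : ℝ}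
    (h1 : 2 * s ≤ r) (h2 : r ≤ 2 * t₀) : 0 < A r := by
  have hs := D.hs
  have hg := D.hg
  have hL := D.hL
  have h3 := D.mono (2 * s) r le_rfl h1 h2
  have h5 : 0 < g₀ * s ^ 2 := by positivity
  have h6 := D.A2
  by_contra h4
  have : L * A r ≤ 0 := mul_nonpos_of_nonneg_of_nonpos (by linarith) (not_lt.1 h4)
  linarith

lemma w_bounds (D : QD A X m q Cb s t₀ c CV L g₀ Kq κ o U V Φ CS v₀ Evp) :
    20 * (o * Real.exp U) ≤ o * Real.exp Φ ∧ 4 * s ≤ o * Real.exp U := by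
  have hs := D.hs
  have ho1 := D.o1
  have ho0 : 0 < o := by linarith
  constructor
  · have h1 : Real.exp (U + 3) ≤ Real.exp Φ := Real.exp_le_exp.2 D.Φ1
    have h2 : (20 : ℝ) ≤ Real.exp 3 := by
      have h3 : Real.exp 3 = Real.exp 1 ^ 3 := by rw [← Real.exp_nat_mul]; norm_num
      rw [h3]
      have h4 := Real.exp_one_gt_d9
      have h5 : (2.7182818283 : ℝ) ^ 3 ≤ Real.exp 1 ^ 3 := by gcongr
      norm_num at h5 ⊢
      linarith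
    calc 20 * (o * Real.exp U) = o * (Real.exp U * 20) := by ring
      _ ≤ o * (Real.exp U * Real.exp 3) := by gcongr
      _ = o * Real.exp (U + 3) := by rw [Real.exp_add]
      _ ≤ _ := by gcongr
  · have h1 : (2 : ℝ) ≤ Real.exp U := by
      have h2 := Real.add_one_le_exp U
      have := D.U1c
      linarith
    calc 4 * s = (2 * s) * 2 := by ring
      _ ≤ o * Real.exp U := by gcongr

/-- phase 1 -/
lemma step1 (D : QD A X m q Cb s t₀ c CV L g₀ Kq κ o U V Φ CS v₀ Evp) {t : ℝ}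
    (h1 : o * Real.exp U ≤ t) (h2 : t ≤ o * Real.exp Φ) :
    Kq * Real.log (t ^ 2 / A t) ^ q * s ^ 2 ≤ A t := by
  have hs := D.hs
  have ho1 := D.o1
  have ht0 := D.ht0'
  have hoΦ := D.oΦ
  have hU1c := D.U1c
  have ho0 : 0 < o := by linarith
  obtain ⟨-, hw4⟩ := D.w_bounds
  have ht : 0 < t := by linarith
  obtain ⟨u, hud⟩ : ∃ u, u = Real.log (t / o) := ⟨_, rfl⟩
  have hou : o * Real.exp u = t := by
    rw [hud, Real.exp_log (by positivity)]; field_simp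
  have hUu : U ≤ u := by
    have h3 : o * Real.exp U ≤ o * Real.exp u := by rw [hou]; exact h1
    exact Real.exp_le_exp.1 (le_of_mul_le_mul_left h3 ho0)
  have huΦ : u ≤ Φ := by
    have h3 : o * Real.exp u ≤ o * Real.exp Φ := by rw [hou]; exact h2
    exact Real.exp_le_exp.1 (le_of_mul_le_mul_left h3 ho0)
  have h4 := phase1 (A := A) (q := q) (u := u) (Cs := CS) (Kq := Kq) hs ho1 D.o2 D.hκ D.hCS D.hg
    D.hK D.A2 (by rw [hou]; exact D.Ale t (by linarith) (by linarith))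
    (D.grow u (by linarith) huΦ) (by linarith) (D.U1a.trans hUu) (D.U1b.trans hUu)
  rwa [hou] at h4

/-- the cost at a failing scale is large -/
lemma cost_ge (D : QD A X m q Cb s t₀ c CV L g₀ Kq κ o U V Φ CS v₀ Evp) {t : ℝ}
    (h1 : o * Real.exp Φ < t) (h2 : t ≤ t₀)
    (hfail : A t < Kq * Real.log (t ^ 2 / A t) ^ q * s ^ 2) :
    V ≤ Real.log (t ^ 2 / A t) := by
  obtain ⟨hs, ht0, ht0', hc, hCV, hL, hg, hK, hκ, hCS, hCb, low, up, hA2, mono, Ale, Xmono, o1, o2,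
    oΦ, grow, U1a, U1b, U1c, Φ1, Φ2, V1, V2, last, flat, noev⟩ := id D
  obtain ⟨hw1, hw2⟩ := D.w_bounds
  have ho0 : 0 < o := by linarith
  have hκ0 : 0 < κ := by linarith
  have hL0 : 0 < L := by linarith
  have hCS0 : 0 < CS := by linarith
  have hw0 : 0 < o * Real.exp U := by positivity
  have hAt : 0 < A t := D.Apos (by linarith) (by linarith)
  have htA : A t ≤ t ^ 2 := Ale t (by linarith) (by linarith)
  obtain ⟨v, hvd⟩ : ∃ v, v = Real.log (t ^ 2 / A t) := ⟨_, rfl⟩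
  rw [← hvd] at hfail ⊢
  have hv0 : 0 ≤ v := by
    rw [hvd]; exact Real.log_nonneg (by rw [le_div_iff₀ hAt, one_mul]; exact htA)
  have hΦ0 : 0 ≤ Φ := by linarith
  have h3 := grow Φ hΦ0 le_rfl
  have h4 : A (o * Real.exp Φ) ≤ L * A t := mono _ _ (by linarith) h1.le (by linarith)
  have h6 : 0 ≤ Φ / κ := by positivity
  have h5 : Φ / κ ≤ (1 + Φ / κ) ^ (q + 1) := by
    calc Φ / κ ≤ 1 + Φ / κ := by linarith
      _ ≤ (1 + Φ / κ) ^ (q + 1) := le_self_pow₀ (by linarith) (by omega)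
  have h7 : Kq * (L * CS) / g₀ * V ^ q ≤ Φ / κ := by
    rw [le_div_iff₀ hκ0]; linarith
  have h8 : (L * CS) * (Kq * V ^ q * s ^ 2) < (L * CS) * (Kq * v ^ q * s ^ 2) := by
    calc (L * CS) * (Kq * V ^ q * s ^ 2)
        = (Kq * (L * CS) / g₀ * V ^ q) * (g₀ * s ^ 2) := by field_simp
      _ ≤ (1 + Φ / κ) ^ (q + 1) * A (2 * s) :=
          mul_le_mul (h7.trans h5) hA2 (by positivity) (by positivity)
      _ ≤ CS * A (o * Real.exp Φ) := h3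
      _ ≤ CS * (L * A t) := mul_le_mul_of_nonneg_left h4 hCS0.le
      _ = (L * CS) * A t := by ring
      _ < _ := mul_lt_mul_of_pos_left hfail (by positivity)
  have h9 := lt_of_mul_lt_mul_left h8 (by positivity)
  have h10 : V ^ q < v ^ q := by
    have h11 : (Kq * s ^ 2) * V ^ q < (Kq * s ^ 2) * v ^ q := by linarith
    exact lt_of_mul_lt_mul_left h11 (by positivity)
  exact (lt_of_pow_lt_pow_left₀ q hv0 h10).le

/-- the last scale below a failing scale -/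
lemma fail_last (D : QD A X m q Cb s t₀ c CV L g₀ Kq κ o U V Φ CS v₀ Evp) {t : ℝ}
    (h1 : o * Real.exp Φ < t) (h2 : t ≤ t₀) (hV : V ≤ Real.log (t ^ 2 / A t)) :
    ∃ r₁, 4 * (o * Real.exp U) ≤ r₁ ∧ r₁ < t / 2 ∧
      X r₁ = (Real.log (t ^ 2 / A t) ^ Cb)⁻¹ * r₁ ^ m ∧
      ∀ r, r₁ < r → r ≤ t / 2 → X r < (Real.log (t ^ 2 / A t) ^ Cb)⁻¹ * r ^ m := by
  obtain ⟨hs, ht0, ht0', hc, hCV, hL, hg, hK, hκ, hCS, hCb, low, up, hA2, mono, Ale, Xmono, o1, o2,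
    oΦ, grow, U1a, U1b, U1c, Φ1, Φ2, V1, V2, last, flat, noev⟩ := id D
  obtain ⟨hw1, hw2⟩ := D.w_bounds
  have ho0 : 0 < o := by linarith
  have hL0 : 0 < L := by linarith
  obtain ⟨w, hwd⟩ : ∃ w, w = o * Real.exp U := ⟨_, rfl⟩
  rw [← hwd] at hw1 hw2 ⊢
  have hw0 : 0 < w := by linarith
  have ht : 0 < t := by linarith
  have hAt : 0 < A t := D.Apos (by linarith) (by linarith)
  obtain ⟨n1, n2, n3, n4, n5, n6⟩ := V2 _ hV
  have htop := fail_top (A := A) (X := X) (m := m) (Cb := Cb) ht hc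
    (low t ht (by linarith)) hAt (by linarith) n1
  have hbig := fail_big (A := A) (X := X) (m := m) (w := w) (U := U) hs hκ
    (by rw [hwd]; gcongr) hw0 hL0 hCV hg hA2
    (mono _ _ le_rfl (by linarith) (by linarith))
    (by
      have := up (2 * w) (by linarith) (by linarith)
      rwa [show 2 * (2 * w) = 4 * w by ring] at this)
  have hthr := thr_lt (Cb := Cb) (by positivity) hCb n5 n3
  have h4w : (Real.log (t ^ 2 / A t) ^ Cb)⁻¹ * (4 * w) ^ m < X (4 * w) :=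
    lt_of_lt_of_le (mul_lt_mul_of_pos_right hthr (by positivity)) hbig
  obtain ⟨r₁, hr₁0, hr₁t, hr₁e, hr₁l⟩ := last _ (t / 2) ⟨4 * w, by positivity, by linarith, h4w⟩
    htop
  refine ⟨r₁, ?_, hr₁t, hr₁e, hr₁l⟩
  by_contra hcon
  rw [not_le] at hcon
  have h3 := hr₁l (4 * w) hcon (by linarith)
  linarith

/-- phase 2: no failing scale -/
lemma step2 (D : QD A X m q Cb s t₀ c CV L g₀ Kq κ o U V Φ CS v₀ Evp) {l : ℕ}
    (h1 : o * Real.exp Φ < t₀ / 2 ^ l)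
    (ih : ∀ l' : ℕ, o * Real.exp U ≤ t₀ / 2 ^ l' → t₀ / 2 ^ l' ≤ t₀ / 2 ^ l / 2 →
      Kq * Real.log ((t₀ / 2 ^ l') ^ 2 / A (t₀ / 2 ^ l')) ^ q * s ^ 2 ≤ A (t₀ / 2 ^ l')) :
    Kq * Real.log ((t₀ / 2 ^ l) ^ 2 / A (t₀ / 2 ^ l)) ^ q * s ^ 2 ≤ A (t₀ / 2 ^ l) := by
  obtain ⟨hs, ht0, ht0', hc, hCV, hL, hg, hK, hκ, hCS, hCb, low, up, hA2, mono, Ale, Xmono, o1, o2,
    oΦ, grow, U1a, U1b, U1c, Φ1, Φ2, V1, V2, last, flat, noev⟩ := id D
  obtain ⟨hw1, hw2⟩ := D.w_bounds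
  have hL0 : 0 < L := by linarith
  by_contra hfail
  rw [not_le] at hfail
  obtain ⟨t, htd⟩ : ∃ t, t = t₀ / 2 ^ l := ⟨_, rfl⟩
  have htl : t ≤ t₀ := by rw [htd]; exact div_le_self ht0.le (one_le_pow₀ (by norm_num))
  rw [← htd] at h1 ih hfail
  have hV := D.cost_ge h1 htl hfail
  obtain ⟨r₁, hr₁w, hr₁t, hr₁e, hr₁l⟩ := D.fail_last h1 htl hV
  obtain ⟨n1, n2, n3, n4, n5, n6⟩ := V2 _ hV
  have hr₁0 : 0 < r₁ := by linarith
  have hAt : 0 < A t := D.Apos (by linarith) (by linarith)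
  have hflat := flat r₁ t (by linarith) hr₁t.le htl n4 hr₁e.ge
    (fun r h3 h4 => (hr₁l r h3 h4).le) ?_
  · exact fail_end (A := A) (r := 4 * r₁) hs hL hK hg hA2
      (mono _ _ le_rfl (by linarith) (by linarith)) hfail hflat (by linarith) n6
  · intro l' h3 h4 h5
    have hlt : t₀ / 2 ^ l' < t := by
      refine lt_of_le_of_ne h4 fun heq => ?_
      rw [heq] at h3 h5
      have h6 := fail_far (A := A) (X := X) (m := m) (Cb := Cb) (c := c) (L := L)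
        hr₁0 h3 hc hL0 hAt (by linarith) (hr₁e.ge.trans (Xmono _ _ (by linarith)))
        (by
          have := low (4 * r₁) (by linarith) (by linarith)
          rwa [show 4 * r₁ / 2 = 2 * r₁ by ring] at this)
        (mono _ _ (by linarith) h3 (by linarith)) n2
      linarith
    have hll : l < l' := by
      by_contra hcon
      rw [not_lt] at hcon
      have h6 : (2 : ℝ) ^ l' ≤ 2 ^ l := pow_le_pow_right₀ (by norm_num) hcon
      have : t₀ / 2 ^ l ≤ t₀ / 2 ^ l' := by gcongr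
      rw [← htd] at this
      linarith
    have hhalf : t₀ / 2 ^ l' ≤ t / 2 := by
      have h6 : (2 : ℝ) ^ (l + 1) ≤ 2 ^ l' := pow_le_pow_right₀ (by norm_num) hll
      calc t₀ / 2 ^ l' ≤ t₀ / 2 ^ (l + 1) := by gcongr
        _ = t / 2 := by rw [htd, pow_succ]; field_simp
    exact noev l' (by linarith) (ih l' (by linarith) hhalf)

/-- **all levels above `o e^U` are qualified** -/
theorem all (D : QD A X m q Cb s t₀ c CV L g₀ Kq κ o U V Φ CS v₀ Evp) {l₀ : ℕ}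
    (hl₀ : o * Real.exp U ≤ t₀ / 2 ^ l₀) :
    Kq * Real.log ((t₀ / 2 ^ l₀) ^ 2 / A (t₀ / 2 ^ l₀)) ^ q * s ^ 2 ≤ A (t₀ / 2 ^ l₀) := by
  have hs := D.hs
  have ho1 := D.o1
  have ht0 := D.ht0
  have hw0 : 0 < o * Real.exp U := by
    have : 0 < o := by linarith
    positivity
  have key : ∀ n : ℕ, ∀ l : ℕ, o * Real.exp U ≤ t₀ / 2 ^ l →
      t₀ / 2 ^ l < 2 ^ n * (o * Real.exp U) →
      Kq * Real.log ((t₀ / 2 ^ l) ^ 2 / A (t₀ / 2 ^ l)) ^ q * s ^ 2 ≤ A (t₀ / 2 ^ l) := by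
    intro n
    induction n with
    | zero => intro l h1 h2; rw [pow_zero, one_mul] at h2; linarith
    | succ n ih =>
      intro l h1 h2
      by_cases hcase : t₀ / 2 ^ l ≤ o * Real.exp Φ
      · exact D.step1 h1 hcase
      · rw [not_le] at hcase
        refine D.step2 hcase fun l' h3 h4 => ih l' h3 ?_
        have : 2 ^ (n + 1) * (o * Real.exp U) = 2 * (2 ^ n * (o * Real.exp U)) := by
          rw [pow_succ]; ring
        linarith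
  obtain ⟨n, hn⟩ := pow_unbounded_of_one_lt (t₀ / (o * Real.exp U)) (one_lt_two (α := ℝ))
  refine key n l₀ hl₀ ?_
  rw [div_lt_iff₀ hw0] at hn
  exact (div_le_self ht0.le (one_le_pow₀ (by norm_num))).trans_lt hn

end QD

end Vale.Agent.P214.PATHG
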